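import Vale.Agent.P027M.D.Atlas

/-!
# P027, route M, block D: the valuation ring of a prime
-/

set_option linter.all false

noncomputable section

namespace Vale.Agent.P027M.D

open NumberField Vale.Agent.P022 IsDedekindDomain

namespace Ov

variable {P : Ideal (𝓞 Qb)}

theorem dich (hP : P.IsPrime) {p : ℕ} (hp : p ≠ 0) (h : (p : 𝓞 Qb) ∈ P) (x : Qb) :
    ∃ s t : 𝓞 Qb, s ∉ P ∧ ((s : Qb) * x = t ∨ x * t = s) := by
  let K : IntermediateField ℚ Qb := IntermediateField.adjoin ℚ {x}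
  have hK : FiniteDimensional ℚ K :=
    IntermediateField.adjoin.finiteDimensional ((AlgebraicClosure.isAlgebraic ℚ).isAlgebraic x).isIntegral
  have hN : NumberField K := NumberField.of_module_finite ℚ K
  let φ : 𝓞 K →+* 𝓞 Qb := RingOfIntegers.mapRingHom (algebraMap K Qb)
  let v : HeightOneSpectrum (𝓞 K) := ⟨P.comap φ, Ideal.comap_isPrime φ P, fun h1 => by
    have h2 : (p : 𝓞 K) ∈ P.comap φ := by
      rw [Ideal.mem_comap, map_natCast]
      exact h
    rw [h1, Ideal.mem_bot] at h2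
    exact hp (Nat.cast_eq_zero.mp h2)⟩
  obtain ⟨t, s, h1⟩ := v.exists_primeCompl_mul_eq_or_mul_eq (K := K)
    (IntermediateField.AdjoinSimple.gen ℚ x)
  refine ⟨φ s.1, φ t, s.2, h1.imp (fun h2 => ?_) fun h2 => ?_⟩
  · have h3 := congrArg (algebraMap K Qb) h2
    rw [map_mul, mul_comm] at h3
    exact h3
  · have h3 := congrArg (algebraMap K Qb) h2
    rw [map_mul] at h3
    exact h3

/-- the localisation at `P` -/
def loc (hP : P.IsPrime) : Subring Qb where
  carrier := {x | ∃ s t : 𝓞 Qb, s ∉ P ∧ (s : Qb) * x = t}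
  mul_mem' := by
    rintro x y ⟨s, t, h1, h2⟩ ⟨s', t', h3, h4⟩
    refine ⟨s * s', t * t', fun h => (hP.mem_or_mem h).elim h1 h3, ?_⟩
    change (s : Qb) * s' * (x * y) = t * t'
    rw [← h2, ← h4]
    ring
  one_mem' := ⟨1, 1, hP.one_notMem, mul_one _⟩
  add_mem' := by
    rintro x y ⟨s, t, h1, h2⟩ ⟨s', t', h3, h4⟩
    refine ⟨s * s', t * s' + s * t', fun h => (hP.mem_or_mem h).elim h1 h3, ?_⟩
    change (s : Qb) * s' * (x + y) = t * s' + s * t'
    rw [← h2, ← h4]
    ring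
  zero_mem' := ⟨1, 0, hP.one_notMem, mul_zero _⟩
  neg_mem' := by
    rintro x ⟨s, t, h1, h2⟩
    refine ⟨s, -t, h1, ?_⟩
    change (s : Qb) * (-x) = -t
    rw [← h2]
    ring

theorem lt_one (hP : P.IsPrime) {O : ValuationSubring Qb} (hO : Over P O) {s t : 𝓞 Qb} {x : Qb}
    (hs : s ∉ P) (ht : t ∈ P) (h : (s : Qb) * x = t) : O.valuation x < 1 := by
  rw [← O.mem_nonunits_iff, O.mem_nonunits_iff_or]
  by_cases hx : x = 0
  · exact Or.inl hx
  · refine Or.inr fun h1 => ?_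
    obtain ⟨s', t', h2, h3⟩ := (hO _).mp h1
    have h4 : s * s' = t * t' := by
      apply RingOfIntegers.ext
      change (s : Qb) * s' = t * t'
      rw [← h, ← h3]
      field_simp
    exact (hP.mem_or_mem (h4 ▸ P.mul_mem_right t' ht)).elim hs h2

end Ov

open Ov in
theorem over_ok : Spec_OVER := by
  intro p P hp hP h
  have h1 : ∀ x : Qb, x ∈ loc hP ∨ x⁻¹ ∈ loc hP := by
    intro x
    obtain ⟨s, t, h2, h3 | h3⟩ := dich hP hp.ne_zero h x
    · exact Or.inl ⟨s, t, h2, h3⟩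
    · by_cases hx : x = 0
      · exact Or.inl (hx ▸ (loc hP).zero_mem)
      · refine Or.inr ⟨s, t, h2, ?_⟩
        rw [← h3, mul_comm x, mul_inv_cancel_right₀ hx]
  have hO : Over P (ValuationSubring.ofSubring (loc hP) h1) := fun x => Iff.rfl
  generalize ValuationSubring.ofSubring (loc hP) h1 = O at hO
  refine ⟨O, hO, fun g hg x hx => ?_, lt_one hP hO hP.one_notMem h (by simp), fun n hn => ?_⟩
  · obtain ⟨s, t, h2, h3⟩ := (hO x).mp hx
    have h4 := mem_inr.mp hg
    have h5 : g • s ∉ P := fun h6 => h2 (by simpa using P.sub_mem h6 (h4 s))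
    refine lt_one hP hO (s := s * g • s) (t := s * (g • t - t) - t * (g • s - s))
      (fun h6 => (hP.mem_or_mem h6).elim h2 h5)
      (P.sub_mem (P.mul_mem_left _ (h4 t)) (P.mul_mem_left _ (h4 s))) ?_
    have h7 := congrArg g h3
    rw [map_mul] at h7
    change (s : Qb) * g s * (g x - x) = s * (g t - t) - t * (g s - s)
    rw [← h7, ← h3]
    ring
  · have h2 : (n : 𝓞 Qb) ∉ P := by
      intro h3
      obtain ⟨a, b, h4⟩ := Nat.Coprime.cast (R := 𝓞 Qb) ((Nat.Prime.coprime_iff_not_dvd hp).mpr hn)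
      exact hP.one_notMem (h4 ▸ P.add_mem (P.mul_mem_left a h) (P.mul_mem_left b h3))
    have h3 : (n : Qb) ≠ 0 := by
      rintro h4
      exact hn (Nat.cast_eq_zero.mp h4 ▸ dvd_zero p)
    have h4 : (n : Qb)⁻¹ ∈ O := (hO _).mpr ⟨n, 1, h2, by simpa using mul_inv_cancel₀ h3⟩
    have h5 := (O.valuation_le_one_iff _).mpr h4
    rw [map_inv₀, inv_le_one₀ (zero_lt_iff.mpr ((map_ne_zero _).mpr h3))] at h5
    exact le_antisymm ((O.valuation_le_one_iff _).mpr (natCast_mem O n)) h5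

end Vale.Agent.P027M.D
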