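import Vale.Agent.P027M.K.Loc

/-!
# P027, route M, block D (geometry): charts, representation of functions, moving lemmas

`O` is a valuation ring of the field of constants `C`, `r : O →+* κ` is a surjection onto a field
(the residue map).  Nothing is assumed about rank, completeness or the characteristic.
-/

set_option linter.all false

noncomputable section

namespace Vale.Agent.P027M.D

open Polynomial IntermediateField Vale.Agent.P019P P025H492 P025H816
open _root_.P027M.K (Val)

/-- `A ↦ A(x, θ)`, the coefficients being mapped by `φ` -/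
def ev {R F : Type*} [CommRing R] [CommRing F] (φ : R →+* F) (x θ : F) : R[X][X] →+* F :=
  eval₂RingHom (eval₂RingHom φ x) θ

section defs

variable {C κ : Type} [Field C] [Field κ] {O : ValuationSubring C}

variable (O) in
/-- the constants of `O` in `F` -/
def io (F : Type) [Field F] [Algebra C F] : O →+* F := (algebraMap C F).comp O.subtype

/-- the residues of `O` in `G` -/
def ib (r : O →+* κ) (G : Type) [Field G] [Algebra κ G] : O →+* G := (algebraMap κ G).comp r

/-- a chart: `F = C(x)(θ)`, `Φ(x, θ) = 0`, the reduction of `Φ` is irreducible -/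
structure Chart (r : O →+* κ) (F : Type) [Field F] [Algebra C F] where
  x : F
  th : F
  Φ : O[X][X]
  bad : Finset κ
  nc : ∀ a : C, x ≠ algebraMap C F a
  monic : Φ.Monic
  root : ev (io O F) x th Φ = 0
  deg : Φ.natDegree = Module.finrank C⟮x⟯ F
  irr : Irreducible (Φ.map ((algebraMap κ[X] (RatFunc κ)).comp (mapRingHom r)))
  sep : ∀ s : κ, s ∉ bad → (Φ.map (eval₂RingHom r s)).Separable

variable {F : Type} [Field F] [Algebra C F] [CFF C F]

/-- the value of `x` at `P` is integral with residue `s` -/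
def InCl (r : O →+* κ) (x : F) (s : κ) (P : Plk C F) : Prop := ∃ a : O, r a = s ∧ Val P x (a : C)

open Classical in
/-- the residue class of `x(P)`; `none` is the class of infinity -/
def cl (r : O →+* κ) (x : F) (P : Plk C F) : Option κ :=
  if h : ∃ s, InCl r x s P then some h.choose else none

open Classical in
/-- the value of `x` at `P`; `none` is infinity -/
def clb {G : Type} [Field G] [Algebra κ G] [CFF κ G] (x : G) (P : Plk κ G) : Option κ :=
  if 0 ≤ ord P x then some (vl P x) else none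

/-- `P` is a good place of the chart `j`, off the classes in `S` -/
def Good {J : Type} (r : O →+* κ) (x : J → F) (S : Finset κ) (j : J) (P : Plk C F) : Prop :=
  (∃ s, s ∉ S ∧ InCl r (x j) s P) ∧ ∀ i, i ≠ j → ∀ s, s ≠ 0 → ¬ InCl r (x i) s P

/-- **the moving property**: every divisor of degree `0` is equivalent to a sum of divisors of
degree `0` on the good places of the charts -/
def Mov {J : Type} [Fintype J] (r : O →+* κ) (x : J → F) : Prop :=
  ∀ (S : Finset κ) (D : Plk C F →₀ ℤ), dg D = 0 → ∃ (u : F) (E : J → Plk C F →₀ ℤ), u ≠ 0 ∧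
    D + dv C u = ∑ j, E j ∧ ∀ j, dg (E j) = 0 ∧ ∀ P ∈ (E j).support, Good r x S j P

/-- the reduced curve of a chart -/
structure Bar {r : O →+* κ} (ch : Chart r F) (G : Type) [Field G] [Algebra κ G] where
  x : G
  th : G
  nc : ∀ a : κ, x ≠ algebraMap κ G a
  root : ev (ib r G) x th ch.Φ = 0
  deg : ch.Φ.natDegree = Module.finrank κ⟮x⟯ G

/-- `w` is the reduction of `z` -/
def Rd {r : O →+* κ} {ch : Chart r F} {G : Type} [Field G] [Algebra κ G] (b : Bar ch G)
    (z : F) (w : G) : Prop :=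
  ∃ (A : O[X][X]) (β : O[X]), β.map r ≠ 0 ∧
    z * eval₂ (io O F) ch.x β = ev (io O F) ch.x ch.th A ∧
    w * eval₂ (ib r G) b.x β = ev (ib r G) b.x b.th A

variable (O) in
/-- the polynomial `c X ∏ (X - z)`, the roots `z ∈ T` lying in even groups on circles of radii
`|ρ j|`, in different residue classes; `|η j| ^ 2` is the Gauss norm on the circle `j` -/
structure Circ (J : Type) (c : C) (T : Finset C) (ρ η : J → C) : Prop where
  two : O.valuation 2 = 1
  c0 : c ≠ 0
  ρ0 : ∀ j, ρ j ≠ 0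
  inj : ∀ i j, O.valuation (ρ i) = O.valuation (ρ j) → i = j
  on : ∀ z ∈ T, ∃ j, O.valuation z = O.valuation (ρ j)
  ne : ∀ j, ∃ z ∈ T, O.valuation z = O.valuation (ρ j)
  even : ∀ j, Even (T.filter fun z => O.valuation z = O.valuation (ρ j)).card
  dist : ∀ z ∈ T, ∀ z' ∈ T, z ≠ z' → O.valuation (z - z') = max (O.valuation z) (O.valuation z')
  nrm : ∀ j, O.valuation (η j) ^ 2 = O.valuation c * O.valuation (ρ j) *
    ∏ z ∈ T, max (O.valuation (ρ j)) (O.valuation z)

/-- the polynomial of a chain -/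
def fch (c : C) (T : Finset C) : C[X] := Polynomial.C c * X * ∏ z ∈ T, (X - Polynomial.C z)

/-- `z` lies on one of the circles, off the classes in `S` and off the class `0` -/
def GdPt {J : Type} (r : O →+* κ) (ρ : J → C) (S : Finset κ) (z : C) : Prop :=
  ∃ (j : J) (a : O), z = ρ j * a ∧ r a ≠ 0 ∧ r a ∉ S

end defs

/-! ### the statements: one chart -/

/-- `UNIT`: an element with non-zero reduction divides a polynomial in `x` with non-zero
reduction; `1, θ, …, θ ^ (d - 1)` are independent; every function is `c A(x, θ) / β(x)` -/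
def BAS : Prop := ∀ (C κ F : Type) [Field C] [Field κ] [Field F] [Algebra C F] [CFF C F]
  (O : ValuationSubring C) (r : O →+* κ), Function.Surjective r → ∀ ch : Chart r F,
  (∀ A : O[X][X], A.degree < ch.Φ.degree → A.map (mapRingHom r) ≠ 0 →
    ∃ (B Q : O[X][X]) (β : O[X]), β.map r ≠ 0 ∧ A * B = Polynomial.C β + ch.Φ * Q) ∧
  (∀ A : O[X][X], ev (io O F) ch.x ch.th A = 0 → ch.Φ ∣ A) ∧
  (∀ z : F, z ≠ 0 → ∃ (c : C) (A : O[X][X]) (β : O[X]), c ≠ 0 ∧ A.degree < ch.Φ.degree ∧
    A.map (mapRingHom r) ≠ 0 ∧ β.map r ≠ 0 ∧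
    z * eval₂ (io O F) ch.x β = algebraMap C F c * ev (io O F) ch.x ch.th A)

/-- `Φ` is the minimal polynomial of `θ` -/
def MINP : Prop := ∀ (C κ F : Type) [Field C] [Field κ] [Field F] [Algebra C F] [CFF C F]
  (O : ValuationSubring C) (r : O →+* κ), Function.Surjective r → ∀ ch : Chart r F,
  minpoly C⟮ch.x⟯ ch.th = ch.Φ.map (eval₂RingHom (io O C⟮ch.x⟯) (AdjoinSimple.gen C ch.x)) ∧
  ∀ (G : Type) [Field G] [Algebra κ G] [CFF κ G] (b : Bar ch G),
    minpoly κ⟮b.x⟯ b.th = ch.Φ.map (eval₂RingHom (ib r κ⟮b.x⟯) (AdjoinSimple.gen κ b.x))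

/-- values at the places above an integral `x = a`; every root of `Φ(a, Y)` is such a value -/
def PT : Prop := ∀ (C κ F : Type) [Field C] [Field κ] [Field F] [Algebra C F] [CFF C F]
  (O : ValuationSubring C) (r : O →+* κ), Function.Surjective r → ∀ (ch : Chart r F) (a : O),
  (∀ P : Plk C F, Val P ch.x (a : C) → ∃ b : O, Val P ch.th (b : C) ∧ ch.Φ.evalEval a b = 0) ∧
  (∀ (P : Plk C F) (b : O), Val P ch.x (a : C) → Val P ch.th (b : C) → ∀ A : O[X][X],
    Val P (ev (io O F) ch.x ch.th A) (A.evalEval a b : O)) ∧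
  ∀ b : O, ch.Φ.evalEval a b = 0 → ∃ P : Plk C F, Val P ch.x (a : C) ∧ Val P ch.th (b : C)

/-- a denominator can be removed in a good class without poles -/
def DEN : Prop := ∀ (C κ F : Type) [Field C] [Field κ] [Field F] [Algebra C F] [CFF C F]
  (O : ValuationSubring C) (r : O →+* κ), Function.Surjective r → ∀ (ch : Chart r F) (z : F)
  (A : O[X][X]) (β : O[X]) (s : κ), s ∉ ch.bad → β.map r ≠ 0 →
  z * eval₂ (io O F) ch.x β = ev (io O F) ch.x ch.th A →
  (∀ P, InCl r ch.x s P → 0 ≤ ord P z) →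
  ∃ (A' : O[X][X]) (β' : O[X]), eval₂ r s β' ≠ 0 ∧
    z * eval₂ (io O F) ch.x β' = ev (io O F) ch.x ch.th A'

/-- **representation of a function** near a good class without zeros and poles -/
def REP : Prop := ∀ (C κ F : Type) [Field C] [Field κ] [Field F] [Algebra C F] [CFF C F]
  (O : ValuationSubring C) (r : O →+* κ), Function.Surjective r → ∀ (ch : Chart r F) (f : F),
  f ≠ 0 → ∃ c : C, c ≠ 0 ∧ ∀ s : κ, s ∉ ch.bad → (∀ P, InCl r ch.x s P → ord P f = 0) →
    ∃ (A : O[X][X]) (β : O[X]), eval₂ r s β ≠ 0 ∧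
      f * eval₂ (io O F) ch.x β = algebraMap C F c * ev (io O F) ch.x ch.th A ∧
      ∀ (P : Plk C F) (a : O), r a = s → Val P ch.x (a : C) →
        ∃ b : O, Val P ch.th (b : C) ∧ IsUnit (A.evalEval a b)

/-! ### the statements: good reduction -/

/-- the roots of an integral polynomial in a residue class -/
def NP : Prop := ∀ (C κ : Type) [Field C] [IsAlgClosed C] [Field κ] [DecidableEq κ]
  (O : ValuationSubring C) (r : O →+* κ), Function.Surjective r → ∀ p : O[X], p.map r ≠ 0 →
  ∃ (R : Multiset O) (q : O[X]), p = (R.map fun a => X - Polynomial.C a).prod * q ∧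
    (∀ a : O, r (q.eval a) ≠ 0) ∧ ∀ s : κ, (R.map r).count s = rootMultiplicity s (p.map r)

/-- the norm of `A(θ)` is a resultant -/
def NRM : Prop := ∀ (K L : Type) [Field K] [Field L] [Algebra K L] [FiniteDimensional K L]
  (A : K[X]) (θ : L) (n : ℕ), (minpoly K θ).natDegree = Module.finrank K L → A.natDegree ≤ n →
  Algebra.norm K (aeval θ A) = resultant (minpoly K θ) A (minpoly K θ).natDegree n

/-- the orders of a function above `x = a` add up to the order of the norm -/
def NRP : Prop := ∀ (k L : Type) [Field k] [Field L] [Algebra k L] [CFF k L] (x z : L) (p : k[X])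
  (a : k), (∀ c : k, x ≠ algebraMap k L c) → p ≠ 0 →
  algebraMap k⟮x⟯ L (Algebra.norm k⟮x⟯ z) = aeval x p →
  Finsupp.mapDomain (clb x) (dv k z) (some a) = rootMultiplicity a p

/-- a function and its reduction have the same degree in every residue class -/
def CNT : Prop := ∀ (C κ F G : Type) [Field C] [Field κ] [Field F] [Field G] [Algebra C F]
  [Algebra κ G] [CFF C F] [CFF κ G] (O : ValuationSubring C) (r : O →+* κ),
  Function.Surjective r → ∀ (ch : Chart r F) (b : Bar ch G) (z : F) (w : G), Rd b z w → w ≠ 0 →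
  z ≠ 0 ∧ Finsupp.mapDomain (cl r ch.x) (dv C z) = Finsupp.mapDomain (clb b.x) (dv κ w)

/-- echelon form over a valuation ring -/
def ECH : Prop := ∀ (C ι : Type) [Field C] (O : ValuationSubring C) (V : Submodule C (ι →₀ C))
  [FiniteDimensional C V], ∃ (v : Fin (Module.finrank C V) → ι →₀ C)
    (e : Fin (Module.finrank C V) → ι), (∀ k, v k ∈ V) ∧ (∀ k i, v k i ∈ O) ∧
      ∀ k l, v k (e l) = if k = l then 1 else 0

/-- reduction keeps the dimension -/
def LAT : Prop := ∀ (C κ F G : Type) [Field C] [Field κ] [Field F] [Field G] [Algebra C F]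
  [Algebra κ G] [CFF C F] [CFF κ G] (O : ValuationSubring C) (r : O →+* κ),
  Function.Surjective r → ∀ (ch : Chart r F) (b : Bar ch G) (V : Submodule C F)
  [FiniteDimensional C V], ∃ (z : Fin (Module.finrank C V) → F)
    (w : Fin (Module.finrank C V) → G), (∀ k, z k ∈ V ∧ Rd b (z k) (w k)) ∧ LinearIndependent κ w

/-- reduction of `L(N (x)_∞)` -/
def RED : Prop := ∀ (C κ F G : Type) [Field C] [Field κ] [Field F] [Field G] [Algebra C F]
  [Algebra κ G] [CFF C F] [CFF κ G] (O : ValuationSubring C) (r : O →+* κ),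
  Function.Surjective r → ∀ (ch : Chart r F) (b : Bar ch G) (z : F) (w : G) (N : ℕ), Rd b z w →
  z ∈ LL C (N • pol C ch.x) → w ∈ LL κ (N • pol κ b.x)

/-- in a subspace of codimension at most one of `L(E)` there is a function with at most one zero
in a given finite set -/
def GEN : Prop := ∀ (κ G : Type) [Field κ] [Field G] [Algebra κ G] [CFF κ G]
  (E : Plk κ G →₀ ℤ) (Z : Finset (Plk κ G)) (U : Submodule κ G), dg (can κ G) + 2 < dg E →
  U ≤ LL κ E → Module.finrank κ (LL κ E) ≤ Module.finrank κ U + 1 →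
  ∃ w ∈ U, w ≠ 0 ∧ ∑ P ∈ Z, (E + dv κ w) P ≤ 1

/-- **moving lemma, good reduction** -/
def MOVG : Prop := ∀ (C κ F G : Type) [Field C] [Field κ] [Field F] [Field G] [Algebra C F]
  [Algebra κ G] [CFF C F] [CFF κ G] (O : ValuationSubring C) (r : O →+* κ),
  Function.Surjective r → ∀ (ch : Chart r F) (b : Bar ch G), gen C F ≤ gen κ G →
  Mov r (fun _ : Unit => ch.x)

/-- a separable reduction has finitely many bad classes -/
def SEPB : Prop := ∀ (κ : Type) [Field κ] (Ψ : κ[X][X]), Ψ.Monic →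
  (Ψ.map (algebraMap κ[X] (RatFunc κ))).Separable →
  ∃ B : Finset κ, ∀ s, s ∉ B → (Ψ.map (evalRingHom s)).Separable

/-! ### the statements: chains -/

/-- the reduction of the polynomial of a chain on a circle -/
def FJ : Prop := ∀ (C κ J : Type) [Field C] [Field κ] [Fintype J]
  (O : ValuationSubring C) (r : O →+* κ), Function.Surjective r →
  ∀ (c : C) (T : Finset C) (ρ η : J → C), Circ O J c T ρ η → ∀ j, ∃ g : O[X],
    (∀ a : O, ((g.eval a : O) : C) * η j ^ 2 = (fch c T).eval (ρ j * a)) ∧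
    g.map O.subtype * Polynomial.C (η j ^ 2) = (fch c T).comp (Polynomial.C (ρ j) * X) ∧
    Odd (g.map r).natDegree ∧
    ∀ s : κ, s ≠ 0 → (g.map r).eval s = 0 → (derivative (g.map r)).eval s ≠ 0

/-- the interpolating function `α / β` -/
def LAM : Prop := ∀ (C κ J : Type) [Field C] [IsAlgClosed C] [Field κ] [Fintype J]
  (O : ValuationSubring C) (r : O →+* κ), Function.Surjective r →
  ∀ (c : C) (T : Finset C) (ρ η : J → C), Circ O J c T ρ η → ∀ (S : Finset κ) (a b : C),
  b ≠ 0 → b ^ 2 = (fch c T).eval a → ¬ GdPt r ρ S a →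
  ∃ α β : C[X], α.eval a = b * β.eval a ∧
    rootMultiplicity a (fch c T * β ^ 2 - α ^ 2) = 1 ∧
    ∀ z : C, (fch c T * β ^ 2 - α ^ 2).eval z = 0 → z = a ∨ z = 0 ∨ GdPt r ρ S z

/-- the hyperelliptic involution: an automorphism, and the places it fixes -/
def IOT : Prop := ∀ (C F : Type) [Field C] [Field F] [Algebra C F] [CFF C F] (x y : F) (f : C[X]),
  (2 : C) ≠ 0 → (∀ a : C, x ≠ algebraMap C F a) → Module.finrank C⟮x⟯ F = 2 →
  y ^ 2 = aeval x f → Odd f.natDegree → Squarefree f →
  ∃ ι : Plk C F ≃ Plk C F,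
    (∀ (P : Plk C F) (α β : C[X]),
      ord (ι P) (aeval x α + aeval x β * y) = ord P (aeval x α - aeval x β * y)) ∧
    (∀ P, ord P x < 0 → ι P = P) ∧ (∀ P a, Val P x a → f.eval a = 0 → ι P = P) ∧
    (∀ P a, Val P x a → Val (ι P) x a) ∧
    (∀ P a, Val P x a → f.eval a ≠ 0 → ord P (x - algebraMap C F a) = 1 ∧
      (∃ b, Val P y b ∧ b ^ 2 = f.eval a ∧ Val (ι P) y (-b)) ∧
      ∀ Q, Val Q x a → Q = P ∨ Q = ι P) ∧
    ∀ D : Plk C F →₀ ℤ, dg D = 0 → D + Finsupp.mapDomain ι D ∈ prn C F

/-- the charts of a chain -/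
def CHC : Prop := ∀ (C κ F J : Type) [Field C] [Field κ] [Field F] [Algebra C F] [CFF C F]
  [Fintype J] (O : ValuationSubring C) (r : O →+* κ), Function.Surjective r →
  ∀ (c : C) (T : Finset C) (ρ η : J → C), Circ O J c T ρ η → ∀ x y : F,
  (∀ a : C, x ≠ algebraMap C F a) → Module.finrank C⟮x⟯ F = 2 → y ^ 2 = aeval x (fch c T) →
  ∀ j, ∃ ch : Chart r F, ch.x = algebraMap C F (ρ j)⁻¹ * x ∧ ch.th = algebraMap C F (η j)⁻¹ * y

/-- **moving lemma, chains** -/
def MOVC : Prop := ∀ (C κ F J : Type) [Field C] [Field κ] [Field F] [Algebra C F] [CFF C F]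
  [Fintype J] (O : ValuationSubring C) (r : O →+* κ), Function.Surjective r →
  ∀ (c : C) (T : Finset C) (ρ η : J → C), Circ O J c T ρ η → ∀ x y : F,
  (∀ a : C, x ≠ algebraMap C F a) → Module.finrank C⟮x⟯ F = 2 → y ^ 2 = aeval x (fch c T) →
  Mov r (fun j => algebraMap C F (ρ j)⁻¹ * x)

end Vale.Agent.P027M.D
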