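import Vale.Agent.P027M.D.Fl
import Vale.Agent.P027M.D.Geo

/-!
# P027, route M, block D: charts, atlases and the statements of the block
-/

set_option linter.all false

noncomputable section

namespace Vale.Agent.P027M.D

open NumberField Polynomial Vale.Agent.P022 Vale.Agent.P019P P025H816

section

variable {F : Type} [Field F] [Algebra Qb F] [CFF Qb F]

/-- `r σ` is `σ`-semilinear for `σ ∈ I` -/
def Semi (I : Subgroup GQ) (r : GQ → F ≃+* F) : Prop :=
  ∀ σ ∈ I, ∀ c : Qb, r σ (algebraMap Qb F c) = algebraMap Qb F (σ c)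

/-- a finite family of invariant charts with the moving property -/
structure Atlas (O : ValuationSubring Qb) (I : Subgroup GQ) (r : GQ → F ≃+* F) where
  κ : Type
  [fκ : Field κ]
  res : O →+* κ
  surj : Function.Surjective res
  J : Type
  [fJ : Fintype J]
  ch : J → Chart res F
  fx : ∀ σ ∈ I, ∀ j, r σ (ch j).x = (ch j).x
  fth : ∀ σ ∈ I, ∀ j, r σ (ch j).th = (ch j).th
  mov : Mov res fun j => (ch j).x

/-- `Fl` for the Kummer classes of level `m`, on representatives -/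
def FlK (O : ValuationSubring Qb) (I : Subgroup GQ) (r : GQ → F ≃+* F) (m : ℕ) : Prop :=
  ∀ χ : Fˣ → Qb, (∀ f ∈ divU Qb F m, ∀ g ∈ divU Qb F m, χ (f * g) = χ f * χ g) →
    (∀ f ∈ powU F m, χ f = 1) → ∀ f ∈ divU Qb F m,
      (fun σ : I => χ (Units.map (r σ : F →* F) f)) ∈ Bs O I

/-- `I` acts trivially on the Kummer classes of level `m` -/
def Triv (I : Subgroup GQ) (r : GQ → F ≃+* F) (m : ℕ) : Prop :=
  ∀ σ ∈ I, ∀ f ∈ divU Qb F m, Units.map (r σ : F →* F) f / f ∈ powU F m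

end

/-- the scalar form: `w ^ φ` lies in `Bs` -/
def FlS (O : ValuationSubring Qb) (I : Subgroup GQ) (w : Qb) (φ : GQ → ZMod 3) : Prop :=
  (fun σ : I => w ^ (φ σ).val) ∈ Bs O I

/-! ### statements -/

/-- row OVER: the valuation ring of a prime -/
def Spec_OVER : Prop := ∀ (p : ℕ) (P : Ideal (𝓞 Qb)), p.Prime → P.IsPrime → (p : 𝓞 Qb) ∈ P →
  ∃ O : ValuationSubring Qb, Over P O ∧ Ine O (inr P) ∧ O.valuation (p : Qb) < 1 ∧
    ∀ n : ℕ, ¬ p ∣ n → O.valuation (n : Qb) = 1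

/-- row FLA: an atlas gives `FlK` at every level -/
def Spec_FLA : Prop := REP → ∀ (F : Type) [Field F] [Algebra Qb F] [CFF Qb F] (O : ValuationSubring Qb)
  (I : Subgroup GQ) (r : GQ → F ≃+* F), Ine O I → Semi I r → Nonempty (Atlas O I r) →
  ∀ m : ℕ, m ≠ 0 → FlK O I r m

/-- row UNR: at levels prime to the residue characteristic the action is trivial -/
def Spec_UNR : Prop := ∀ (F : Type) [Field F] [Algebra Qb F] [CFF Qb F] (O : ValuationSubring Qb)
  (I : Subgroup GQ) (r : GQ → F ≃+* F) (m : ℕ), Ine O I → Semi I r → r 1 = RingEquiv.refl F →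
  O.valuation (m : Qb) = 1 → FlK O I r m → Triv I r m

/-- row FLM: from representatives to any model of the Kummer classes -/
def Spec_FLM : Prop := ∀ (F : Type) [Field F] [Algebra Qb F] [CFF Qb F] (O : ValuationSubring Qb)
  (I : Subgroup GQ) (r : GQ → F ≃+* F) (m : ℕ) (M : Type) [AddCommGroup M] (q : Fˣ → M)
  (a : GQ → M → M), FlK O I r m →
  (∀ f ∈ divU Qb F m, ∀ g ∈ divU Qb F m, q (f * g) = q f + q g) → (∀ f ∈ powU F m, q f = 0) →
  (∀ y, ∃ f ∈ divU Qb F m, q f = y) →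
  (∀ σ ∈ I, ∀ f ∈ divU Qb F m, a σ (q f) = q (Units.map (r σ : F →* F) f)) → Fl O I a

/-- row FLS: matrix coefficients modulo `3` -/
def Spec_FLS : Prop := ∀ (O : ValuationSubring Qb) (I : Subgroup GQ) (w : Qb) (M : Type)
  [AddCommGroup M] (a : GQ → M → M), w ^ 2 + w + 1 = 0 → Fl O I a → ∀ (f : M →+ ZMod 3) (y : M),
  FlS O I w fun g => f (a g y) - f y

/-- row FONT: the ramification bound in Kummer form (`Base`, `Law`, `Lev` of block S unfolded) -/
def Spec_FONT : Prop := ∀ (P : Ideal (𝓞 Qb)) (O : ValuationSubring Qb) (Γ : Subgroup GQ) (w y : Qb)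
  (φ : GQ → ZMod 3), P.IsPrime → (3 : 𝓞 Qb) ∈ P → Over P O → w ^ 2 + w + 1 = 0 →
  IsOpen (Γ : Set GQ) → Γ.Normal → (∀ g : GQ, ∃ a : ℕ, g ^ 2 ^ a ∈ Γ) → FlS O (inr P) w φ →
  (∀ σ ∈ Γ, σ y = w ^ (φ σ).val * y) → ∀ k : ℕ, k = 4 ∨ k = 2 →
  ¬ ∃ s t : 𝓞 Qb, s ∉ P ∧ t ∉ P ∧ (s : Qb) * (y ^ 3 - 1) ^ k = 3 * (t : Qb)

end Vale.Agent.P027M.D
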