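import Vale.Agent.P022.H20.GalDef

/-!
# P027, route M, block D: the ring `B = O ⊗ O` of functions on an inertia group and the property `Fl`
-/

set_option linter.all false

noncomputable section

namespace Vale.Agent.P027M.D

open NumberField Vale.Agent.P022

/-- `O` is the valuation ring of the prime `P` -/
def Over (P : Ideal (𝓞 Qb)) (O : ValuationSubring Qb) : Prop :=
  ∀ x : Qb, x ∈ O ↔ ∃ s t : 𝓞 Qb, s ∉ P ∧ (s : Qb) * x = t

/-- the elements of `I` act trivially on the residue field of `O` -/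
def Ine (O : ValuationSubring Qb) (I : Subgroup GQ) : Prop :=
  ∀ σ ∈ I, ∀ x ∈ O, O.valuation (σ x - x) < 1

/-- the inertia group of `P` -/
def inr (P : Ideal (𝓞 Qb)) : Subgroup GQ := P.toAddSubgroup.inertia GQ

theorem mem_inr {P : Ideal (𝓞 Qb)} {g : GQ} : g ∈ inr P ↔ ∀ x : 𝓞 Qb, g • x - x ∈ P := Iff.rfl

/-- the functions `σ ↦ ∑ cᵢ σ(xᵢ)` on `I`, `cᵢ, xᵢ ∈ O` -/
def Bs (O : ValuationSubring Qb) (I : Subgroup GQ) : Subring (I → Qb) :=
  Subring.closure ({z | ∃ c ∈ O, z = fun _ => c} ∪ {z | ∃ x ∈ O, z = fun σ : I => (σ : GQ) x})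

/-- all characters of `M` are integral in both variables along the orbits of `I` -/
def Fl (O : ValuationSubring Qb) (I : Subgroup GQ) {M : Type*} [AddCommGroup M]
    (a : GQ → M → M) : Prop :=
  ∀ (χ : AddChar M Qb) (x : M), (fun σ : I => χ (a σ x)) ∈ Bs O I

variable {O : ValuationSubring Qb} {I : Subgroup GQ}

theorem const_mem {c : Qb} (hc : c ∈ O) : (fun _ : I => c) ∈ Bs O I :=
  Subring.subset_closure (Or.inl ⟨c, hc, rfl⟩)

theorem gal_mem {x : Qb} (hx : x ∈ O) : (fun σ : I => (σ : GQ) x) ∈ Bs O I :=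
  Subring.subset_closure (Or.inr ⟨x, hx, rfl⟩)

theorem Ine.mono (h : Ine O I) {J : Subgroup GQ} (hJ : J ≤ I) : Ine O J := fun σ hσ => h σ (hJ hσ)

theorem Ine.mem (h : Ine O I) {σ : GQ} (hσ : σ ∈ I) {x : Qb} (hx : x ∈ O) : σ x ∈ O := by
  have := O.add_mem _ _ ((O.valuation_le_one_iff _).1 (h σ hσ x hx).le) hx
  rwa [sub_add_cancel] at this

theorem Ine.val (h : Ine O I) {σ : GQ} (hσ : σ ∈ I) {x : Qb} (hx : O.valuation x = 1) :
    O.valuation (σ x) = 1 := by
  have k := h σ hσ x ((O.valuation_le_one_iff _).1 hx.le)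
  have := Valuation.map_add_eq_of_lt_left O.valuation (x := x) (y := σ x - x) (by rwa [hx])
  rwa [add_sub_cancel, hx] at this

/-- values are integral and constant modulo the maximal ideal -/
theorem Bs_val (h : Ine O I) {z : I → Qb} (hz : z ∈ Bs O I) (σ : I) :
    z σ ∈ O ∧ O.valuation (z σ - z 1) < 1 := by
  suffices H : (∀ τ, z τ ∈ O) ∧ O.valuation (z σ - z 1) < 1 from ⟨H.1 σ, H.2⟩
  induction hz using Subring.closure_induction with
  | mem z hz =>
    rcases hz with ⟨c, hc, rfl⟩ | ⟨x, hx, rfl⟩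
    · exact ⟨fun _ => hc, by simp⟩
    · exact ⟨fun τ => h.mem τ.2 hx, by simpa using h σ σ.2 x hx⟩
  | zero => exact ⟨fun _ => O.zero_mem, by simp⟩
  | one => exact ⟨fun _ => O.one_mem, by simp⟩
  | add y z _ _ hy hz =>
    refine ⟨fun τ => O.add_mem _ _ (hy.1 τ) (hz.1 τ), ?_⟩
    rw [show (y + z) σ - (y + z) 1 = (y σ - y 1) + (z σ - z 1) by simp only [Pi.add_apply]; ring]
    exact Valuation.map_add_lt _ hy.2 hz.2
  | neg y _ hy =>
    refine ⟨fun τ => O.neg_mem _ (hy.1 τ), ?_⟩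
    rw [show (-y) σ - (-y) 1 = -(y σ - y 1) by simp only [Pi.neg_apply]; ring, Valuation.map_neg]
    exact hy.2
  | mul y z _ _ hy hz =>
    refine ⟨fun τ => O.mul_mem _ _ (hy.1 τ) (hz.1 τ), ?_⟩
    rw [show (y * z) σ - (y * z) 1 = (y σ - y 1) * z σ + y 1 * (z σ - z 1) by
      simp only [Pi.mul_apply]; ring]
    refine Valuation.map_add_lt _ ?_ ?_ <;> rw [map_mul]
    · exact mul_lt_one_of_lt_of_le hy.2 ((O.valuation_le_one_iff _).2 (hz.1 σ))
    · rw [mul_comm]
      exact mul_lt_one_of_lt_of_le hz.2 ((O.valuation_le_one_iff _).2 (hy.1 1))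

/-- a function with finitely many values, all units, is invertible in `Bs` -/
theorem inv_mem {z : I → Qb} (hz : z ∈ Bs O I) (hf : (Set.range z).Finite)
    (hu : ∀ σ, O.valuation (z σ) = 1) : z⁻¹ ∈ Bs O I := by
  classical
  have key : ∀ S : Finset Qb, (∀ c ∈ S, O.valuation c = 1) →
      ∃ y ∈ Bs O I, ∀ σ, ∏ c ∈ S, (1 - c⁻¹ * z σ) = 1 - y σ * z σ := by
    intro S
    induction S using Finset.induction_on with
    | empty => exact fun _ => ⟨0, zero_mem _, fun σ => by simp⟩
    | insert c S hc ih =>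
      intro hS
      obtain ⟨y, y1, y2⟩ := ih fun d hd => hS d (Finset.mem_insert_of_mem hd)
      have hc' : (fun _ : I => c⁻¹) ∈ Bs O I := const_mem ((O.valuation_le_one_iff _).1 (by
        rw [map_inv₀, hS c (Finset.mem_insert_self _ _), inv_one]))
      refine ⟨y + (fun _ => c⁻¹) - (fun _ => c⁻¹) * z * y,
        sub_mem (add_mem y1 hc') (mul_mem (mul_mem hc' hz) y1), fun σ => ?_⟩
      rw [Finset.prod_insert hc, y2]
      simp only [Pi.sub_apply, Pi.add_apply, Pi.mul_apply]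
      ring
  obtain ⟨y, y1, y2⟩ := key hf.toFinset fun c hc => by
    obtain ⟨σ, rfl⟩ := hf.mem_toFinset.1 hc
    exact hu σ
  convert y1 using 1
  funext σ
  have h0 : z σ ≠ 0 := fun h => by simpa [h] using hu σ
  have := y2 σ
  rw [Finset.prod_eq_zero (hf.mem_toFinset.2 ⟨σ, rfl⟩) (by rw [inv_mul_cancel₀ h0, sub_self])] at this
  exact (eq_inv_of_mul_eq_one_left (sub_eq_zero.1 this.symm).symm).symm

theorem Bs_res {J : Subgroup GQ} (hJ : J ≤ I) {z : I → Qb} (hz : z ∈ Bs O I) :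
    (fun σ : J => z ⟨σ, hJ σ.2⟩) ∈ Bs O J := by
  induction hz using Subring.closure_induction with
  | mem z hz =>
    rcases hz with ⟨c, hc, rfl⟩ | ⟨x, hx, rfl⟩
    · exact const_mem hc
    · exact gal_mem hx
  | zero => exact zero_mem _
  | one => exact one_mem _
  | add y z _ _ hy hz => exact add_mem hy hz
  | neg y _ hy => exact neg_mem hy
  | mul y z _ _ hy hz => exact mul_mem hy hz

section closure

variable {M N : Type*} [AddCommGroup M] [AddCommGroup N] {a : GQ → M → M} {b : GQ → N → N}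

theorem Fl.mono (h : Fl O I a) {J : Subgroup GQ} (hJ : J ≤ I) : Fl O J a := fun χ x =>
  Bs_res hJ (h χ x)

/-- quotients -/
theorem Fl.of_surj (h : Fl O I a) (f : M →+ N) (hf : Function.Surjective f)
    (e : ∀ σ ∈ I, ∀ x, f (a σ x) = b σ (f x)) : Fl O I b := fun χ y => by
  obtain ⟨x, rfl⟩ := hf y
  have := h (χ.compAddMonoidHom f) x
  simp only [AddChar.compAddMonoidHom_apply] at this
  convert this using 2 with σ
  rw [e σ σ.2]

theorem exists_ext (f : N →+ M) (hf : Function.Injective f) (χ : AddChar N Qb) :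
    ∃ ψ : AddChar M Qb, ∀ y, ψ (f y) = χ y := by
  let _ : DivisibleBy (Additive Qbˣ) ℤ := by
    refine divisibleByOfSMulRightSurj _ _ fun {n} hn x => ?_
    obtain ⟨y, hy⟩ := IsAlgClosed.exists_pow_nat_eq ((x.toMul : Qbˣ) : Qb) (Int.natAbs_pos.2 hn)
    have y0 : y ≠ 0 := by
      rintro rfl
      exact x.toMul.ne_zero (by rw [← hy, zero_pow (Int.natAbs_ne_zero.2 hn)])
    refine ⟨n.sign • Additive.ofMul (Units.mk0 y y0), ?_⟩
    show n • _ = x
    rw [smul_smul, Int.mul_sign_self, natCast_zsmul]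
    exact Additive.toMul.injective (Units.ext (by simpa using hy))
  let c : N →+ Additive Qbˣ := (MonoidHom.toHomUnits χ.toMonoidHom).toAdditiveRight
  obtain ⟨g, hg⟩ := (Module.Baer.of_divisible (Additive Qbˣ)).extension_property_addMonoidHom f hf c
  refine ⟨AddChar.toMonoidHomEquiv.symm ((Units.coeHom Qb).comp g.toMultiplicativeLeft), fun y => ?_⟩
  show (((g (f y)).toMul : Qbˣ) : Qb) = χ y
  rw [show g (f y) = c y from DFunLike.congr_fun hg y]
  rfl

/-- subgroups -/
theorem Fl.of_inj (h : Fl O I a) (f : N →+ M) (hf : Function.Injective f)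
    (e : ∀ σ ∈ I, ∀ y, f (b σ y) = a σ (f y)) : Fl O I b := fun χ y => by
  obtain ⟨ψ, hψ⟩ := exists_ext f hf χ
  convert h ψ (f y) using 2 with σ
  rw [← e σ σ.2, hψ]

theorem Fl.prod (h : Fl O I a) (h' : Fl O I b) :
    Fl O I (fun σ (x : M × N) => (a σ x.1, b σ x.2)) := fun χ x => by
  convert mul_mem (h (χ.compAddMonoidHom (AddMonoidHom.inl M N)) x.1)
    (h' (χ.compAddMonoidHom (AddMonoidHom.inr M N)) x.2) using 2 with σ
  simp [← AddChar.map_add_eq_mul]

theorem Fl.pi (h : Fl O I a) (ι : Type*) [Fintype ι] :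
    Fl O I (fun σ (x : ι → M) i => a σ (x i)) := fun χ x => by
  classical
  convert prod_mem (t := Finset.univ) fun i _ =>
    h (χ.compAddMonoidHom (AddMonoidHom.single (fun _ : ι => M) i)) (x i) using 2 with σ
  rw [Finset.prod_apply]
  simp only [AddChar.compAddMonoidHom_apply, AddMonoidHom.single_apply]
  have : ∀ (s : Finset ι) (u : ι → ι → M), χ (∑ i ∈ s, u i) = ∏ i ∈ s, χ (u i) := fun s u => by
    induction s using Finset.induction_on with
    | empty => simp
    | insert i s hi ih => rw [Finset.sum_insert hi, Finset.prod_insert hi, χ.map_add_eq_mul, ih]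
  rw [← this, Finset.univ_sum_single]

end closure

end Vale.Agent.P027M.D
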