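import Vale.Agent.P027M.D.OutAll
import Vale.Agent.P027M.X.ToPc
import Vale.Agent.P027M.S.Loc

/-!
# P027, route M, block D: inertia at the auxiliary primes `7` and `19`
-/

set_option linter.all false

noncomputable section

namespace Vale.Agent.P027M.D

open NumberField Polynomial Vale.Agent.P022 Vale.Agent.P019P P025H816 _root_.P027M.K
open Vale.Agent.P027M.F

/-- **AUX**: `s ^ 2 = -1` and `ψ s ψ⁻¹ = s⁻¹` on the torsion of order prime to `p` -/
def AUX : Prop := ∀ (g : ℚ) (X : Cfg g), Std g → ∀ p : ℕ, p = 7 ∨ p = 19 → ∃ s ψ : GQ,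
  s (X.i : Qb) = X.i ∧ ψ (X.i : Qb) = -X.i ∧ ∀ θ θ' : SL Qb X.P.FC,
    (θ : X.P.FC ≃+* X.P.FC) = X.rC s → (θ' : X.P.FC ≃+* X.P.FC) = X.rC (ψ * s * ψ⁻¹) →
    ∀ (m : ℕ) (x : Pc Qb X.P.FC), ¬ p ∣ m → m • x = 0 →
      actP θ (actP θ x) = -x ∧ actP θ' (actP θ x) = x

theorem Same.actP {F : Type} [Field F] [Algebra Qb F] [CFF Qb F] {m : ℕ} (hm : m ≠ 0)
    {θ θ' : SL Qb F} (h : Same m (θ : F ≃+* F) (θ' : F ≃+* F)) {x : Pc Qb F} (hx : m • x = 0) :
    actP θ x = actP θ' x := by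
  obtain ⟨f, hf, rfl⟩ := exists_tP hm hx
  rw [actP_tP θ hm hf, actP_tP θ' hm hf, eq_comm, tP_eq_iff hm (act_mem θ' hf) (act_mem θ hf),
    mul_comm, ← div_eq_mul_inv]
  exact h f hf

namespace Auxp

open Fc

variable {O : ValuationSubring Qb} {g : ℚ}

theorem val_g (hg : Std g) {p : ℕ} (hp : p = 7 ∨ p = 19) (hv : O.valuation (p : Qb) < 1) :
    O.valuation (g : Qb) = O.valuation (p : Qb) ^ 2 := by
  have pp : p.Prime := by rcases hp with rfl | rfl <;> norm_num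
  obtain ⟨u, hu, hc⟩ := hg.loc
  obtain ⟨w, hw⟩ : p ^ 3 ∣ W0 := by rcases hp with rfl | rfl <;> norm_num [W0]
  obtain ⟨n, hn, hn'⟩ : ∃ n : ℕ, 17689 = p ^ 2 * n ∧ ¬ p ∣ n := by
    rcases hp with rfl | rfl
    · exact ⟨361, by norm_num, by norm_num⟩
    · exact ⟨49, by norm_num, by norm_num⟩
  have h3 : ¬ p ∣ u.den := fun h => pp.one_lt.ne' (Nat.eq_one_of_dvd_coprimes hc h (by
    rw [hw]; exact (dvd_pow_self p three_ne_zero).mul_right w))
  have d1 := Out1.val_nat ratv pp hv h3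
  have d2 := Out1.val_nat ratv pp hv (m := 16729) (by rcases hp with rfl | rfl <;> norm_num)
  have d3 := Out1.val_nat ratv pp hv hn'
  have e : (g : Qb) = (p : Qb) ^ 2 * ((n : Qb) / ((16729 : ℕ) : Qb) +
      (p : Qb) * ((w : Qb) * ((u.num : Qb) / (u.den : Qb)))) := by
    have k : ((17689 : ℕ) : Qb) = (p : Qb) ^ 2 * n := by rw [hn]; push_cast; ring
    rw [hu, ← Rat.cast_def, hw, g0]
    push_cast at k ⊢
    rw [k]
    ring
  have k1 : O.valuation ((n : Qb) / ((16729 : ℕ) : Qb)) = 1 := by rw [map_div₀, d2, d3, div_one]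
  rw [e, map_mul, map_pow, Valuation.map_add_eq_of_lt_left, k1, mul_one]
  rw [k1, map_mul]
  refine mul_lt_one_of_lt_of_le hv ?_
  rw [map_mul, map_div₀, d1, div_one]
  exact mul_le_one' (Out1.nat_le _) (int_le _)

theorem val_beta (X : Cfg g) {p : ℕ} (hp : p = 7 ∨ p = 19) (hv : O.valuation (p : Qb) < 1) :
    O.valuation (gi (X.i : Qb) X.d.β) = O.valuation (p : Qb) := by
  have pp : p.Prime := by rcases hp with rfl | rfl <;> norm_num
  obtain ⟨-, h2, b, hb, -⟩ := X.d.vis2 p hp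
  have n0 : (X.d.β.norm : ℚ) ≠ 0 := by
    exact_mod_cast fun e => beta_ne X (GaussianInt.norm_eq_zero.1 e)
  have h := (ratv O p _ pp hv n0).1
  have p0 : O.valuation (p : Qb) ≠ 0 := (Valuation.ne_zero_iff _).2 (by exact_mod_cast pp.ne_zero)
  rw [padicValRat.of_int, h2, hb, Zsqrtd.norm_mul, Zsqrtd.norm_natCast] at h
  push_cast at h
  rw [map_mul, map_mul, zpow_ofNat, pow_two, mul_eq_left₀ (mul_ne_zero p0 p0),
    ← gi_norm (hi' X)] at h
  rw [hb, gi_mul (hi' X), gi_nat, map_mul,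
    one_of_mul (gi_le (hi' X) _) (gi_le (hi' X) _) h, mul_one]

theorem iota_W {k : Type} [Field k] [IsAlgClosed k] (P : Par k) :
    P.iota P.W = P.ι P.i * P.W := by
  rw [P.W_eq]
  simp only [map_div₀, map_mul P.iota, map_pow, map_sub, P.iota_c, P.iota_M1, P.iota_Y]
  ring

end Auxp

open Fc Auxp

theorem aux0 : AUX := by
  intro g X hg p hp
  have pp : p.Prime := by rcases hp with rfl | rfl <;> norm_num
  have p3 : 3 < p := by rcases hp with rfl | rfl <;> norm_num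
  have p12 : p % 12 = 7 := by rcases hp with rfl | rfl <;> norm_num
  have p2 : p ≠ 2 := by omega
  have pq : (p : Qb) ≠ 0 := by exact_mod_cast pp.ne_zero
  have hi := hi' X
  obtain ⟨P, hP, hpP⟩ : ∃ P : Ideal (𝓞 Qb), P.IsPrime ∧ (p : 𝓞 Qb) ∈ P := by
    have : ¬ IsUnit (p : 𝓞 Qb) := fun h => by
      obtain ⟨u, hu⟩ := h.exists_right_inv
      have h1 : IsIntegral ℤ (algebraMap ℚ Qb (p : ℚ)⁻¹) := by
        have : algebraMap ℚ Qb (p : ℚ)⁻¹ = (u : Qb) := by
          rw [map_inv₀, map_natCast]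
          refine inv_eq_of_mul_eq_one_right ?_
          have := congrArg (algebraMap (𝓞 Qb) Qb) hu
          rwa [map_mul, map_natCast, map_one] at this
        rw [this]; exact u.isIntegral_coe
      obtain ⟨z, hz⟩ := IsIntegrallyClosed.isIntegral_iff.1
        ((isIntegral_algebraMap_iff (algebraMap ℚ Qb).injective).1 h1)
      have h2 : (p : ℤ) * z = 1 := by
        have : ((p : ℤ) * z : ℚ) = 1 := by
          rw [eq_intCast] at hz
          rw [hz]; push_cast; exact mul_inv_cancel₀ (by exact_mod_cast pp.ne_zero)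
        exact_mod_cast this
      have := Int.eq_one_of_mul_eq_one_right (by positivity) h2
      omega
    obtain ⟨P, h1, h2⟩ := Ideal.exists_le_maximal (Ideal.span {(p : 𝓞 Qb)})
      (by rwa [Ne, Ideal.span_singleton_eq_top])
    exact ⟨P, h1.isPrime, h2 (Ideal.mem_span_singleton_self _)⟩
  obtain ⟨O, -, hI, hv, -⟩ := over_ok p P pp hP hpP
  have h2 := (ratv O p 1 pp hv one_ne_zero).2 p2
  have fi := fix_i X fixu hI h2
  have p0 : O.valuation (p : Qb) ≠ 0 := (Valuation.ne_zero_iff _).2 pq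
  obtain ⟨t, ht⟩ := IsAlgClosed.exists_pow_nat_eq (p : Qb) (n := 4) (by norm_num)
  obtain ⟨δ, hδ⟩ := IsAlgClosed.exists_pow_nat_eq X.P.g0 (n := 4) (by norm_num)
  obtain ⟨w, hw⟩ : ∃ w : Qb, w ^ 2 + w + 1 = 0 := by
    obtain ⟨y, hy⟩ := IsAlgClosed.exists_pow_nat_eq (-3 : Qb) (n := 2) (by norm_num)
    exact ⟨(y - 1) / 2, by linear_combination hy / 4⟩
  have t0 : t ≠ 0 := by rintro rfl; exact pq (by rw [← ht]; norm_num)
  haveI := Fact.mk pp
  obtain ⟨s, hs, sb⟩ := S.ram hP pp p3 hpP (b := t ^ 2) (c := (p : ℤ) ^ 2)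
    (by push_cast; rw [← ht]; ring) (pow_ne_zero _ (by exact_mod_cast pp.ne_zero)) (by
      rw [← Nat.cast_pow, padicValInt.of_nat, padicValNat.prime_pow]; norm_num)
  obtain ⟨ψ, hψ, -, ψi⟩ := S.Loc.dec hP pp p12 hpP hi hw
  have hsI : s ∈ inr P := hs
  have pm : ∀ (σ : GQ) (a : Qb), σ (a ^ 2) = a ^ 2 → σ a = a ∨ σ a = -a := fun σ a h =>
    sq_eq_sq_iff_eq_or_eq_neg.1 (by rw [← map_pow, h])
  have ψn : ψ (X.i : Qb) = -X.i := (pm ψ _ (by rw [hi, map_neg, map_one])).resolve_left ψi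
  have hs' : ψ * s * ψ⁻¹ ∈ inr P := fun x => by
    have := (hψ _).2 (hs (ψ⁻¹ • x))
    rwa [smul_sub, smul_inv_smul, ← mul_smul, ← mul_smul] at this
  have fz : ∀ z : Qb, z ^ 4 = 1 → ∀ σ ∈ inr P, σ z = z := fun z hz =>
    fixu O _ z hI h2 (fun τ _ => by rw [hz, map_one]) (by rw [hz]; exact Out1.q4_one)
  have sb' : s (t ^ 2) = -t ^ 2 :=
    (pm s _ (by rw [← pow_mul, ht, map_natCast])).resolve_left sb
  obtain ⟨z, st⟩ : ∃ z, s t = z * t := ⟨s t / t, (div_mul_cancel₀ _ t0).symm⟩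
  have z2 : z ^ 2 = -1 := by
    rw [map_pow, st] at sb'
    exact mul_right_cancel₀ (pow_ne_zero 2 t0) (by linear_combination sb')
  have z4 : z ^ 4 = 1 := by linear_combination (z ^ 2 - 1) * z2
  have ψz : ψ z = -z := by
    rcases sq_eq_sq_iff_eq_or_eq_neg.1 (z2.trans hi.symm) with e | e
    · rw [e, ψn]
    · rw [e, map_neg, ψn]
  -- valuations
  have vg : O.valuation X.P.g = O.valuation (p : Qb) ^ 2 := by rw [X.P_g, val_g hg hp hv]
  have vl : O.valuation X.P.g < 1 := by rw [vg]; exact pow_lt_one₀ zero_le' hv two_ne_zero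
  have v1 : O.valuation (X.P.g + 1) = 1 := by
    rw [Valuation.map_add_eq_of_lt_right _ (by rwa [map_one]), map_one]
  have v3' : O.valuation (3 : Qb) = 1 := by
    exact_mod_cast Out1.val_nat ratv pp hv (m := 3) (fun h => by
      have := Nat.le_of_dvd (by norm_num) h; omega)
  have v3 : O.valuation (X.P.g - 3) = 1 := by
    rw [Valuation.map_sub_eq_of_lt_right _ (by rwa [v3']), v3']
  have v4 : O.valuation (4 : Qb) = 1 := by
    rw [show (4 : Qb) = 2 * 2 by norm_num, map_mul, h2, one_mul]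
  have vu : O.valuation ((δ * t ^ 3) ^ 4) = 1 := by
    have hD : O.valuation X.P.D = O.valuation (p : Qb) ^ 3 := by
      rw [X.P_D, gi_pow hi, map_pow, val_beta X hp hv]
    rw [Par.D, Par.b2, map_mul, map_div₀, map_mul, map_pow, map_pow, v4, v1, vg, one_pow, div_one,
      one_mul] at hD
    rw [mul_pow, hδ, ← pow_mul, mul_comm 3 4, pow_mul, ht, map_mul, map_pow]
    refine mul_left_cancel₀ (pow_ne_zero 3 p0) ?_
    rw [mul_one]
    conv_rhs => rw [← hD, ← pow_mul, show 2 * 3 = 3 + 3 from rfl, pow_add]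
    rw [mul_comm (O.valuation X.P.g0), mul_assoc]
  have fu : ∀ σ ∈ inr P, σ (δ * t ^ 3) = δ * t ^ 3 :=
    fixu O _ _ hI h2 (fun τ hτ => by
      rw [mul_pow, hδ, ← pow_mul, mul_comm 3 4, pow_mul, ht, map_mul, map_pow, map_natCast,
        fix_g0 X (fi τ hτ)]) (Out1.q4_of_val Out1.q4_one (by rw [vu, map_one]))
  have sδ : s δ = z * δ := by
    have := fu s hsI
    rw [map_mul, map_pow, st] at this
    exact mul_right_cancel₀ (pow_ne_zero 3 t0) (by
      linear_combination z * this - s δ * t ^ 3 * z4)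
  refine ⟨s, ψ, fi s hsI, ψn, fun θ θ' hθ hθ' m x hm hx => ?_⟩
  have m0 : m ≠ 0 := by rintro rfl; exact hm (dvd_zero p)
  have rm : ∀ a ∈ inr P, ∀ b ∈ inr P, X.rC (a * b) = X.rC a * X.rC b := fun a ha b hb =>
    RingEquiv.ext fun y => Subtype.ext (by
      rw [X.rC_coe (fi _ (mul_mem ha hb)), RingAut.mul_apply, X.rC_coe (fi a ha),
        X.rC_coe (fi b hb), map_mul, RingAut.mul_apply])
  constructor
  · let io : RingAut X.P.FC := X.P.res X.P.FC X.P.iota
    have ic : ∀ y : X.P.FC, (io y : X.P.FF) = X.P.iota y :=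
      X.P.res_coe (X.P.stab_FC X.P.iota_tau)
    have i1 : ∀ a : Qb, io (algebraMap Qb _ a) = algebraMap Qb _ a := fun a =>
      Subtype.ext ((ic _).trans (X.P.iota_c a))
    have i2 : io X.P.mC = -X.P.mC := Subtype.ext ((ic _).trans X.P.iota_M1)
    have i3 : io X.P.wC = algebraMap Qb _ X.P.i * X.P.wC :=
      Subtype.ext ((ic _).trans (iota_W X.P))
    let J : Subgroup GQ := inr P ⊓ MulAction.stabilizer GQ (t ^ 2)
    have hJ : J ≤ inr P := inf_le_left
    have a0 : Q4 O J X.P.g := ⟨t ^ 2, fun τ hτ => hτ.2, by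
      rw [← map_pow, ← pow_mul, mul_comm 2 4, pow_mul, ht, map_pow, vg]⟩
    have a1 : Q4 O J (X.P.g + 1) := Out1.q4_of_val Out1.q4_one (by rw [v1, map_one])
    have a3 : Q4 O J (X.P.g - 3) := Out1.q4_of_val Out1.q4_one (by rw [v3, map_one])
    have sm := outw00 X.P X.P.FC _ _ O J X.rC io δ (hypC X.P) (hI.mono hJ) h2
      (pl X fun σ hσ => fi σ (hJ hσ))
      (fun σ hσ => ⟨by rw [X.P_g, map_ratCast], fix_g0 X (fi σ (hJ hσ))⟩) (Out1.q4_c a0 a1 a3)
      (Out1.q4_d2 h2 a0 a1) i1 i2 i3 hδ m (Out1.val_nat ratv pp hv hm) (s * s)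
      ⟨mul_mem hsI hsI, by
        show s (s (t ^ 2)) = t ^ 2
        rw [sb', map_neg, sb', neg_neg]⟩ 2 (by
        rw [AlgEquiv.mul_apply, sδ, map_mul, fz z z4 s hsI, sδ, X.P.hi]
        linear_combination δ * z2)
    have j1 : ∀ a : Qb, (io ^ 2) (algebraMap Qb _ a) = algebraMap Qb _ (RingEquiv.refl Qb a) :=
      fun a => by rw [pow_two, RingAut.mul_apply, i1, i1]; rfl
    let η : SL Qb X.P.FC := ⟨io ^ 2, _, j1⟩
    rw [← actP_mul, Same.actP m0 (θ' := η) (by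
      rw [Subgroup.coe_mul, hθ, ← rm s hsI s hsI]; exact sm) hx,
      ← P027M.X.toPc_ofPc_tors (hypC X.P) m0 hx]
    have hη : ∀ a : Qb, (η : X.P.FC ≃+* X.P.FC) (algebraMap Qb _ a) =
        algebraMap Qb _ (RingEquiv.refl Qb a) := j1
    have := P027M.X.semiP_neg (hypC X.P) hη (by
      show (io ^ 2) _ = _
      rw [pow_two, RingAut.mul_apply, i2, map_neg, i2, neg_neg]) (by
      show (io ^ 2) _ = _
      rw [pow_two, RingAut.mul_apply, i3, map_mul, i1, i3, ← mul_assoc, ← map_mul, ← pow_two,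
        X.P.hi, map_neg, map_one, neg_one_mul]) (P027M.X.ofPc (hypC X.P) x)
    exact this
  · have hσ : ψ * s * ψ⁻¹ * s ∈ inr P := mul_mem hs' hsI
    have σt : (ψ * s * ψ⁻¹ * s) t = t := by
      obtain ⟨y, hy⟩ : ∃ y, ψ⁻¹ t = y * t := ⟨ψ⁻¹ t / t, (div_mul_cancel₀ _ t0).symm⟩
      have y4 : y ^ 4 = 1 := by
        have : ψ⁻¹ (t ^ 4) = t ^ 4 := by rw [ht, map_natCast]
        rw [map_pow, hy] at this
        exact mul_right_cancel₀ (pow_ne_zero 4 t0) (by linear_combination this)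
      have e1 : (ψ * s * ψ⁻¹) t = -z * t := by
        have e0 : ψ (y * t) = t := by rw [← hy, ← AlgEquiv.mul_apply, mul_inv_cancel]; rfl
        rw [AlgEquiv.mul_apply, AlgEquiv.mul_apply, hy, map_mul s, fz y y4 s hsI, st,
          show y * (z * t) = z * (y * t) by ring, map_mul ψ, e0, ψz]
      rw [AlgEquiv.mul_apply, st, map_mul, fz z z4 _ hs', e1]
      linear_combination (-t) * z2
    have σδ : (ψ * s * ψ⁻¹ * s) δ = δ := by
      have := fu _ hσ
      rw [map_mul, map_pow, σt] at this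
      exact mul_right_cancel₀ (pow_ne_zero 3 t0) this
    have sm := (outv0 X.P X.P.FC _ _ O _ X.rC g p (hypC X.P) hI (pl X fi) X.P_g
      (fun σ hσ => fix_g0 X (fi σ hσ)) pp p2 hv m hm).1 t δ ht hδ _ hσ σt σδ
    rw [← actP_mul, Same.actP m0 (θ' := 1) (by
      rw [Subgroup.coe_mul, hθ, hθ', ← rm _ hs' s hsI]; exact sm) hx, actP_one]

end Vale.Agent.P027M.D
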