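import Vale.Agent.P027M.D.Out1
import Vale.Agent.P027M.F.Defs

/-!
# P027, route M, block D: the outputs for the curve `C` of a configuration
-/

set_option linter.all false

noncomputable section

namespace Vale.Agent.P027M.D

open NumberField Polynomial IntermediateField Vale.Agent.P022 Vale.Agent.P019P P025H816
open Vale.Agent.P027M.F
open Vale.Agent.P027M.B (Hyp)

namespace Fc

section hyp

variable {k : Type*} [Field k]

theorem cop_sq {a b : k} (h : a - b ≠ 0) : IsCoprime (X ^ 2 - C a : k[X]) (X ^ 2 - C b) :=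
  ⟨-C (a - b)⁻¹, C (a - b)⁻¹, by
    rw [show -C (a - b)⁻¹ * (X ^ 2 - C a) + C (a - b)⁻¹ * (X ^ 2 - C b) =
      (C (a - b)⁻¹ * (C a - C b) : k[X]) by ring, ← map_sub, ← map_mul, inv_mul_cancel₀ h, map_one]⟩

theorem cop_X {a : k} (h : a ≠ 0) : IsCoprime (X : k[X]) (X ^ 2 - C a) :=
  ⟨C a⁻¹ * X, -C a⁻¹, by
    rw [show C a⁻¹ * X * X + -C a⁻¹ * (X ^ 2 - C a) = (C a⁻¹ * C a : k[X]) by ring, ← map_mul,
      inv_mul_cancel₀ h, map_one]⟩

theorem fP_sep (P : Par k) : P.fP.Separable := by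
  have h2 : ((2 : ℕ) : k) ≠ 0 := by exact_mod_cast P.h2
  have n1 := mul_ne_zero P.c_ne P.hg0
  have n2 := mul_ne_zero P.d2_ne P.hg0
  have e1 : P.g0 - P.c * P.g0 ≠ 0 := fun e =>
    mul_ne_zero P.c_ne_one P.hg0 (by linear_combination -e)
  have e2 : P.g0 - P.d2 * P.g0 ≠ 0 := fun e =>
    mul_ne_zero P.d2_ne_one P.hg0 (by linear_combination -e)
  have e3 : P.c * P.g0 - P.d2 * P.g0 ≠ 0 := fun e =>
    mul_ne_zero P.c_ne_d2 P.hg0 (by linear_combination e)
  exact ((separable_X.mul (separable_X_pow_sub_C _ h2 P.hg0) (cop_X P.hg0)).mul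
    (separable_X_pow_sub_C _ h2 n1) ((cop_X n1).mul_left (cop_sq e1))).mul
    (separable_X_pow_sub_C _ h2 n2) (((cop_X n2).mul_left (cop_sq e2)).mul_left (cop_sq e3))

theorem fP_deg (P : Par k) : P.fP.natDegree = 7 := by
  have hm : ∀ a : k, (X ^ 2 - C a : k[X]).Monic := fun a => monic_X_pow_sub_C a (by norm_num)
  rw [Par.fP, ((monic_X.mul (hm _)).mul (hm _)).natDegree_mul (hm _),
    (monic_X.mul (hm _)).natDegree_mul (hm _), monic_X.natDegree_mul (hm _)]
  simp only [natDegree_X, natDegree_X_pow_sub_C]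

variable [IsAlgClosed k]

theorem tau_rat (P : Par k) (u : RatFunc k) :
    P.tau (algebraMap _ P.FF u) = algebraMap _ P.FF u := by
  have h1 : ∀ p : k[X], P.tau (aeval P.M1 p) = aeval P.M1 p := by
    intro p
    induction p using Polynomial.induction_on with
    | C u => rw [aeval_C]; exact P.tau_c u
    | add p q hp hq => rw [map_add, map_add, hp, hq]
    | monomial n u ih => rw [pow_succ, ← mul_assoc, map_mul, aeval_X, map_mul, ih, P.tau_M1]
  rw [← RatFunc.num_div_denom u, map_div₀, P.poly_eq, P.poly_eq, map_div₀, h1, h1]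

/-- the curve `C` is hyperelliptic -/
theorem hypC (P : Par k) : Hyp P.fP P.mC P.wC where
  two := P.h2
  deg := fP_deg P
  sep := fP_sep P
  tr := P.tr_sub (x := P.mC) P.M1_tr
  sq := P.wC_sq
  top := by
    rintro ⟨z, hz⟩
    obtain ⟨a, b, c, d, rfl⟩ := P.FF_rep z
    have h := P.mem_FC.1 hz
    simp only [map_add, map_mul, tau_rat, P.tau_W, P.tau_Z] at h
    have h0 : (algebraMap _ P.FF c + algebraMap _ P.FF d * P.W) * P.Z = 0 :=
      (mul_eq_zero.1 (by linear_combination -h : (2 : P.FF) * _ = 0)).resolve_left P.two_ne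
    refine ⟨a.num * b.denom, b.num * a.denom, a.denom * b.denom,
      mul_ne_zero a.denom_ne_zero b.denom_ne_zero, Subtype.ext ?_⟩
    have hn : ∀ u : RatFunc k, aeval P.M1 u.num = algebraMap _ P.FF u * aeval P.M1 u.denom := by
      intro u
      rw [← P.poly_eq, ← P.poly_eq, ← map_mul]
      congr 1
      exact (div_eq_iff (by simpa using u.denom_ne_zero)).1 (RatFunc.num_div_denom u)
    simp only [MulMemClass.coe_mul, AddMemClass.coe_add, ← IntermediateField.aeval_coe]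
    show aeval P.M1 _ * _ = aeval P.M1 _ + aeval P.M1 _ * P.W
    rw [h0, map_mul, map_mul, map_mul, hn, hn]
    ring

end hyp

variable {O : ValuationSubring Qb}

theorem int_le (n : ℤ) : O.valuation (n : Qb) ≤ 1 :=
  (O.valuation_le_one_iff _).2 (intCast_mem O n)

theorem val_i {i : Qb} (hi : i ^ 2 = -1) : O.valuation i = 1 := by
  have : O.valuation i ^ 2 = 1 := by rw [← map_pow, hi, Valuation.map_neg, map_one]
  exact (pow_eq_one_iff_of_nonneg zero_le' two_ne_zero).1 this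

theorem gi_le {i : Qb} (hi : i ^ 2 = -1) (z : GaussianInt) : O.valuation (gi i z) ≤ 1 :=
  Valuation.map_add_le _ (int_le _) (by rw [map_mul, val_i hi, mul_one]; exact int_le _)

theorem gi_mul {i : Qb} (hi : i ^ 2 = -1) (a b : GaussianInt) :
    gi i (a * b) = gi i a * gi i b := by
  simp only [gi, Zsqrtd.re_mul, Zsqrtd.im_mul]
  push_cast
  linear_combination (-(a.im : Qb) * b.im) * hi

theorem gi_add (i : Qb) (a b : GaussianInt) : gi i (a + b) = gi i a + gi i b := by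
  simp only [gi, Zsqrtd.re_add, Zsqrtd.im_add]
  push_cast
  ring

theorem gi_pow {i : Qb} (hi : i ^ 2 = -1) (a : GaussianInt) (n : ℕ) :
    gi i (a ^ n) = gi i a ^ n := by
  induction n with
  | zero => simp [gi]
  | succ n ih => rw [pow_succ, gi_mul hi, ih, pow_succ]

theorem gi_nat (i : Qb) (n : ℕ) : gi i (n : GaussianInt) = n := by simp [gi]

theorem gi_norm {i : Qb} (hi : i ^ 2 = -1) (a : GaussianInt) :
    gi i a * gi i (star a) = (a.norm : Qb) := by
  rw [← gi_mul hi, ← Zsqrtd.norm_eq_mul_conj]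
  simp [gi]

theorem one_of_mul {a b : Qb} (ha : O.valuation a ≤ 1) (hb : O.valuation b ≤ 1)
    (h : O.valuation (a * b) = 1) : O.valuation a = 1 := by
  refine le_antisymm ha (not_lt.1 fun h1 => ?_)
  rw [map_mul] at h
  exact (mul_lt_one_of_lt_of_le h1 hb).ne h

theorem val_dvd {i : Qb} (hi : i ^ 2 = -1) {a b : GaussianInt} (h : a ∣ b)
    (hb : O.valuation (gi i b) = 1) : O.valuation (gi i a) = 1 := by
  obtain ⟨c, rfl⟩ := h
  exact one_of_mul (gi_le hi a) (gi_le hi c) (by rwa [gi_mul hi] at hb)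

theorem dvd_of_lt (hR : RATV) {p : ℕ} (hp : p.Prime) (hv : O.valuation (p : Qb) < 1) {n : ℤ}
    (h : O.valuation (n : Qb) < 1) : (p : ℤ) ∣ n := by
  by_contra hn
  have := Out1.val_nat hR hp hv (m := n.natAbs) (fun e => hn (Int.natCast_dvd.2 e))
  rcases Int.natAbs_eq n with e | e
  · rw [e, Int.cast_natCast] at h; exact h.ne this
  · rw [e, Int.cast_neg, Int.cast_natCast, Valuation.map_neg] at h; exact h.ne this

/-- the absolute value of a Gaussian integer is a power of `|p|` -/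
theorem val_gi (hR : RATV) {p : ℕ} (hp : p.Prime) (hp2 : p ≠ 2) (hv : O.valuation (p : Qb) < 1)
    {i : Qb} (hi : i ^ 2 = -1) {β : GaussianInt} (hβ : β ≠ 0) :
    ∃ q : ℚ, q ≠ 0 ∧ O.valuation (gi i β) = O.valuation (q : Qb) := by
  have h2 := (hR O p 1 hp hv one_ne_zero).2 hp2
  have hu : ¬ IsUnit (p : GaussianInt) := fun h => by
    have := val_dvd (O := O) hi (isUnit_iff_dvd_one.1 h) (by simp [gi])
    rw [gi_nat] at this
    exact hv.ne this
  obtain ⟨n, a, ha, rfl⟩ := WfDvdMonoid.max_power_factor' hβ hu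
  have a0 : a ≠ 0 := right_ne_zero_of_mul hβ
  have pn : ((p : ℚ) ^ n) ≠ 0 := pow_ne_zero _ (by exact_mod_cast hp.ne_zero)
  rw [gi_mul hi, gi_pow hi, gi_nat]
  rcases (gi_le (O := O) hi a).eq_or_lt with h | h
  · exact ⟨(p : ℚ) ^ n, pn, by rw [map_mul, h, mul_one]; push_cast; rfl⟩
  rcases (gi_le (O := O) hi (star a)).eq_or_lt with h' | h'
  · refine ⟨(p : ℚ) ^ n * a.norm, mul_ne_zero pn (by
      exact_mod_cast fun e => a0 (GaussianInt.norm_eq_zero.1 e)), ?_⟩
    push_cast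
    rw [← gi_norm hi, map_mul, map_mul, map_mul, h', mul_one]
  exfalso
  have e1 := Valuation.map_add_lt _ h h'
  have e2 := Valuation.map_sub_lt _ h h'
  rw [show gi i a + gi i (star a) = 2 * (a.re : Qb) by simp [gi]; ring, map_mul, h2, one_mul] at e1
  rw [show gi i a - gi i (star a) = 2 * i * (a.im : Qb) by simp [gi]; ring, map_mul, map_mul, h2,
    val_i hi, one_mul, one_mul] at e2
  exact ha (by
    have := (Zsqrtd.intCast_dvd (p : ℤ) a).2 ⟨dvd_of_lt hR hp hv e1, dvd_of_lt hR hp hv e2⟩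
    rwa [Int.cast_natCast] at this)

theorem over_unique {P : Ideal (𝓞 Qb)} {O O' : ValuationSubring Qb} (h : Over P O)
    (h' : Over P O') : O = O' := ValuationSubring.ext _ _ fun x => (h x).trans (h' x).symm

variable {g : ℚ} (X : Cfg g)

theorem hi' : (X.i : Qb) ^ 2 = -1 := by
  have := congrArg (algebraMap (𝓞 Qb) Qb) X.hi
  rwa [map_pow, map_neg, map_one] at this

theorem fix_i (hX : FIXU) {I : Subgroup GQ} (hI : Ine O I) (h2 : O.valuation 2 = 1) :
    ∀ σ ∈ I, σ (X.i : Qb) = X.i := by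
  have h4 : (X.i : Qb) ^ 4 = 1 := by
    rw [show (4 : ℕ) = 2 * 2 from rfl, pow_mul, hi' X]; norm_num
  exact hX O I _ hI h2 (fun σ _ => by rw [h4, map_one]) (by rw [h4]; exact Out1.q4_one)

theorem pl {I : Subgroup GQ} (h : ∀ σ ∈ I, σ (X.i : Qb) = X.i) : Pl I X.rC X.P.mC X.P.wC :=
  ⟨X.rC_semi h, fun σ hσ => X.rC_m (h σ hσ), fun σ hσ => X.rC_w (h σ hσ)⟩

theorem fix_g0 {σ : GQ} (h : σ (X.i : Qb) = X.i) : σ X.P.g0 = X.P.g0 := by
  rw [← X.hs]; exact (X.fx h).2.1

theorem beta_ne : X.d.β ≠ 0 := fun h => X.P.D_ne (by rw [X.P_D, h]; simp [gi])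

theorem val_D (h : O.valuation (gi (X.i : Qb) X.d.m) = 1) : O.valuation X.P.D = 1 := by
  rw [X.P_D, gi_pow (hi' X), map_pow, val_dvd (hi' X) X.d.dvd_m (by
    rw [gi_pow (hi' X), map_pow, h, one_pow]), one_pow]

theorem q4_g0 {J : Subgroup GQ} (h0 : Q4 O J X.P.g) (hd : Q4 O J X.P.d2) (hD : Q4 O J X.P.D) :
    Q4 O J X.P.g0 := by
  have hb : Q4 O J X.P.b2 := by
    rw [X.P.b2_eq, pow_two]; exact Out1.q4_mul (Out1.q4_mul h0 h0) hd
  have := Out1.q4_mul (Out1.q4_inv hb) hD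
  rwa [Par.D, inv_mul_cancel_left₀ X.P.b2_ne] at this

include X in
theorem invis {l : ℕ} (hl : GoodP (lev g) l) : (4 : ℤ) ∣ padicValRat l g ∧
    (4 : ℤ) ∣ padicValRat l (g + 1) ∧ (4 : ℤ) ∣ padicValRat l (g - 3) := by
  have hp := hl.1
  haveI := Fact.mk hp
  have h3 : 3 < l := by
    by_contra h
    have := hp.two_le
    have : l = 2 ∨ l = 3 := by omega
    rcases this with rfl | rfl
    · exact hl.2 (Dvd.dvd.mul_right (by norm_num) _)
    · exact hl.2 (Dvd.dvd.mul_right (by norm_num) _)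
  have hv : l ∉ visSet g := fun h => hl.2 (by
    rw [lev]
    exact ((((Finset.dvd_prod_of_mem (fun p => p) h).mul_left _).mul_left _).mul_left _))
  by_contra hc
  refine hv (Finset.mem_filter.2 ⟨Nat.mem_primeFactors.2 ⟨hp, ?_, ?_⟩, h3, hc⟩)
  · by_contra hd
    have hz : ∀ q : ℚ, ¬ l ∣ q.num.natAbs → ¬ l ∣ q.den → (4 : ℤ) ∣ padicValRat l q := by
      intro q h1 h2
      rw [padicValRat, padicValInt, padicValNat.eq_zero_of_not_dvd h1,
        padicValNat.eq_zero_of_not_dvd h2]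
      simp
    rw [Int.natAbs_mul, Int.natAbs_mul] at hd
    have d0 : ¬ l ∣ g.den := fun h => hd (h.mul_left _)
    refine hc ⟨hz _ (fun h => hd (((h.mul_right _).mul_right _).mul_right _)) d0,
      hz _ (fun h => hd (((h.mul_left _).mul_right _).mul_right _)) ?_,
      hz _ (fun h => hd ((h.mul_left _).mul_right _)) ?_⟩
    · have := Rat.add_intCast_den g 1
      rw [Int.cast_one] at this
      rwa [this]
    · have := Rat.sub_intCast_den g 3
      rw [Int.cast_ofNat] at this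
      rwa [this]
  · refine mul_ne_zero (Int.natAbs_ne_zero.2 (mul_ne_zero (mul_ne_zero ?_ ?_) ?_)) g.den_nz
    · exact Rat.num_ne_zero.2 X.d.hg
    · exact Rat.num_ne_zero.2 X.d.hp1
    · exact Rat.num_ne_zero.2 fun h => X.d.hm3 (by linear_combination -h)

/-- a standard parameter is close to `1` at `3` -/
theorem near3 (hR : RATV) (hg : Std g) (hv : O.valuation ((3 : ℕ) : Qb) < 1) :
    O.valuation ((g : Qb) - 1) < 1 := by
  obtain ⟨u, hu, hc⟩ := hg.loc
  have h3 : ¬ 3 ∣ u.den := fun h => by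
    have := Nat.Coprime.coprime_dvd_left h hc
    revert this
    norm_num [W0]
  have d1 := Out1.val_nat hR Nat.prime_three hv h3
  have d2 := Out1.val_nat hR Nat.prime_three hv (m := 16729) (by norm_num)
  have e : (g : Qb) - 1 = ((3 : ℕ) : Qb) * (((320 : ℕ) : Qb) / ((16729 : ℕ) : Qb) +
      ((W0 / 3 : ℕ) : Qb) * ((u.num : Qb) / (u.den : Qb))) := by
    rw [hu, ← Rat.cast_def, show W0 = 3 * (W0 / 3) by norm_num [W0], g0,
      Nat.mul_div_cancel_left _ (by norm_num : 0 < 3)]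
    push_cast
    ring
  rw [e, map_mul]
  refine mul_lt_one_of_lt_of_le hv (Valuation.map_add_le _ ?_ ?_)
  · rw [map_div₀, d2, div_one]; exact Out1.nat_le _
  · rw [map_mul, map_div₀, d1, div_one]
    exact mul_le_one' (Out1.nat_le _) (int_le _)

end Fc

open Fc

theorem hyp (hD : HYPD) : HYP := fun k _ _ P =>
  ⟨hypC P, (hD k P.FC P.fP P.mC P.wC (hypC P) 1 0 0 1 P.mC (by simp) (by simp)).2⟩

theorem dout (h0 : OUT0) (hO : Spec_OVER) (hR : RATV) (hX : FIXU) : DOUT := by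
  intro g X hg
  refine ⟨fun l n P hl hP hlP hn => ?_, fun l n P δ hp h8 _ hP hlP hn hδ => ?_,
    fun P O hP h3 hov n => ?_⟩
  · obtain ⟨O, -, hI, hv, -⟩ := hO l P hl.1 hP hlP
    have l2 : l ≠ 2 := by rintro rfl; exact hl.2 (Dvd.dvd.mul_right (by norm_num) _)
    have h2 := (hR O l 1 hl.1 hv one_ne_zero).2 l2
    have fi := fix_i X hX hI h2
    obtain ⟨v0, v1, v3⟩ := invis X hl
    have hm : O.valuation (gi (X.i : Qb) X.d.m) = 1 := by
      refine one_of_mul (gi_le (hi' X) _) (gi_le (hi' X) (star X.d.m)) ?_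
      rw [gi_norm (hi' X), X.d.normm, Int.cast_natCast]
      exact Out1.val_nat hR hl.1 hv fun h => hl.2 (by rw [lev]; exact (h.mul_left _).mul_left _)
    exact (outi h0 hR X.P X.P.FC _ _ O _ X.rC g l (hypC X.P) hI (pl X fi) X.P_g
      (fun σ hσ => fix_g0 X (fi σ hσ)) hl.1 l2 hv v0 v1 v3 (val_D X hm) n
      (by rintro rfl; exact hn (dvd_zero l))).2 hn
  · obtain ⟨O, -, hI, hv, -⟩ := hO l P hp hP hlP
    have l2 : l ≠ 2 := by rintro rfl; norm_num at h8
    have h2 := (hR O l 1 hp hv one_ne_zero).2 l2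
    set J : Subgroup GQ := inr P ⊓ MulAction.stabilizer GQ δ
    have hJ : Ine O J := hI.mono inf_le_left
    have fi := fix_i X hX hJ h2
    have hs : δ ^ 4 = (l : Qb) ^ 1 := by rw [hδ, pow_one]
    have hf : ∀ τ ∈ J, τ δ = δ := fun τ hτ => hτ.2
    obtain ⟨a0, a1, a3⟩ := Out1.q4_three hR X.P_g hp hv hs hf (one_dvd _) (one_dvd _) (one_dvd _)
    have qd := Out1.q4_d2 h2 a0 a1
    obtain ⟨q, q0, hq⟩ := val_gi hR hp l2 hv (hi' X) (pow_ne_zero 3 (beta_ne X))
    have qD : Q4 O J X.P.D :=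
      Out1.q4_of_val (Out1.q4_rat hR hp hv hs hf q0 (one_dvd _)) (by rw [X.P_D, hq])
    exact (h0 X.P X.P.FC _ _ O J X.rC (hypC X.P) hJ h2 (pl X fi)
      (fun σ hσ => ⟨by rw [X.P_g, map_ratCast], fix_g0 X (fi σ hσ)⟩) (q4_g0 X a0 qd qD)
      (Out1.q4_c a0 a1 a3) qd n (by rintro rfl; exact hn (dvd_zero l))).2
      (Out1.val_nat hR hp hv hn)
  · obtain ⟨O', ho, hI, hv, -⟩ := hO 3 P Nat.prime_three hP (by exact_mod_cast h3)
    obtain rfl := over_unique ho hov
    have h2 := (hR O' 3 1 Nat.prime_three hv one_ne_zero).2 (by norm_num)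
    have fi := fix_i X hX hI h2
    have hn := near3 hR hg hv
    rw [← X.P_g] at hn
    have un : ∀ a : Qb, O'.valuation a = 1 → Q4 O' (inr P) (a + (X.P.g - 1)) := fun a ha =>
      Out1.q4_of_val Out1.q4_one (by
        rw [Valuation.map_add_eq_of_lt_left _ (by rwa [ha]), ha, map_one])
    have a0 : Q4 O' (inr P) X.P.g := by simpa using un 1 (map_one _)
    have a1 : Q4 O' (inr P) (X.P.g + 1) := by
      have := un 2 h2
      rwa [show 2 + (X.P.g - 1) = X.P.g + 1 by ring] at this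
    have a3 : Q4 O' (inr P) (X.P.g - 3) := by
      have := un (-2) (by rw [Valuation.map_neg, h2])
      rwa [show -2 + (X.P.g - 1) = X.P.g - 3 by ring] at this
    have qd := Out1.q4_d2 h2 a0 a1
    have hm : O'.valuation (gi (X.i : Qb) X.d.m) = 1 := by
      obtain ⟨a, b, hab⟩ := X.d.cop3
      refine le_antisymm (gi_le (hi' X) _) (not_lt.1 fun h => ?_)
      have e := congrArg (gi (X.i : Qb)) hab
      rw [gi_add, gi_mul (hi' X), gi_mul (hi' X), show (3 : GaussianInt) = ((3 : ℕ) : GaussianInt)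
        from rfl, gi_nat, show gi (X.i : Qb) 1 = 1 by simp [gi]] at e
      have : O'.valuation 1 < 1 := by
        rw [← e]
        refine Valuation.map_add_lt _ ?_ ?_ <;> rw [map_mul, mul_comm]
        · exact mul_lt_one_of_lt_of_le h (gi_le (hi' X) _)
        · exact mul_lt_one_of_lt_of_le hv (gi_le (hi' X) _)
      simp at this
    exact (h0 X.P X.P.FC _ _ O' _ X.rC (hypC X.P) hI h2 (pl X fi)
      (fun σ hσ => ⟨by rw [X.P_g, map_ratCast], fix_g0 X (fi σ hσ)⟩)
      (q4_g0 X a0 qd (Out1.q4_of_val Out1.q4_one (by rw [val_D X hm, map_one])))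
      (Out1.q4_c a0 a1 a3) qd (3 ^ n) (pow_ne_zero _ (by norm_num))).1

end Vale.Agent.P027M.D
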