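import Vale.Agent.P027M.D.Out

/-!
# P027, route M, block D: two facts on valuations
-/

set_option linter.all false

noncomputable section

namespace Vale.Agent.P027M.D

open Vale.Agent.P022

namespace Vals

variable {Γ : Type*} [LinearOrderedCommGroupWithZero Γ]

theorem pow_inj {x y : Γ} {n : ℕ} (hn : n ≠ 0) (h : x ^ n = y ^ n) : x = y :=
  (pow_left_inj₀ zero_le zero_le hn).1 h

variable {K : Type*} [Field K] (O : ValuationSubring K)

theorem nat_le (n : ℕ) : O.valuation (n : K) ≤ 1 :=
  (O.valuation_le_one_iff _).2 (natCast_mem O n)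

theorem int_le (n : ℤ) : O.valuation (n : K) ≤ 1 :=
  (O.valuation_le_one_iff _).2 (intCast_mem O n)

/-- an integer prime to `p` is a unit -/
theorem nat_unit {p n : ℕ} (hp : p.Prime) (h : O.valuation (p : K) < 1) (hn : ¬ p ∣ n) :
    O.valuation (n : K) = 1 := by
  refine le_antisymm (nat_le O n) (not_lt.1 fun hlt => ?_)
  have hc : IsCoprime (p : ℤ) (n : ℤ) :=
    Nat.isCoprime_iff_coprime.2 ((Nat.Prime.coprime_iff_not_dvd hp).2 hn)
  obtain ⟨a, b, hab⟩ := hc
  have e : (a : K) * (p : K) + (b : K) * (n : K) = 1 := by exact_mod_cast congrArg (Int.cast : ℤ → K) hab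
  have k1 : O.valuation ((a : K) * (p : K)) < 1 := by
    rw [map_mul]
    exact lt_of_le_of_lt (mul_le_of_le_one_left' (int_le O a)) h
  have k2 : O.valuation ((b : K) * (n : K)) < 1 := by
    rw [map_mul]
    exact lt_of_le_of_lt (mul_le_of_le_one_left' (int_le O b)) hlt
  have := Valuation.map_add_lt O.valuation k1 k2
  rw [e, map_one] at this
  exact lt_irrefl _ this

theorem nat_val {p n : ℕ} (hp : p.Prime) (h : O.valuation (p : K) < 1) (hn : n ≠ 0) :
    O.valuation (n : K) = O.valuation (p : K) ^ padicValNat p n := by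
  haveI := Fact.mk hp
  obtain ⟨e, m, hm, rfl⟩ := Nat.exists_eq_pow_mul_and_not_dvd hn p hp.ne_one
  have hm0 : m ≠ 0 := fun h0 => hm (h0 ▸ dvd_zero p)
  rw [padicValNat.mul (pow_ne_zero _ hp.ne_zero) hm0, padicValNat.prime_pow,
    padicValNat.eq_zero_of_not_dvd hm, add_zero, Nat.cast_mul, Nat.cast_pow, map_mul, map_pow,
    nat_unit O hp h hm, mul_one]

theorem int_val {p : ℕ} {n : ℤ} (hp : p.Prime) (h : O.valuation (p : K) < 1) (hn : n ≠ 0) :
    O.valuation (n : K) = O.valuation (p : K) ^ padicValInt p n := by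
  have k := nat_val O hp h (Int.natAbs_ne_zero.2 hn)
  rw [padicValInt, ← k]
  rcases Int.natAbs_eq n with e | e
  · conv_lhs => rw [e]
    rw [Int.cast_natCast]
  · conv_lhs => rw [e]
    rw [Int.cast_neg, Int.cast_natCast, Valuation.map_neg]

end Vals

open Vals

theorem ratv : RATV := by
  intro O p q hp h hq
  refine ⟨?_, fun h2 => ?_⟩
  · have hp0 : O.valuation (p : Qb) ≠ 0 :=
      (Valuation.ne_zero_iff _).2 (Nat.cast_ne_zero.2 hp.ne_zero)
    rw [Rat.cast_def, map_div₀, int_val O hp h (Rat.num_ne_zero.2 hq), nat_val O hp h q.den_nz,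
      padicValRat, zpow_sub₀ hp0, zpow_natCast, zpow_natCast]
  · have : ¬ p ∣ 2 := fun hd => h2 ((Nat.prime_dvd_prime_iff_eq hp Nat.prime_two).1 hd)
    simpa using nat_unit O hp h this

theorem fixu : FIXU := by
  intro O J a hI h2 ha ⟨t, ht, hta⟩ σ hσ
  by_cases ha0 : a = 0
  · rw [ha0, map_zero]
  rw [map_pow] at hta
  have e : O.valuation t = O.valuation a := pow_inj (by norm_num) hta
  have va : O.valuation a ≠ 0 := (Valuation.ne_zero_iff _).2 ha0
  have ht0 : t ≠ 0 := fun h0 => va (by rw [← e, h0, map_zero])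
  have hu : O.valuation (a / t) = 1 := by rw [map_div₀, e, div_self va]
  have k := hI σ hσ (a / t) ((O.valuation_le_one_iff _).1 hu.le)
  rw [map_div₀, ht σ hσ] at k
  set z := σ a / a with hz
  have k1 : O.valuation (z - 1) < 1 := by
    have : σ a / t - a / t = (z - 1) * (a / t) := by
      rw [hz]; field_simp
    rwa [this, map_mul, hu, mul_one] at k
  have z4 : z ^ 4 = 1 := by
    rw [hz, div_pow, ← map_pow, ha σ hσ, div_self (pow_ne_zero _ ha0)]
  have k2 : O.valuation (z + 1) = 1 := by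
    have := Valuation.map_add_eq_of_lt_left O.valuation (x := 2) (y := z - 1) (by rwa [h2])
    rwa [show (2 : Qb) + (z - 1) = z + 1 by ring, h2] at this
  have k3 : O.valuation (z ^ 2 + 1) = 1 := by
    have := Valuation.map_add_eq_of_lt_left O.valuation (x := 2) (y := (z - 1) * (z + 1))
      (by rwa [h2, map_mul, k2, mul_one])
    rwa [show (2 : Qb) + (z - 1) * (z + 1) = z ^ 2 + 1 by ring, h2] at this
  have n2 : z + 1 ≠ 0 := fun h0 => by rw [h0, map_zero] at k2; exact zero_ne_one k2
  have n3 : z ^ 2 + 1 ≠ 0 := fun h0 => by rw [h0, map_zero] at k3; exact zero_ne_one k3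
  have : (z - 1) * ((z + 1) * (z ^ 2 + 1)) = 0 := by linear_combination z4
  have z1 : z = 1 := sub_eq_zero.1 ((mul_eq_zero.1 this).resolve_right (mul_ne_zero n2 n3))
  exact (div_eq_one_iff_eq ha0).1 z1

end Vale.Agent.P027M.D
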