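import Vale.Agent.P027M.D.Geo

/-!
# P027, route M, block D: the basic facts on one chart
-/

set_option linter.all false

noncomputable section

namespace Vale.Agent.P027M.D

open Polynomial IntermediateField Vale.Agent.P019P P025H492 P025H816

namespace BasP

variable {C κ F : Type} [Field C] [Field κ] [Field F] [Algebra C F] {O : ValuationSubring C}

lemma prim {ι : Type} (O : ValuationSubring C) (s : Finset ι) (a : ι → C)
    (hs : ∀ i, i ∈ s ↔ a i ≠ 0) (hn : s.Nonempty) : ∃ i, a i ≠ 0 ∧ ∀ j, (a i)⁻¹ * a j ∈ O := by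
  obtain ⟨i, hi, hm⟩ := s.exists_max_image (fun i => O.valuation (a i)) hn
  have h0 := (hs i).1 hi
  refine ⟨i, h0, fun j => ?_⟩
  by_cases hj : a j = 0
  · rw [hj, mul_zero]
    exact O.zero_mem
  · rw [← O.valuation_le_one_iff, map_mul, map_inv₀]
    exact inv_mul_le_one_of_le₀ (hm j ((hs j).2 hj)) zero_le

lemma lift {p : C[X]} (h : ∀ n, p.coeff n ∈ O) : ∃ q : O[X], q.map O.subtype = p :=
  (mem_lifts _).1 ((lifts_iff_coeff_lifts _).2 fun n => ⟨⟨_, h n⟩, rfl⟩)

lemma prim1 (r : O →+* κ) {p : C[X]} (h : p ≠ 0) : ∃ (c : C) (q : O[X]), c ≠ 0 ∧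
    q.map O.subtype = Polynomial.C c⁻¹ * p ∧ q.map r ≠ 0 := by
  obtain ⟨i, h0, hi⟩ := prim O p.support p.coeff (fun i => mem_support_iff)
    (support_nonempty.2 h)
  obtain ⟨q, hq⟩ := lift (p := Polynomial.C (p.coeff i)⁻¹ * p) fun n => by
    rw [coeff_C_mul]; exact hi n
  refine ⟨_, q, h0, hq, fun e => ?_⟩
  have h1 := congrArg (coeff · i) hq
  have h2 := congrArg (coeff · i) e
  simp only [coeff_map, coeff_C_mul, inv_mul_cancel₀ h0, coeff_zero] at h1 h2
  rw [show q.coeff i = 1 from Subtype.ext h1, map_one] at h2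
  exact one_ne_zero h2

lemma prim2 (r : O →+* κ) {p : C[X][X]} (h : p ≠ 0) : ∃ (c : C) (q : O[X][X]), c ≠ 0 ∧
    q.map (mapRingHom O.subtype) = Polynomial.C (Polynomial.C c⁻¹) * p ∧
    q.map (mapRingHom r) ≠ 0 := by
  classical
  obtain ⟨i, h0, hi⟩ := prim O (p.support.biUnion fun i => (p.coeff i).support.image (i, ·))
    (fun z => (p.coeff z.1).coeff z.2) (fun z => by
      simp only [Finset.mem_biUnion, Finset.mem_image, mem_support_iff]
      constructor
      · rintro ⟨i, -, j, hj, rfl⟩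
        exact hj
      · exact fun hz => ⟨z.1, fun e => hz (by rw [e, coeff_zero]), z.2, hz, rfl⟩) (by
      obtain ⟨i, hi⟩ := support_nonempty.2 h
      obtain ⟨j, hj⟩ := support_nonempty.2 (mem_support_iff.1 hi)
      exact ⟨(i, j), Finset.mem_biUnion.2 ⟨i, hi, Finset.mem_image_of_mem _ hj⟩⟩)
  obtain ⟨q, hq⟩ := (mem_lifts (f := mapRingHom O.subtype)
    (Polynomial.C (Polynomial.C ((p.coeff i.1).coeff i.2)⁻¹) * p)).1
    ((lifts_iff_coeff_lifts _).2 fun n => lift fun m => by
      rw [coeff_C_mul, coeff_C_mul]; exact hi (n, m))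
  refine ⟨_, q, h0, hq, fun e => ?_⟩
  have h1 := congrArg (fun t => (coeff t i.1).coeff i.2) hq
  have h2 := congrArg (fun t => (coeff t i.1).coeff i.2) e
  simp only [coeff_map, coe_mapRingHom, coeff_C_mul, inv_mul_cancel₀ h0, coeff_zero] at h1 h2
  rw [show (q.coeff i.1).coeff i.2 = 1 from Subtype.ext h1, map_one] at h2
  exact one_ne_zero h2

lemma ev1 (x : F) (β : O[X]) : eval₂ (io O F) x β = aeval x (β.map O.subtype) := by
  rw [aeval_def, eval₂_map]
  rfl

lemma ev2 (x θ : F) (A : O[X][X]) :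
    ev (io O F) x θ A = ev (algebraMap C F) x θ (A.map (mapRingHom O.subtype)) := by
  simp only [ev, coe_eval₂RingHom]
  rw [eval₂_map]
  congr 1
  refine RingHom.ext fun β => ?_
  exact ev1 x β

lemma evC {R : Type} [CommRing R] (φ : R →+* F) (x θ : F) (β : R[X]) :
    ev φ x θ (Polynomial.C β) = eval₂ φ x β := by
  simp [ev]

lemma inj1 : Function.Injective (mapRingHom O.subtype) :=
  map_injective _ O.subtype_injective

lemma one {r : O →+* κ} (ch : Chart r F) (A : O[X][X]) (h1 : A.degree < ch.Φ.degree)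
    (h2 : A.map (mapRingHom r) ≠ 0) :
    ∃ (B Q : O[X][X]) (β : O[X]), β.map r ≠ 0 ∧ A * B = Polynomial.C β + ch.Φ * Q := by
  have hi := ch.irr
  set ψ := (algebraMap κ[X] (RatFunc κ)).comp (mapRingHom r) with hψ
  have d0 : ch.Φ.natDegree ≠ 0 := fun e => by
    rw [ch.monic.natDegree_eq_zero.1 e, Polynomial.map_one] at hi
    exact hi.not_isUnit isUnit_one
  obtain ⟨p, q, -, -, e⟩ := exists_mul_add_mul_eq_C_resultant ch.Φ A le_rfl le_rfl (Or.inl d0)
  refine ⟨q, -p, _, fun h0 => ?_, by rw [← e]; ring⟩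
  have a0 : A.map ψ ≠ 0 := by
    rw [hψ, ← Polynomial.map_map]
    exact (Polynomial.map_ne_zero_iff (IsFractionRing.injective _ _)).2 h2
  have c : IsCoprime (ch.Φ.map ψ) (A.map ψ) := hi.coprime_iff_not_dvd.2 fun hd =>
    absurd (degree_le_of_dvd hd a0) (not_le.2 (by
      rw [ch.monic.degree_map]
      exact degree_map_le.trans_lt h1))
  have h3 := resultant_map_map ch.Φ A ch.Φ.natDegree A.natDegree ψ
  rw [show ψ (resultant ch.Φ A ch.Φ.natDegree A.natDegree) = 0 by
    rw [hψ, RingHom.comp_apply, coe_mapRingHom, h0, map_zero],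
    ← Nat.add_sub_cancel' (natDegree_map_le (f := ψ) (p := A)),
    resultant_add_right_deg _ _ _ _ _ le_rfl, ← ch.monic.natDegree_map ψ,
    (ch.monic.map ψ).coeff_natDegree, one_pow, one_mul] at h3
  exact resultant_ne_zero _ _ c h3

lemma deg_le {p : C[X][X]} {q : O[X][X]} {c : C[X]}
    (h : q.map (mapRingHom O.subtype) = Polynomial.C c * p) : q.degree ≤ p.degree := by
  rw [← degree_map_eq_of_injective inj1, h, ← smul_eq_C_mul]
  exact degree_smul_le _ _

variable [CFF C F]

lemma two {r : O →+* κ} (ch : Chart r F) (A : C[X][X]) (h1 : A.degree < ch.Φ.degree)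
    (h2 : ev (algebraMap C F) ch.x ch.th A = 0) : A = 0 := by
  by_contra h
  obtain ⟨c, q, -, e, hq⟩ := prim2 r h
  obtain ⟨B, Q, β, b0, e2⟩ := one ch q ((deg_le e).trans_lt h1) hq
  have e3 := congrArg (ev (io O F) ch.x ch.th) e2
  rw [map_mul, map_add, map_mul, ch.root, ev2, e, map_mul, h2, mul_zero, zero_mul, zero_mul,
    add_zero, evC, ev1] at e3
  have e4 := transcendental_iff.1 (finite_of_notMem ch.nc).1 _ e3.symm
  rw [show β = 0 from inj1 (e4.trans (map_zero _).symm), Polynomial.map_zero] at b0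
  exact b0 rfl

lemma three {r : O →+* κ} (ch : Chart r F) (z : F) (hz : z ≠ 0) :
    ∃ (A : C[X][X]) (β : C[X]), A ≠ 0 ∧ β ≠ 0 ∧ A.degree < ch.Φ.degree ∧
      z * aeval ch.x β = ev (algebraMap C F) ch.x ch.th A := by
  obtain ⟨ht, hf⟩ := finite_of_notMem ch.nc
  obtain ⟨φ, ⟨i, hi⟩, h0⟩ := exists_rel (y := fun o : Option (Fin ch.Φ.natDegree) =>
    o.elim z fun i => ch.th ^ (i : ℕ)) ht fun h => by
      have := h.fintype_card_le_finrank
      rw [Fintype.card_option, Fintype.card_fin, ← ch.deg] at this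
      omega
  rw [Fintype.sum_option] at h0
  simp only [Option.elim] at h0
  obtain ⟨A, hA⟩ : ∃ A : C[X][X],
    A = ∑ i : Fin ch.Φ.natDegree, Polynomial.C (φ (some i)) * X ^ (i : ℕ) := ⟨_, rfl⟩
  have d : (-A).degree < ch.Φ.degree := by
    rw [degree_neg, hA, degree_eq_natDegree ch.monic.ne_zero]
    exact degree_sum_fin_lt _
  have e : z * aeval ch.x (φ none) = ev (algebraMap C F) ch.x ch.th (-A) := by
    rw [map_neg, hA, map_sum]
    simp only [map_mul, map_pow, evC, ← aeval_def]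
    simp only [ev, coe_eval₂RingHom, eval₂_X]
    linear_combination h0
  have b0 : φ none ≠ 0 := fun b => by
    rw [b, map_zero, mul_zero] at e
    have a0 := neg_eq_zero.1 (two ch _ d e.symm)
    rcases i with _ | i
    · exact hi (by rw [b, coeff_zero])
    · have := congrArg (coeff · (i : ℕ)) (hA.symm.trans a0)
      simp only [finset_sum_coeff, coeff_C_mul_X_pow, coeff_zero, Fin.val_inj,
        Finset.sum_ite_eq, Finset.mem_univ, if_true] at this
      exact hi (by rw [this, coeff_zero])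
  refine ⟨-A, φ none, fun a0 => ?_, b0, d, e⟩
  rw [a0, map_zero] at e
  exact mul_ne_zero hz (fun h => b0 (transcendental_iff.1 ht _ h)) e

end BasP

open BasP

theorem bas : BAS := by
  intro C κ F _ _ _ _ _ O r _ ch
  refine ⟨one ch, fun A hA => ?_, fun z hz => ?_⟩
  · rw [← modByMonic_eq_zero_iff_dvd ch.monic]
    apply map_injective _ inj1
    rw [Polynomial.map_zero]
    refine two ch _ (degree_map_le.trans_lt (degree_modByMonic_lt _ ch.monic)) ?_
    have := congrArg (ev (io O F) ch.x ch.th) (modByMonic_add_div A ch.Φ)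
    rwa [map_add, map_mul, ch.root, zero_mul, add_zero, hA, ev2] at this
  · obtain ⟨A, β, a0, b0, d, e⟩ := three ch z hz
    obtain ⟨c, q, c0, e1, q0⟩ := prim2 r a0
    obtain ⟨c', q', c0', e2, q0'⟩ := prim1 r b0
    refine ⟨c'⁻¹ * c, q, q', mul_ne_zero (inv_ne_zero c0') c0, (deg_le e1).trans_lt d, q0, q0', ?_⟩
    rw [ev1, ev2, e1, e2, map_mul, map_mul, map_mul, evC, eval₂_C, aeval_C, ← e, mul_assoc,
      ← mul_assoc (algebraMap C F c), ← map_mul, mul_inv_cancel₀ c0, map_one, one_mul,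
      mul_left_comm]

end Vale.Agent.P027M.D
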