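import Vale.Agent.P027M.D.Geo

/-!
# P027, route M, block D (geometry): small lemmas
-/

set_option linter.all false

noncomputable section

namespace Vale.Agent.P027M.D

open Polynomial IntermediateField Vale.Agent.P019P P025H492 P025H816
open _root_.P027M.K (Val)

section ev

variable {R F : Type*} [CommRing R] [CommRing F] (φ : R →+* F) (x θ : F)

theorem ev_C (β : R[X]) : ev φ x θ (Polynomial.C β) = eval₂ φ x β := by simp [ev]

theorem ev_X : ev φ x θ X = θ := by simp [ev]

theorem ev_eq (A : R[X][X]) : ev φ x θ A = eval₂ (eval₂RingHom φ x) θ A := rfl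

theorem ev_CC (a : R) : ev φ x θ (Polynomial.C (Polynomial.C a)) = φ a := by simp [ev]

theorem ev_CX : ev φ x θ (Polynomial.C X) = x := by simp [ev]

end ev

variable {C κ : Type} [Field C] [Field κ] {O : ValuationSubring C} {r : O →+* κ}

theorem io_apply (F : Type) [Field F] [Algebra C F] (a : O) : io O F a = algebraMap C F a := rfl

theorem ib_apply (G : Type) [Field G] [Algebra κ G] (a : O) : ib r G a = algebraMap κ G (r a) := rfl

theorem eval₂_io {F : Type} [Field F] [Algebra C F] (x : F) (β : O[X]) :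
    eval₂ (io O F) x β = aeval x (β.map O.subtype) := by
  rw [aeval_def, eval₂_map]; rfl

theorem eval₂_ib {G : Type} [Field G] [Algebra κ G] (x : G) (β : O[X]) :
    eval₂ (ib r G) x β = aeval x (β.map r) := by
  rw [aeval_def, eval₂_map]; rfl

theorem unit_iff (hr : Function.Surjective r) (a : O) : IsUnit a ↔ r a ≠ 0 := by
  constructor
  · intro h
    exact (h.map r).ne_zero
  · intro h
    by_contra hn
    have h1 : RingHom.ker r = IsLocalRing.maximalIdeal O :=
      IsLocalRing.eq_maximalIdeal (RingHom.ker_isMaximal_of_surjective r hr)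
    have h2 : a ∈ RingHom.ker r := by
      rw [h1]
      exact (IsLocalRing.mem_maximalIdeal a).2 hn
    exact h h2

theorem val_eq_one_iff (hr : Function.Surjective r) (a : O) :
    O.valuation (a : C) = 1 ↔ r a ≠ 0 := by
  rw [← unit_iff hr, O.valuation_eq_one_iff]

theorem val_lt_iff (hr : Function.Surjective r) (a : O) : O.valuation (a : C) < 1 ↔ r a = 0 := by
  have h1 := O.valuation_le_one a
  have h2 := val_eq_one_iff hr a
  constructor
  · intro h
    by_contra h0
    exact h.ne (h2.2 h0)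
  · intro h
    exact lt_of_le_of_ne h1 fun h3 => h2.1 h3 h

theorem res_eq_iff (hr : Function.Surjective r) (a b : O) :
    r a = r b ↔ O.valuation ((a : C) - b) < 1 := by
  rw [← sub_eq_zero, ← map_sub, ← val_lt_iff hr]
  rfl

/-- the residue field of a valuation ring of an algebraically closed field -/
theorem acl [IsAlgClosed C] (hr : Function.Surjective r) : IsAlgClosed κ := by
  refine IsAlgClosed.of_exists_root κ fun p hp hi => ?_
  have h1 : p ∈ lifts r := (lifts_iff_coeff_lifts p).2 fun n => hr _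
  obtain ⟨q, hq, hd, hm⟩ := lifts_and_degree_eq_and_monic h1 hp
  have h2 : (q.map O.subtype).degree ≠ 0 := by
    rw [hm.degree_map, hd]
    exact (degree_pos_of_irreducible hi).ne'
  obtain ⟨z, hz⟩ := IsAlgClosed.exists_root _ h2
  have h3 : IsIntegral O z := ⟨q, hm, by rwa [IsRoot.def, eval_map] at hz⟩
  obtain ⟨a, ha⟩ := IsIntegrallyClosed.isIntegral_iff.1 h3
  refine ⟨r a, ?_⟩
  have h4 : q.eval a = 0 := by
    apply O.subtype_injective
    rw [IsRoot.def, ← ha] at hz
    rw [map_zero, ← hz]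
    exact (eval_map_apply O.subtype a).symm
  rw [← hq, eval_map_apply, h4, map_zero]

theorem res_infinite [IsAlgClosed C] (hr : Function.Surjective r) : Infinite κ := by
  have := acl hr
  infer_instance

/-- a finite non-zero family is a constant times an integral family with a coordinate `1` -/
theorem exists_prim (O : ValuationSubring C) {ι : Type*} (v : ι →₀ C) (hv : v ≠ 0) :
    ∃ i, v i ≠ 0 ∧ ∀ j, (v i)⁻¹ * v j ∈ O := by
  obtain ⟨i, hi, hm⟩ := Finset.exists_max_image v.support (fun j => O.valuation (v j))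
    (Finsupp.support_nonempty_iff.2 hv)
  have h0 : v i ≠ 0 := Finsupp.mem_support_iff.1 hi
  refine ⟨i, h0, fun j => ?_⟩
  by_cases hj : j ∈ v.support
  · rw [← O.valuation_le_one_iff, map_mul, map_inv₀]
    have h1 : O.valuation (v i) ≠ 0 := by simpa using h0
    exact (inv_mul_le_one₀ (zero_lt_iff.2 h1)).2 (hm j hj)
  · rw [Finsupp.notMem_support_iff.1 hj, mul_zero]
    exact O.zero_mem

/-- a non-zero polynomial is a constant times an integral polynomial with non-zero reduction -/
theorem exists_prim_poly (r : O →+* κ) (p : C[X]) (hp : p ≠ 0) :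
    ∃ (c : C) (q : O[X]), c ≠ 0 ∧ q.map r ≠ 0 ∧ p = Polynomial.C c * q.map O.subtype := by
  obtain ⟨i, h0, hi⟩ := exists_prim O p.toFinsupp.coeff (fun h => hp (by
    ext n
    exact DFunLike.congr_fun h n))
  change p.coeff i ≠ 0 at h0
  change ∀ j, (p.coeff i)⁻¹ * p.coeff j ∈ O at hi
  have h1 : Polynomial.C (p.coeff i)⁻¹ * p ∈ lifts O.subtype :=
    (lifts_iff_coeff_lifts _).2 fun n => ⟨⟨_, hi n⟩, by rw [coeff_C_mul]; rfl⟩
  obtain ⟨q, hq⟩ := h1
  change q.map O.subtype = _ at hq
  refine ⟨p.coeff i, q, h0, fun h => ?_, ?_⟩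
  · have h2 : q.coeff i = 1 := by
      apply O.subtype_injective
      rw [← coeff_map, hq, coeff_C_mul, inv_mul_cancel₀ h0, map_one]
    have h3 := congrArg (fun t => t.coeff i) h
    simp only [coeff_map, h2, map_one, coeff_zero] at h3
    exact one_ne_zero h3
  · rw [hq, ← mul_assoc, ← C_mul, mul_inv_cancel₀ h0, C_1, one_mul]

section places

variable {F : Type} [Field F] [Algebra C F] [CFF C F]

theorem InCl.unique {x : F} {s t : κ} {P : Plk C F} (h : InCl r x s P) (h' : InCl r x t P) :
    s = t := by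
  obtain ⟨a, rfl, ha⟩ := h
  obtain ⟨b, rfl, hb⟩ := h'
  rw [Subtype.ext (ha.unique hb)]

theorem cl_eq_some {x : F} {s : κ} {P : Plk C F} : cl r x P = some s ↔ InCl r x s P := by
  unfold cl
  split_ifs with h
  · constructor
    · intro h1
      rw [← Option.some.inj h1]
      exact h.choose_spec
    · intro h1
      rw [h.choose_spec.unique h1]
  · exact ⟨fun h1 => by simp at h1, fun h1 => (h ⟨s, h1⟩).elim⟩

theorem clb_eq_some {x : F} {a : C} {P : Plk C F} : clb x P = some a ↔ Val P x a := by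
  unfold clb
  split_ifs with h
  · constructor
    · intro h1
      rw [← Option.some.inj h1]
      exact P027M.K.val_vl h
    · intro h1
      rw [(P027M.K.val_vl h).unique h1]
  · exact ⟨fun h1 => by simp at h1, fun h1 => (h (ord_nonneg_of_sub h1)).elim⟩

theorem clb_eq_none {x : F} {P : Plk C F} : clb x P = none ↔ ord P x < 0 := by
  unfold clb
  split_ifs with h
  · exact ⟨fun h1 => by simp at h1, fun h1 => by omega⟩
  · exact ⟨fun _ => by omega, fun _ => rfl⟩

theorem cl_of_pole {x : F} {P : Plk C F} (h : ord P x < 0) : cl r x P = none := by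
  rcases h1 : cl r x P with _ | s
  · rfl
  · obtain ⟨a, -, ha⟩ := cl_eq_some.1 h1
    have := ord_nonneg_of_sub ha
    omega

theorem val_aeval {x : F} {a : C} {P : Plk C F} (h : Val P x a) (p : C[X]) :
    Val P (aeval x p) (p.eval a) := by
  induction p using Polynomial.induction_on' with
  | add p q hp hq => rw [map_add, eval_add]; exact hp.add hq
  | monomial n c =>
    rw [aeval_monomial, eval_monomial]
    exact (P027M.K.Val.const P c).mul (h.pow n)

theorem aeval_ne_zero {x : F} (hx : ∀ a : C, x ≠ algebraMap C F a) {p : C[X]} (hp : p ≠ 0) :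
    aeval x p ≠ 0 := fun h => (finite_of_notMem hx).1 ⟨p, hp, h⟩

theorem dg_mapDomain {α β : Type*} (f : α → β) (D : α →₀ ℤ) :
    dg (Finsupp.mapDomain f D) = dg D := by
  induction D using Finsupp.induction_linear with
  | zero => simp
  | add D E hD hE => rw [Finsupp.mapDomain_add, map_add, map_add, hD, hE]
  | single a n => rw [Finsupp.mapDomain_single, dg_sgl, dg_sgl]

variable {ch : Chart r F} {G : Type} [Field G] [Algebra κ G] {b : Bar ch G}

theorem Chart.den_ne (ch : Chart r F) {β : O[X]} (h : β.map r ≠ 0) :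
    eval₂ (io O F) ch.x β ≠ 0 := by
  rw [eval₂_io]
  refine aeval_ne_zero ch.nc fun h0 => h ?_
  rw [(Polynomial.map_eq_zero_iff O.subtype_injective).1 h0, Polynomial.map_zero]

theorem Bar.den_ne [CFF κ G] (b : Bar ch G) {β : O[X]} (h : β.map r ≠ 0) :
    eval₂ (ib r G) b.x β ≠ 0 := by
  rw [eval₂_ib]
  exact aeval_ne_zero b.nc h

theorem Rd.ev (b : Bar ch G) (A : O[X][X]) :
    Rd b (ev (io O F) ch.x ch.th A) (ev (ib r G) b.x b.th A) :=
  ⟨A, 1, by simp, by simp, by simp⟩

theorem Rd.const (b : Bar ch G) (a : O) : Rd b (algebraMap C F a) (algebraMap κ G (r a)) := by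
  have := Rd.ev b (Polynomial.C (Polynomial.C a))
  rwa [ev_CC, ev_CC] at this

theorem Rd.x (b : Bar ch G) : Rd b ch.x b.x := by
  have := Rd.ev b (Polynomial.C X)
  rwa [ev_CX, ev_CX] at this

theorem Rd.zero (b : Bar ch G) : Rd b 0 0 := by simpa using Rd.ev b 0

theorem Rd.one (b : Bar ch G) : Rd b 1 1 := by simpa using Rd.ev b 1

theorem Rd.add {z z' : F} {w w' : G} (h : Rd b z w) (h' : Rd b z' w') : Rd b (z + z') (w + w') := by
  obtain ⟨A, β, h0, h1, h2⟩ := h
  obtain ⟨A', β', h0', h1', h2'⟩ := h'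
  refine ⟨A * Polynomial.C β' + A' * Polynomial.C β, β * β', ?_, ?_, ?_⟩
  · rw [Polynomial.map_mul]; exact mul_ne_zero h0 h0'
  · rw [map_add, map_mul, map_mul, ev_C, ev_C, eval₂_mul, ← h1, ← h1']; ring
  · rw [map_add, map_mul, map_mul, ev_C, ev_C, eval₂_mul, ← h2, ← h2']; ring

theorem Rd.mul {z z' : F} {w w' : G} (h : Rd b z w) (h' : Rd b z' w') : Rd b (z * z') (w * w') := by
  obtain ⟨A, β, h0, h1, h2⟩ := h
  obtain ⟨A', β', h0', h1', h2'⟩ := h'
  refine ⟨A * A', β * β', ?_, ?_, ?_⟩
  · rw [Polynomial.map_mul]; exact mul_ne_zero h0 h0'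
  · rw [map_mul, eval₂_mul, ← h1, ← h1']; ring
  · rw [map_mul, eval₂_mul, ← h2, ← h2']; ring

theorem Rd.neg {z : F} {w : G} (h : Rd b z w) : Rd b (-z) (-w) := by
  obtain ⟨A, β, h0, h1, h2⟩ := h
  exact ⟨-A, β, h0, by rw [map_neg, ← h1, neg_mul], by rw [map_neg, ← h2, neg_mul]⟩

theorem Rd.sub {z z' : F} {w w' : G} (h : Rd b z w) (h' : Rd b z' w') : Rd b (z - z') (w - w') := by
  rw [sub_eq_add_neg, sub_eq_add_neg]
  exact h.add h'.neg

theorem Rd.pow {z : F} {w : G} (h : Rd b z w) (n : ℕ) : Rd b (z ^ n) (w ^ n) := by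
  induction n with
  | zero => rw [pow_zero, pow_zero]; exact Rd.one b
  | succ n ih => rw [pow_succ, pow_succ]; exact ih.mul h

theorem Rd.smul {z : F} {w : G} (h : Rd b z w) (a : O) : Rd b ((a : C) • z) (r a • w) := by
  rw [Algebra.smul_def, Algebra.smul_def]
  exact (Rd.const b a).mul h

theorem Rd.sum {ι : Type*} (s : Finset ι) {z : ι → F} {w : ι → G}
    (h : ∀ i ∈ s, Rd b (z i) (w i)) : Rd b (∑ i ∈ s, z i) (∑ i ∈ s, w i) := by
  classical
  induction s using Finset.induction_on with
  | empty => rw [Finset.sum_empty, Finset.sum_empty]; exact Rd.zero b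
  | insert i s hi ih =>
    rw [Finset.sum_insert hi, Finset.sum_insert hi]
    exact (h i (Finset.mem_insert_self _ _)).add (ih fun j hj => h j (Finset.mem_insert_of_mem hj))

end places

end Vale.Agent.P027M.D
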