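import Vale.Agent.P027M.D.Out

/-!
# P027, route M, block D: the chain model when `g` is close to `1`
-/

set_option linter.all false

noncomputable section

namespace Vale.Agent.P027M.D

open Polynomial IntermediateField Vale.Agent.P022 Vale.Agent.P019P P025H816
open Vale.Agent.P027M.F (Par)
open Vale.Agent.P027M.B (Hyp)

namespace CaseB

/-- the elements fixed by `J` -/
def fixS (J : Subgroup GQ) : Subfield Qb where
  carrier := {z | ∀ σ ∈ J, σ z = z}
  mul_mem' := by
    intro a b ha hb σ h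
    rw [map_mul, ha σ h, hb σ h]
  one_mem' := fun σ _ => map_one σ
  add_mem' := by
    intro a b ha hb σ h
    rw [map_add, ha σ h, hb σ h]
  zero_mem' := fun σ _ => map_zero σ
  neg_mem' := by
    intro a ha σ h
    rw [map_neg, ha σ h]
  inv_mem' := by
    intro a ha σ h
    rw [map_inv₀, ha σ h]

variable {O : ValuationSubring Qb}

theorem val_two_add (h2 : O.valuation 2 = 1) {z : Qb} (hz : O.valuation z < 1) :
    O.valuation (2 + z) = 1 := by
  rw [Valuation.map_add_eq_of_lt_left _ (by rw [h2]; exact hz), h2]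

/-- a square root close to `1` -/
theorem root (h2 : O.valuation 2 = 1) {c : Qb} (hc : O.valuation (c - 1) < 1) :
    ∃ p : Qb, p ^ 2 = c ∧ O.valuation (p - 1) = O.valuation (c - 1) ∧
      O.valuation (p + 1) = 1 := by
  have key : ∀ p : Qb, p ^ 2 = c → O.valuation (p - 1) < 1 →
      O.valuation (p - 1) = O.valuation (c - 1) ∧ O.valuation (p + 1) = 1 := by
    intro p hp h
    have h1 : O.valuation (p + 1) = 1 := by
      have := val_two_add h2 h
      rwa [show (2 : Qb) + (p - 1) = p + 1 by ring] at this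
    refine ⟨?_, h1⟩
    rw [show c - 1 = (p - 1) * (p + 1) by rw [← hp]; ring, map_mul, h1, mul_one]
  obtain ⟨p, hp⟩ := IsAlgClosed.exists_pow_nat_eq c (by norm_num : 0 < 2)
  by_cases h : O.valuation (p - 1) < 1
  · exact ⟨p, hp, key p hp h⟩
  · have hp' : (-p) ^ 2 = c := by rw [← hp]; ring
    refine ⟨-p, hp', key _ hp' ?_⟩
    by_contra h'
    rw [show c - 1 = -((p - 1) * (-p - 1)) by rw [← hp]; ring, Valuation.map_neg, map_mul] at hc
    exact absurd hc (not_lt.2 (one_le_mul (not_lt.1 h) (not_lt.1 h')))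

theorem quad {F : Type} [Field F] (p x : F) (h1 : p + 1 ≠ 0) (h2 : p - 1 ≠ 0) :
    (1 + x) ^ 2 - p ^ 2 * (1 - x) ^ 2 =
      (1 - p ^ 2) * ((x - (p - 1) / (p + 1)) * (x - ((p - 1) / (p + 1))⁻¹)) := by
  field_simp
  ring

theorem curve {F : Type} [Field F] (M W s p q x : F) (hM : M * (1 - x) = s * (1 + x))
    (hW : W ^ 2 = M * (M ^ 2 - s ^ 2) * (M ^ 2 - p ^ 2 * s ^ 2) * (M ^ 2 - q ^ 2 * s ^ 2))
    (p1 : p + 1 ≠ 0) (p2 : p - 1 ≠ 0) (q1 : q + 1 ≠ 0) (q2 : q - 1 ≠ 0) :
    (W * (1 - x) ^ 4) ^ 2 = -4 * s ^ 7 * (1 - p ^ 2) * (1 - q ^ 2) * x * (x - 1) * (x + 1) *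
      (x - (p - 1) / (p + 1)) * (x - (q - 1) / (q + 1)) * (x - ((p - 1) / (p + 1))⁻¹) *
      (x - ((q - 1) / (q + 1))⁻¹) := by
  have e : ∀ c : F, (M ^ 2 - c * s ^ 2) * (1 - x) ^ 2 = s ^ 2 * ((1 + x) ^ 2 - c * (1 - x) ^ 2) := by
    intro c
    have : (M * (1 - x)) ^ 2 = (s * (1 + x)) ^ 2 := by rw [hM]
    linear_combination this
  have e1 := e 1
  have e2 := e (p ^ 2)
  have e3 := e (q ^ 2)
  rw [quad p x p1 p2] at e2
  rw [quad q x q1 q2] at e3
  generalize ((p - 1) / (p + 1))⁻¹ = a' at *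
  generalize ((q - 1) / (q + 1))⁻¹ = b' at *
  generalize (p - 1) / (p + 1) = a at *
  generalize (q - 1) / (q + 1) = b at *
  calc (W * (1 - x) ^ 4) ^ 2 = (M * (1 - x)) * (1 - x) * ((M ^ 2 - 1 * s ^ 2) * (1 - x) ^ 2) *
        ((M ^ 2 - p ^ 2 * s ^ 2) * (1 - x) ^ 2) * ((M ^ 2 - q ^ 2 * s ^ 2) * (1 - x) ^ 2) := by
        rw [mul_pow, hW]; ring
    _ = _ := by rw [hM, e1, e2, e3]; ring

end CaseB

open CaseB in
theorem caseb (hB : CIRCB) (hD : HYPD) (hU : FIXU) : CASEB := by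
  classical
  intro P F _ _ _ M W O J r hH hI h2 hP hfix hQ hg
  have inj : Function.Injective (algebraMap Qb F) := (algebraMap Qb F).injective
  obtain ⟨a, ha⟩ := IsAlgClosed.exists_pow_nat_eq P.g0 (by norm_num : 0 < 4)
  have hfa : ∀ σ ∈ J, σ a = a :=
    hU O J a hI h2 (fun σ h => by rw [ha]; exact (hfix σ h).2) (by rw [ha]; exact hQ)
  obtain ⟨t, ht, htv⟩ := hQ
  obtain ⟨s, hs⟩ : ∃ s : Qb, s = a ^ 2 := ⟨_, rfl⟩
  have hs2 : s ^ 2 = P.g0 := by rw [hs, ← ha]; ring
  have hfs : ∀ σ ∈ J, σ s = s := fun σ h => by rw [hs, map_pow, hfa σ h]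
  have s0 : s ≠ 0 := by
    rintro rfl
    exact P.hg0 (by rw [← hs2]; ring)
  have t0 : t ≠ 0 := by
    rintro rfl
    rw [map_zero, zero_pow (by norm_num)] at htv
    exact P.hg0 ((map_eq_zero _).1 htv.symm)
  have hst : O.valuation s = O.valuation t ^ 2 := by
    have : O.valuation s ^ 2 = (O.valuation t ^ 2) ^ 2 := by
      rw [← map_pow, hs2, ← htv, ← pow_mul]
    exact (pow_left_inj₀ zero_le zero_le two_ne_zero).1 this
  -- absolute values
  have g1 : O.valuation (P.g + 1) = 1 := by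
    have := val_two_add h2 hg
    rwa [show (2 : Qb) + (P.g - 1) = P.g + 1 by ring] at this
  have g0 : O.valuation P.g = 1 := by
    have := Valuation.map_add_eq_of_lt_left O.valuation (x := 1) (y := P.g - 1)
      (by rw [map_one]; exact hg)
    rwa [add_sub_cancel, map_one] at this
  have vc : O.valuation (P.c - 1) = O.valuation (P.g - 1) ^ 2 := by
    rw [P.c_sub_one, map_div₀, Valuation.map_neg, map_pow, g1, div_one]
  have vd : O.valuation (P.d2 - 1) = O.valuation (P.g - 1) ^ 2 := by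
    rw [P.d2_sub_one, map_div₀, Valuation.map_neg, map_pow, map_pow, g1, one_pow, div_one]
  have vcd : O.valuation (P.c - P.d2) = O.valuation (P.g - 1) ^ 2 := by
    rw [P.c_sub_d2, map_div₀, Valuation.map_neg, map_mul, map_pow, map_pow, g1, g0, one_pow,
      div_one, one_mul]
  have h21 : O.valuation (P.g - 1) ^ 2 < 1 := pow_lt_one₀ zero_le hg two_ne_zero
  obtain ⟨p, hp, vp, vp'⟩ := root h2 (c := P.c) (by rw [vc]; exact h21)
  obtain ⟨q, hq, vq, vq'⟩ := root h2 (c := P.d2) (by rw [vd]; exact h21)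
  rw [vc] at vp
  rw [vd] at vq
  have hne : O.valuation (P.g - 1) ^ 2 ≠ 0 := pow_ne_zero _ ((_root_.map_ne_zero _).2 P.hm1)
  have p1 : p + 1 ≠ 0 := fun h => by rw [h, map_zero] at vp'; exact zero_ne_one vp'
  have q1 : q + 1 ≠ 0 := fun h => by rw [h, map_zero] at vq'; exact zero_ne_one vq'
  have p2 : p - 1 ≠ 0 := fun h => by rw [h, map_zero] at vp; exact hne vp.symm
  have q2 : q - 1 ≠ 0 := fun h => by rw [h, map_zero] at vq; exact hne vq.symm
  have vpq : O.valuation (p + q) = 1 := by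
    have := val_two_add h2 (z := (p - 1) + (q - 1))
      (Valuation.map_add_lt _ (by rw [vp]; exact h21) (by rw [vq]; exact h21))
    rwa [show (2 : Qb) + ((p - 1) + (q - 1)) = p + q by ring] at this
  have vpq' : O.valuation (p - q) = O.valuation (P.g - 1) ^ 2 := by
    rw [← vcd, show P.c - P.d2 = (p - q) * (p + q) by rw [← hp, ← hq]; ring, map_mul, vpq,
      mul_one]
  have v4 : O.valuation (-4 : Qb) = 1 := by
    rw [show (-4 : Qb) = -(2 * 2) by norm_num, Valuation.map_neg, map_mul, h2, one_mul]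
  obtain ⟨ι, fι, ρ, η, hC, hS, hf⟩ := hB Qb O (fixS J)
    (-4 * s ^ 7 * (1 - p ^ 2) * (1 - q ^ 2)) (t ^ 7) (P.g - 1) ((p - 1) / (p + 1))
    ((q - 1) / (q + 1)) h2 (pow_mem (show t ∈ fixS J from ht) 7)
    (sub_mem (show P.g ∈ fixS J from fun σ h => (hfix σ h).1) (one_mem _))
    (pow_ne_zero _ t0) P.hm1 hg
    (by rw [map_div₀, vp, vp', div_one]) (by rw [map_div₀, vq, vq', div_one])
    (by
      rw [show (p - 1) / (p + 1) - (q - 1) / (q + 1) = 2 * (p - q) / ((p + 1) * (q + 1)) by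
        field_simp; ring, map_div₀, map_mul, map_mul, h2, vp', vq', vpq', one_mul, one_mul,
        div_one])
    (by
      rw [hp, hq, map_mul, map_mul, map_mul, v4, one_mul, Valuation.map_sub_swap _ 1 P.c,
        Valuation.map_sub_swap _ 1 P.d2, vc, vd, map_pow, map_pow, hst, mul_assoc, ← pow_add,
        ← pow_mul, ← pow_mul])
  -- the coordinate
  have hMs : M + algebraMap Qb F s ≠ 0 := by
    intro h
    apply hH.tr
    have : M = algebraMap Qb F (-s) := by rw [map_neg]; linear_combination h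
    rw [this]
    exact isAlgebraic_algebraMap _
  obtain ⟨x, hx⟩ : ∃ x : F, x = (M - algebraMap Qb F s) / (M + algebraMap Qb F s) := ⟨_, rfl⟩
  have hx1 : x * (M + algebraMap Qb F s) = M - algebraMap Qb F s := by
    rw [hx, div_mul_cancel₀ _ hMs]
  obtain ⟨hnc, hdeg⟩ := hD Qb F P.fP M W hH 1 (-s) 1 s x
    (by
      rw [show (1 : Qb) * s - -s * 1 = 2 * s by ring]
      exact mul_ne_zero P.h2 s0)
    (by rw [map_one, one_mul, map_neg, hx1]; ring)
  have hfx : ∀ σ ∈ J, r σ x = x := by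
    intro σ h
    rw [hx, map_div₀, map_sub, map_add, hP.fM σ h, hP.semi σ h, hfs σ h]
  have nz : ∀ {z : Qb}, z ≠ 0 → algebraMap Qb F z ≠ 0 := fun h => (_root_.map_ne_zero _).2 h
  refine ⟨{ ι := ι, c := _, T := _, ρ := ρ, η := η, x := x, y := W * (1 - x) ^ 4, circ := hC
            nc := hnc, deg := hdeg, sq := ?_, fρ := fun σ h j => (hS j).1 σ h
            fη := fun σ h j => (hS j).2 σ h, fx := hfx, fy := ?_ }⟩
  · rw [hf]
    have hW := hH.sq
    rw [Par.fP, ← hs2, ← hp, ← hq] at hW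
    simp only [map_mul, map_sub, map_pow, aeval_X, aeval_C] at hW
    have := curve M W (algebraMap Qb F s) (algebraMap Qb F p) (algebraMap Qb F q) x
      (by linear_combination -hx1) hW
      (by simpa using nz p1) (by simpa using nz p2) (by simpa using nz q1) (by simpa using nz q2)
    rw [this]
    simp only [map_mul, map_sub, map_add, map_pow, aeval_X, aeval_C, map_one, map_neg, map_div₀,
      map_inv₀, map_ofNat]
  · intro σ h
    rw [map_mul, map_pow, map_sub, map_one, hP.fW σ h, hfx σ h]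

end Vale.Agent.P027M.D
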