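import Vale.Agent.P027M.D.Bas0

/-!
# P027, route M, block D: the charts of a chain
-/

set_option linter.all false

noncomputable section

namespace Vale.Agent.P027M.D

open Polynomial IntermediateField Vale.Agent.P019P P025H492 P025H816

theorem chc (hF : FJ) : CHC := by
  classical
  intro C κ F J _ _ _ _ _ _ O r hr c T ρ η h x y hx hd hy j
  obtain ⟨g, -, g2, g3, -⟩ := hF C κ J O r hr c T ρ η h j
  have ρ0 := h.ρ0 j
  have η0 : η j ≠ 0 := fun e => by
    have := h.nrm j
    rw [e, map_zero, zero_pow two_ne_zero] at this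
    refine mul_ne_zero (mul_ne_zero ((_root_.map_ne_zero _).2 h.c0)
      ((_root_.map_ne_zero _).2 ρ0))
      (Finset.prod_ne_zero_iff.2 fun z _ => ?_) this.symm
    exact (lt_max_of_lt_left (zero_lt_iff.2 ((_root_.map_ne_zero _).2 ρ0))).ne'
  have g0 : g.map r ≠ 0 := fun e => by
    rw [e, natDegree_zero] at g3
    exact absurd g3 (by decide)
  have e1 : algebraMap C F (ρ j) * (algebraMap C F (ρ j)⁻¹ * x) = x := by
    rw [← mul_assoc, ← map_mul, mul_inv_cancel₀ ρ0, map_one, one_mul]
  have two : (2 : κ) ≠ 0 := by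
    have := (val_eq_one_iff hr (2 : O)).1 h.two
    rwa [map_ofNat] at this
  refine ⟨⟨algebraMap C F (ρ j)⁻¹ * x, algebraMap C F (η j)⁻¹ * y, X ^ 2 - Polynomial.C g,
    (g.map r).roots.toFinset, fun a e => hx (ρ j * a) (by rw [map_mul, ← e, e1]),
    monic_X_pow_sub_C g two_ne_zero, ?_, ?_, ?_, fun s hs => ?_⟩, rfl, rfl⟩
  · have e2 := congrArg (aeval (algebraMap C F (ρ j)⁻¹ * x)) g2
    rw [aeval_comp, map_mul, map_mul, aeval_C, aeval_C, aeval_X, e1, ← hy] at e2
    rw [map_sub, map_pow, ev_X, ev_C, eval₂_io, mul_pow, ← e2, ← map_pow, mul_comm, mul_assoc,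
      ← map_mul, ← mul_pow, mul_inv_cancel₀ η0, one_pow, map_one, mul_one, sub_self]
  · have e2 : C⟮algebraMap C F (ρ j)⁻¹ * x⟯ = C⟮x⟯ := by
      refine le_antisymm (adjoin_simple_le_iff.2 (mul_mem (IntermediateField.algebraMap_mem _ _)
        (mem_adjoin_simple_self C x))) (adjoin_simple_le_iff.2 ?_)
      have := mul_mem (IntermediateField.algebraMap_mem C⟮algebraMap C F (ρ j)⁻¹ * x⟯ (ρ j))
        (mem_adjoin_simple_self C (algebraMap C F (ρ j)⁻¹ * x))
      rwa [e1] at this
    rw [e2, hd, natDegree_X_pow_sub_C]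
  · rw [Polynomial.map_sub, Polynomial.map_pow, map_X, map_C]
    refine X_pow_sub_C_irreducible_of_prime Nat.prime_two fun b e => ?_
    have e2 : b * b = algebraMap κ[X] (RatFunc κ) (g.map r) := (sq b).symm.trans e
    have b0 : b ≠ 0 := fun d => RatFunc.algebraMap_ne_zero g0 (by rw [← e2, d, mul_zero])
    have e3 := congrArg RatFunc.intDegree e2
    rw [RatFunc.intDegree_mul b0 b0, RatFunc.intDegree_polynomial] at e3
    obtain ⟨k, hk⟩ := g3
    omega
  · rw [Polynomial.map_sub, Polynomial.map_pow, map_X, map_C]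
    refine separable_X_pow_sub_C _ (by exact_mod_cast two) fun e => hs ?_
    rw [Multiset.mem_toFinset, mem_roots g0, IsRoot.def, eval_map]
    exact e

end Vale.Agent.P027M.D
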