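import Vale.Agent.P027M.D.Out

/-!
# P027, route M, block D: rows `CIRC0`, `CIRCA`
-/

set_option linter.all false

noncomputable section

namespace Vale.Agent.P027M.D

open Polynomial

theorem circ0 : CIRC0 := by
  intro C _ O S c T h2 hc h0 hev hd hS
  classical
  let ι : Type := {v // v ∈ T.image O.valuation}
  have hrep : ∀ j : ι, ∃ z ∈ T, O.valuation z = j.1 := fun j => Finset.mem_image.1 j.2
  choose z hzT hz using hrep
  choose ρ hρS hρ using fun j => (hS (z j) (hzT j)).1
  choose η hηS hη using fun j => (hS (z j) (hzT j)).2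
  refine ⟨ι, inferInstance, ρ, η, ⟨h2, hc, ?_, ?_, ?_, ?_, ?_, hd, ?_⟩,
    fun j => ⟨hρS j, hηS j⟩⟩
  · intro j h
    have h1 := hρ j
    rw [h, map_zero] at h1
    exact h0 _ (hzT j) ((Valuation.zero_iff _).1 h1.symm)
  · intro i j h
    apply Subtype.ext
    rw [← hz i, ← hz j, ← hρ i, ← hρ j, h]
  · intro w hw
    refine ⟨⟨O.valuation w, Finset.mem_image_of_mem _ hw⟩, ?_⟩
    rw [hρ, hz]
  · intro j
    exact ⟨z j, hzT j, (hρ j).symm⟩
  · intro j
    rw [hρ j]
    convert hev _ (hzT j)
  · intro j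
    rw [hρ j]
    exact hη j

namespace Circa

variable {Γ : Type*} [LinearOrderedCommGroupWithZero Γ]

theorem sq_inj {x y : Γ} (h : x ^ 2 = y ^ 2) : x = y :=
  (pow_left_inj₀ zero_le zero_le two_ne_zero).1 h

theorem max_sq (x y : Γ) : max (x ^ 2) (y ^ 2) = max x y ^ 2 := by
  rcases le_total x y with h | h
  · rw [max_eq_right h, max_eq_right (pow_le_pow_left₀ zero_le h 2)]
  · rw [max_eq_left h, max_eq_left (pow_le_pow_left₀ zero_le h 2)]

theorem eq_of_mul {x y m : Γ} (hx : x ≤ m) (hy : y ≤ m) (h0 : m ≠ 0) (h : x * y = m ^ 2) :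
    x = m := by
  refine le_antisymm hx ?_
  have h1 : m * m ≤ x * m := by
    calc m * m = x * y := by rw [h, sq]
      _ ≤ x * m := mul_le_mul_right hy x
  exact le_of_mul_le_mul_right h1 (zero_lt_iff.2 h0)

end Circa

open Circa in
theorem circa : CIRCA := by
  intro C _ _ O S A h2 hA hd
  classical
  have h20 : (2 : C) ≠ 0 := by
    intro h
    rw [h, map_zero] at h2
    exact zero_ne_one h2
  choose s hs using fun a : C => IsAlgClosed.exists_pow_nat_eq a two_pos
  choose! u huS hu using fun a ha => (hA a ha).2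
  have hs0 : ∀ a ∈ A, s a ≠ 0 := by
    intro a ha h
    have := hs a
    rw [h] at this
    exact (hA a ha).1 (by rw [← this]; ring)
  have hne : ∀ z : C, z ≠ 0 → z ≠ -z := by
    intro z hz h
    have : 2 * z = 0 := by linear_combination h
    exact hz ((mul_eq_zero.1 this).resolve_left h20)
  let T : Finset C := A.biUnion fun a => {s a, -s a}
  have hT : ∀ z, z ∈ T ↔ z ^ 2 ∈ A := by
    intro z
    simp only [T, Finset.mem_biUnion, Finset.mem_insert, Finset.mem_singleton]
    constructor
    · rintro ⟨a, ha, h | h⟩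
      · rw [h, hs]; exact ha
      · rw [h, neg_sq, hs]; exact ha
    · intro h
      exact ⟨z ^ 2, h, sq_eq_sq_iff_eq_or_eq_neg.1 (hs _).symm⟩
  have hT0 : ∀ z ∈ T, z ≠ 0 := by
    intro z hz h
    exact (hA _ ((hT z).1 hz)).1 (by rw [h]; ring)
  have hdisj : (A : Set C).PairwiseDisjoint fun a => ({s a, -s a} : Finset C) := by
    intro a _ b _ hab
    refine Finset.disjoint_left.2 fun z hz hz' => hab ?_
    have key : ∀ e : C, z ∈ ({s e, -s e} : Finset C) → z ^ 2 = e := by
      intro e he
      simp only [Finset.mem_insert, Finset.mem_singleton] at he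
      rcases he with h | h
      · rw [h, hs]
      · rw [h, neg_sq, hs]
    rw [← key a hz, key b hz']
  have hprod : ∀ {M : Type} [CommMonoid M] (f : C → M),
      ∏ z ∈ T, f z = ∏ a ∈ A, f (s a) * f (-s a) := by
    intro M _ f
    rw [Finset.prod_biUnion hdisj]
    exact Finset.prod_congr rfl fun a ha => Finset.prod_pair (hne _ (hs0 a ha))
  have hu2 : ∀ z ∈ T, O.valuation (u (z ^ 2) ^ 2) = O.valuation z := by
    intro z hz
    apply sq_inj
    rw [map_pow, ← pow_mul, ← map_pow O.valuation z]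
    exact hu _ ((hT z).1 hz)
  obtain ⟨ι, fι, ρ, η, hC, hS⟩ := circ0 C O (S : Set C) 1 T h2 one_ne_zero hT0 (by
      intro z hz
      have : (∑ w ∈ T.filter (fun z' => O.valuation z' = O.valuation z), (1 : ZMod 2)) = 0 := by
        refine Finset.sum_involution (fun w _ => -w) (fun _ _ => rfl) ?_ ?_ (fun w _ => neg_neg w)
        · intro w hw _
          exact (hne w (hT0 w (Finset.mem_filter.1 hw).1)).symm
        · intro w hw
          obtain ⟨h1, h3⟩ := Finset.mem_filter.1 hw
          exact Finset.mem_filter.2 ⟨(hT _).2 (by rw [neg_sq]; exact (hT _).1 h1),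
            by rw [Valuation.map_neg]; exact h3⟩
      rw [Finset.sum_const, nsmul_eq_mul, mul_one] at this
      convert (ZMod.natCast_eq_zero_iff_even).1 this) (by
      intro z hz w hw hzw
      by_cases h : z ^ 2 = w ^ 2
      · have h1 : z = -w := (sq_eq_sq_iff_eq_or_eq_neg.1 h).resolve_left hzw
        have h3 : z - w = 2 * z := by rw [h1]; ring
        rw [h3, map_mul, h2, one_mul, h1, Valuation.map_neg, max_self]
      · have h1 := hd _ ((hT z).1 hz) _ ((hT w).1 hw) h
        rw [map_pow, map_pow, max_sq, show z ^ 2 - w ^ 2 = (z - w) * (z + w) by ring,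
          map_mul] at h1
        refine eq_of_mul (Valuation.map_sub _ _ _) (Valuation.map_add _ _ _) ?_ h1
        intro h4
        have h5 : O.valuation z ≤ 0 := h4 ▸ le_max_left _ _
        exact hT0 z hz ((Valuation.zero_iff _).1 (le_zero_iff.1 h5))) (by
      intro z hz
      have hzA := (hT z).1 hz
      refine ⟨⟨u (z ^ 2) ^ 2, S.pow_mem (huS _ hzA) 2, hu2 z hz⟩, ?_⟩
      have hm : ∀ a ∈ A, ∃ m ∈ S, O.valuation m = max (O.valuation z) (O.valuation (s a)) := by
        intro a ha
        rcases le_total (O.valuation z) (O.valuation (s a)) with h | h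
        · have hsT : s a ∈ T := (hT _).2 (by rw [hs]; exact ha)
          exact ⟨_, S.pow_mem (huS _ ((hT _).1 hsT)) 2, by rw [hu2 _ hsT, max_eq_right h]⟩
        · exact ⟨_, S.pow_mem (huS _ hzA) 2, by rw [hu2 _ hz, max_eq_left h]⟩
      choose! m hmS hm using hm
      refine ⟨u (z ^ 2) * ∏ a ∈ A, m a, S.mul_mem (huS _ hzA) (S.prod_mem hmS), ?_⟩
      rw [hprod, map_one, one_mul, map_mul, mul_pow, ← map_pow, hu2 z hz, map_prod,
        ← Finset.prod_pow]
      congr 1
      refine Finset.prod_congr rfl fun a ha => ?_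
      rw [hm a ha, Valuation.map_neg, sq])
  refine ⟨ι, fι, T, ρ, η, hC, hS, ?_⟩
  rw [fch, map_one, one_mul, hprod]
  congr 1
  refine Finset.prod_congr rfl fun a ha => ?_
  conv_rhs => rw [← hs a]
  rw [map_neg, map_pow]
  ring

end Vale.Agent.P027M.D
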