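import Vale.Agent.P027M.D.Out

/-!
# P027, route M, block D: three circles
-/

set_option linter.all false

noncomputable section

namespace Vale.Agent.P027M.D

open Polynomial

theorem circb (H : CIRC0) : CIRCB := by
  intro C _ _ O S c u h x₁ x₂ v2 uS hS u0 h0 h1 a1 a2 a12 hc
  obtain ⟨e, he⟩ : ∃ e, e = O.valuation h ^ 2 := ⟨_, rfl⟩
  have H0 : O.valuation h ≠ 0 := (Valuation.ne_zero_iff _).2 h0
  have e0 : e ≠ 0 := he ▸ pow_ne_zero _ H0
  have e1 : e < 1 := he ▸ pow_lt_one₀ zero_le' h1 two_ne_zero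
  have e2 : 1 < e⁻¹ := (one_lt_inv₀ (zero_lt_iff.2 e0)).2 e1
  have e3 : e < e⁻¹ := e1.trans e2
  rw [← he] at a1 a2 a12
  have b0 : O.valuation (1 : C) = 1 := map_one _
  have b1 : O.valuation (-1 : C) = 1 := by rw [Valuation.map_neg, map_one]
  have b2 : O.valuation x₁⁻¹ = e⁻¹ := by rw [map_inv₀, a1]
  have b3 : O.valuation x₂⁻¹ = e⁻¹ := by rw [map_inv₀, a2]
  have z1 : x₁ ≠ 0 := (Valuation.ne_zero_iff _).1 (a1 ▸ e0)
  have z2 : x₂ ≠ 0 := (Valuation.ne_zero_iff _).1 (a2 ▸ e0)
  have d0 : O.valuation (1 - -1 : C) = 1 := by rw [← v2]; norm_num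
  have d2 : O.valuation (x₁⁻¹ - x₂⁻¹) = e⁻¹ := by
    rw [show x₁⁻¹ - x₂⁻¹ = -((x₁ - x₂) * x₁⁻¹ * x₂⁻¹) by field_simp; ring, Valuation.map_neg,
      map_mul, map_mul, a12, b2, b3, mul_inv_cancel₀ e0, one_mul]
  have nz : ∀ {z z' : C}, O.valuation (z - z') ≠ 0 → z ≠ z' := fun k =>
    sub_ne_zero.1 ((Valuation.ne_zero_iff _).1 k)
  have nv : ∀ {z z' : C} {a b}, O.valuation z = a → O.valuation z' = b → a ≠ b → z ≠ z' := by
    rintro z _ _ _ rfl rfl k rfl
    exact k rfl
  have n1 : (1 : C) ∉ ({-1, x₁, x₂, x₁⁻¹, x₂⁻¹} : Finset C) := by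
    simp only [Finset.mem_insert, Finset.mem_singleton, not_or]
    exact ⟨nz (d0 ▸ one_ne_zero), nv b0 a1 e1.ne', nv b0 a2 e1.ne', nv b0 b2 e2.ne,
      nv b0 b3 e2.ne⟩
  have n2 : (-1 : C) ∉ ({x₁, x₂, x₁⁻¹, x₂⁻¹} : Finset C) := by
    simp only [Finset.mem_insert, Finset.mem_singleton, not_or]
    exact ⟨nv b1 a1 e1.ne', nv b1 a2 e1.ne', nv b1 b2 e2.ne, nv b1 b3 e2.ne⟩
  have n3 : x₁ ∉ ({x₂, x₁⁻¹, x₂⁻¹} : Finset C) := by
    simp only [Finset.mem_insert, Finset.mem_singleton, not_or]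
    exact ⟨nz (a12 ▸ e0), nv a1 b2 e3.ne, nv a1 b3 e3.ne⟩
  have n4 : x₂ ∉ ({x₁⁻¹, x₂⁻¹} : Finset C) := by
    simp only [Finset.mem_insert, Finset.mem_singleton, not_or]
    exact ⟨nv a2 b2 e3.ne, nv a2 b3 e3.ne⟩
  have n5 : x₁⁻¹ ∉ ({x₂⁻¹} : Finset C) := by
    simp only [Finset.mem_singleton]
    exact nz (d2 ▸ inv_ne_zero e0)
  have dd : ∀ z z' : C, O.valuation z ≠ O.valuation z' →
      O.valuation (z - z') = max (O.valuation z) (O.valuation z') := fun z z' k => by
    rw [sub_eq_add_neg, Valuation.map_add_of_distinct_val _ (by rwa [Valuation.map_neg]),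
      Valuation.map_neg]
  have sw : ∀ {z z' : C} {a}, O.valuation (z - z') = a → O.valuation (z' - z) = a := fun k => by
    rw [Valuation.map_sub_swap, k]
  have tri : ∀ z ∈ ({1, -1, x₁, x₂, x₁⁻¹, x₂⁻¹} : Finset C),
      O.valuation z = 1 ∨ O.valuation z = e ∨ O.valuation z = e⁻¹ := by
    intro z hz
    simp only [Finset.mem_insert, Finset.mem_singleton] at hz
    rcases hz with rfl | rfl | rfl | rfl | rfl | rfl <;> simp only [b0, b1, a1, a2, b2, b3,
      true_or, or_true]
  obtain ⟨ι, _, ρ, η, k1, k2⟩ := H C O S c {1, -1, x₁, x₂, x₁⁻¹, x₂⁻¹} v2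
    ((Valuation.ne_zero_iff _).1 (hc ▸ mul_ne_zero
      (pow_ne_zero _ ((Valuation.ne_zero_iff _).2 u0)) (pow_ne_zero _ H0)))
    (fun z hz => (Valuation.ne_zero_iff O.valuation).1 (by
      rcases tri z hz with k | k | k <;> rw [k]
      exacts [one_ne_zero, e0, inv_ne_zero e0]))
    (fun z hz => by
      rw [Finset.card_filter, Finset.sum_insert n1, Finset.sum_insert n2, Finset.sum_insert n3,
        Finset.sum_insert n4, Finset.sum_insert n5, Finset.sum_singleton, b0, b1, a1, a2, b2, b3]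
      exact ⟨(if 1 = O.valuation z then 1 else 0) + (if e = O.valuation z then 1 else 0) +
        (if e⁻¹ = O.valuation z then 1 else 0), by ring⟩)
    (fun z hz z' hz' k => by
      by_cases q : O.valuation z = O.valuation z'
      · rw [← q, max_self]
        simp only [Finset.mem_insert, Finset.mem_singleton] at hz hz'
        rcases hz with rfl | rfl | rfl | rfl | rfl | rfl <;>
          rcases hz' with rfl | rfl | rfl | rfl | rfl | rfl <;>
          first
          | exact absurd rfl k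
          | (simp only [b0, b1, a1, a2, b2, b3] at q ⊢
             first
             | exact d0 | exact sw d0 | exact a12 | exact sw a12 | exact d2 | exact sw d2
             | exact absurd q e1.ne | exact absurd q e1.ne' | exact absurd q e2.ne
             | exact absurd q e2.ne' | exact absurd q e3.ne | exact absurd q e3.ne')
      · exact dd z z' q)
    (fun z hz => by
      rw [Finset.prod_insert n1, Finset.prod_insert n2, Finset.prod_insert n3,
        Finset.prod_insert n4, Finset.prod_insert n5, Finset.prod_singleton, b0, b1, a1, a2, b2, b3,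
        hc]
      rcases tri z hz with k | k | k <;> rw [k]
      · refine ⟨⟨1, S.one_mem, b0⟩, u, uS, ?_⟩
        rw [max_self, max_eq_left e1.le, max_eq_right e2.le, he]
        field_simp
      · refine ⟨⟨h ^ 2, S.pow_mem hS _, by rw [map_pow, he]⟩, u * h ^ 3,
          S.mul_mem uS (S.pow_mem hS _), ?_⟩
        rw [max_self, max_eq_right e1.le, max_eq_right e3.le, he, map_mul, map_pow]
        field_simp
      · refine ⟨⟨(h ^ 2)⁻¹, S.inv_mem (S.pow_mem hS _), by rw [map_inv₀, map_pow, he]⟩,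
          u * (h ^ 5)⁻¹, S.mul_mem uS (S.inv_mem (S.pow_mem hS _)), ?_⟩
        rw [max_self, max_eq_left e2.le, max_eq_left e3.le, he, map_mul, map_inv₀, map_pow]
        field_simp)
  refine ⟨ι, ‹_›, ρ, η, k1, k2, ?_⟩
  rw [fch, Finset.prod_insert n1, Finset.prod_insert n2, Finset.prod_insert n3,
    Finset.prod_insert n4, Finset.prod_insert n5, Finset.prod_singleton, map_neg, map_one]
  ring

end Vale.Agent.P027M.D
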