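import Vale.Agent.P027M.D.Bas0

/-!
# P027, route M, block D (geometry): degrees in the residue classes
-/

set_option linter.all false

noncomputable section

namespace Vale.Agent.P027M.D

open Polynomial IntermediateField Vale.Agent.P019P P025H492 P025H816
open _root_.P027M.K (Val)

namespace Cnt

/-- the norm of `A(x, θ)` is a polynomial in `x` -/
theorem nrm_ev (hN : NRM) {R k L : Type} [CommRing R] [Field k] [Field L] [Algebra k L] [CFF k L]
    (φ : R →+* k) (x θ : L) (hx : ∀ a : k, x ≠ algebraMap k L a) (Φ : R[X][X]) (hm : Φ.Monic)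
    (hd : Φ.natDegree = Module.finrank k⟮x⟯ L)
    (h : minpoly k⟮x⟯ θ =
      Φ.map (eval₂RingHom ((algebraMap k k⟮x⟯).comp φ) (AdjoinSimple.gen k x))) (A : R[X][X]) :
    algebraMap k⟮x⟯ L (Algebra.norm k⟮x⟯ (ev ((algebraMap k L).comp φ) x θ A)) =
      aeval x ((resultant Φ A Φ.natDegree A.natDegree).map φ) := by
  have : FiniteDimensional k⟮x⟯ L := (finite_of_notMem hx).2
  set ψ := eval₂RingHom ((algebraMap k k⟮x⟯).comp φ) (AdjoinSimple.gen k x) with hψ
  have e0 : (algebraMap k⟮x⟯ L).comp ψ = eval₂RingHom ((algebraMap k L).comp φ) x := by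
    refine Polynomial.ringHom_ext (fun a => ?_) ?_
    · simp only [hψ, RingHom.comp_apply, coe_eval₂RingHom, eval₂_C]
      rfl
    · simp only [hψ, RingHom.comp_apply, coe_eval₂RingHom, eval₂_X]
      rfl
  have e1 : ev ((algebraMap k L).comp φ) x θ A = aeval θ (A.map ψ) := by
    rw [aeval_def, eval₂_map, e0, ev_eq]
  have e2 : (minpoly k⟮x⟯ θ).natDegree = Φ.natDegree := by rw [h, hm.natDegree_map]
  rw [e1, hN k⟮x⟯ L (A.map ψ) θ A.natDegree (e2.trans hd) natDegree_map_le, e2, h,
    resultant_map_map, ← RingHom.comp_apply, e0, aeval_def, eval₂_map]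
  rfl

theorem md_zero {α β : Type} (g : α → β) (D : α →₀ ℤ) (t : β) (h : ∀ o, g o = t → D o = 0) :
    Finsupp.mapDomain g D t = 0 := by
  classical
  rw [Finsupp.mapDomain, Finsupp.sum_apply]
  refine Finset.sum_eq_zero fun o _ => ?_
  show Finsupp.single (g o) (D o) t = 0
  rw [Finsupp.single_apply]
  split_ifs with e
  · exact h o e
  · rfl

/-- the divisor of a multiset -/
def dm {α : Type} (M : Multiset α) : Option α →₀ ℤ :=
  (M.map fun c => Finsupp.single (some c) (1 : ℤ)).sum

theorem dm_cons {α : Type} (a : α) (M : Multiset α) :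
    dm (a ::ₘ M) = Finsupp.single (some a) 1 + dm M := by
  rw [dm, Multiset.map_cons, Multiset.sum_cons, dm]

theorem dm_apply {α : Type} [DecidableEq α] (M : Multiset α) (a : α) :
    dm M (some a) = M.count a := by
  induction M using Multiset.induction_on with
  | empty => simp [dm]
  | cons b M ih =>
    rw [dm_cons, Finsupp.add_apply, ih, Multiset.count_cons, Finsupp.single_apply]
    by_cases e : a = b
    · rw [if_pos e, if_pos (by rw [e])]
      push_cast
      ring
    · rw [if_neg e, if_neg fun h => e (Option.some.inj h).symm]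
      simp

theorem ext_dg {α : Type} (E E' : Option α →₀ ℤ) (h : ∀ s, E (some s) = E' (some s))
    (hd : dg E = dg E') : E = E' := by
  have e : E - E' = Finsupp.single none ((E - E') none) := by
    ext o
    cases o with
    | none => rw [Finsupp.single_eq_same]
    | some s => rw [Finsupp.sub_apply, h, sub_self, Finsupp.single_eq_of_ne (by simp)]
  have e2 := congrArg dg e
  rw [map_sub, hd, sub_self, dg_sgl] at e2
  rw [← e2, Finsupp.single_zero] at e
  exact sub_eq_zero.1 e

variable {C κ : Type} [Field C] [Field κ] {O : ValuationSubring C}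

open Classical in
/-- the residue class of a point of the line -/
def rs (r : O →+* κ) : Option C → Option κ := fun o =>
  o.bind fun c => if h : c ∈ O then some (r ⟨c, h⟩) else none

theorem rs_some (r : O →+* κ) (a : O) : rs r (some (a : C)) = some (r a) := by
  simp only [rs, Option.bind_some, dif_pos a.2]

theorem rs_eq {r : O →+* κ} {o : Option C} {s : κ} (h : rs r o = some s) :
    ∃ a : O, r a = s ∧ o = some (a : C) := by
  cases o with
  | none => simp [rs] at h
  | some c =>
    simp only [rs, Option.bind_some] at h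
    split_ifs at h with e
    exact ⟨⟨c, e⟩, Option.some.inj h, rfl⟩

theorem cl_eq {F : Type} [Field F] [Algebra C F] [CFF C F] (r : O →+* κ) (x : F) :
    cl r x = rs r ∘ clb x := by
  funext P
  refine Option.ext fun s => ?_
  rw [cl_eq_some]
  constructor
  · rintro ⟨a, rfl, ha⟩
    rw [Function.comp_apply, clb_eq_some.2 ha, rs_some]
  · intro h
    obtain ⟨a, h1, h2⟩ := rs_eq h
    exact ⟨a, h1, clb_eq_some.1 h2⟩

theorem md_dm (r : O →+* κ) (R : Multiset O) :
    Finsupp.mapDomain (rs r) (dm (R.map O.subtype)) = dm (R.map r) := by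
  induction R using Multiset.induction_on with
  | empty => simp [dm]
  | cons b M ih =>
    rw [Multiset.map_cons, Multiset.map_cons, dm_cons, dm_cons, Finsupp.mapDomain_add, ih,
      Finsupp.mapDomain_single]
    exact congrArg (fun o => Finsupp.single o (1 : ℤ) + dm (M.map r)) (rs_some r b)

/-- counting the roots in a residue class -/
theorem cnt_roots (hP : NP) [IsAlgClosed C] {r : O →+* κ} (hr : Function.Surjective r) (p : O[X])
    (hp : p.map r ≠ 0) (D : Option C →₀ ℤ)
    (hD : ∀ a : C, D (some a) = rootMultiplicity a (p.map O.subtype)) (s : κ) :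
    Finsupp.mapDomain (rs r) D (some s) = rootMultiplicity s (p.map r) := by
  classical
  obtain ⟨R, q, e, hq, hc⟩ := hP C κ O r hr p hp
  have p0 : p.map O.subtype ≠ 0 := fun h0 => hp (by
    rw [(Polynomial.map_eq_zero_iff O.subtype_injective).1 h0, Polynomial.map_zero])
  have e1 : p.map O.subtype =
      ((R.map O.subtype).map fun a => X - Polynomial.C a).prod * q.map O.subtype := by
    rw [e, Polynomial.map_mul, Polynomial.map_multiset_prod, Multiset.map_map, Multiset.map_map]
    congr 2
    refine Multiset.map_congr rfl fun a _ => ?_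
    simp only [Function.comp_apply, Polynomial.map_sub, map_X, map_C]
  have e2 : ∀ a : O, D (some (a : C)) = dm (R.map O.subtype) (some (a : C)) := by
    intro a
    have q0 : ¬ IsRoot (q.map O.subtype) (a : C) := fun h => hq a (by
      have h1 : O.subtype (q.eval a) = 0 := by rw [← eval_map_apply]; exact h
      rw [(map_eq_zero_iff _ O.subtype_injective).1 h1, map_zero])
    rw [hD, dm_apply, e1, rootMultiplicity_mul (e1 ▸ p0), rootMultiplicity_eq_zero q0, add_zero,
      ← count_roots, roots_multiset_prod_X_sub_C]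
  rw [← add_sub_cancel (dm (R.map O.subtype)) D, Finsupp.mapDomain_add, Finsupp.add_apply, md_dm,
    dm_apply, hc, md_zero, add_zero]
  intro o ho
  obtain ⟨a, -, rfl⟩ := rs_eq ho
  rw [Finsupp.sub_apply, e2, sub_self]

theorem poly (hM : MINP) (hP : NP) (hN : NRM) (hR : NRP) {F G : Type} [Field F] [Field G]
    [Algebra C F] [Algebra κ G] [CFF C F] [CFF κ G] {r : O →+* κ} (hr : Function.Surjective r)
    (ch : Chart r F) (b : Bar ch G) (A : O[X][X]) (hw : ev (ib r G) b.x b.th A ≠ 0) :
    ev (io O F) ch.x ch.th A ≠ 0 ∧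
      Finsupp.mapDomain (cl r ch.x) (dv C (ev (io O F) ch.x ch.th A)) =
        Finsupp.mapDomain (clb b.x) (dv κ (ev (ib r G) b.x b.th A)) := by
  have : IsAlgClosed C := CFF.ac F
  have : FiniteDimensional C⟮ch.x⟯ F := (finite_of_notMem ch.nc).2
  have : FiniteDimensional κ⟮b.x⟯ G := (finite_of_notMem b.nc).2
  obtain ⟨m1, m2⟩ := hM C κ F O r hr ch
  have n1 := nrm_ev hN O.subtype ch.x ch.th ch.nc ch.Φ ch.monic ch.deg m1 A
  have n2 := nrm_ev hN r b.x b.th b.nc ch.Φ ch.monic b.deg (m2 G b) A
  set p := resultant ch.Φ A ch.Φ.natDegree A.natDegree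
  have p1 : p.map r ≠ 0 := fun h0 => by
    rw [h0, map_zero, map_eq_zero, Algebra.norm_eq_zero_iff] at n2
    exact hw n2
  have p0 : p.map O.subtype ≠ 0 := fun h0 => p1 (by
    rw [(Polynomial.map_eq_zero_iff O.subtype_injective).1 h0, Polynomial.map_zero])
  refine ⟨fun h0 => aeval_ne_zero ch.nc p0 ?_, ext_dg _ _ (fun s => ?_) ?_⟩
  · rw [← n1, map_eq_zero, Algebra.norm_eq_zero_iff]
    exact h0
  · rw [cl_eq, Finsupp.mapDomain_comp]
    exact (cnt_roots hP hr p p1 _ (fun a => hR C F ch.x _ _ a ch.nc p0 n1) s).trans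
      (hR κ G b.x _ _ s b.nc p1 n2).symm
  · rw [dg_mapDomain, dg_mapDomain, dg_dv, dg_dv]

end Cnt

theorem cnt (hM : MINP) (hP : NP) (hN : NRM) (hR : NRP) : CNT := by
  intro C κ F G _ _ _ _ _ _ _ _ O r hr ch b z w h hw
  obtain ⟨A, β, h0, h1, h2⟩ := h
  have d1 := ch.den_ne h0
  have d2 := b.den_ne h0
  obtain ⟨a1, a2⟩ := Cnt.poly hM hP hN hR hr ch b A (by rw [← h2]; exact mul_ne_zero hw d2)
  obtain ⟨-, b2⟩ := Cnt.poly hM hP hN hR hr ch b (Polynomial.C β) (by rw [ev_C]; exact d2)
  rw [ev_C, ev_C] at b2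
  rw [← h1] at a1
  have hz : z ≠ 0 := left_ne_zero_of_mul a1
  rw [← h1, ← h2, dv_mul hz d1, dv_mul hw d2, Finsupp.mapDomain_add, Finsupp.mapDomain_add,
    b2] at a2
  exact ⟨hz, add_right_cancel a2⟩

end Vale.Agent.P027M.D
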