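import Vale.Agent.P027M.D.Bas0

/-!
# P027, route M, block D: a denominator can be removed in a good class without poles
-/

set_option linter.all false

noncomputable section

namespace Vale.Agent.P027M.D

open Polynomial IntermediateField Vale.Agent.P019P P025H492 P025H816
open _root_.P027M.K (Val)

variable {C κ : Type} [Field C] [Field κ] {O : ValuationSubring C} {r : O →+* κ}

/-- a monic polynomial with separable reduction has as many integral roots as its degree -/
theorem den_roots [IsAlgClosed C] (hN : NP) (hr : Function.Surjective r) (p : O[X]) (hp : p.Monic)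
    (hs : (p.map r).Separable) : ∃ T : Finset O, T.card = p.natDegree ∧ ∀ b ∈ T, p.eval b = 0 := by
  classical
  have := acl hr
  obtain ⟨R, q, e, -, hc⟩ := hN C κ O r hr p (hp.map r).ne_zero
  have e1 : R.map r = (p.map r).roots := Multiset.ext.2 fun s => by rw [hc, count_roots]
  have nd : R.Nodup := Multiset.Nodup.of_map r (e1 ▸ nodup_roots hs)
  refine ⟨⟨R, nd⟩, ?_, fun b hb => ?_⟩
  · show R.card = _
    rw [← Multiset.card_map r, e1, IsAlgClosed.card_roots_eq_natDegree, hp.natDegree_map]
  · have h : X - Polynomial.C b ∣ p := by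
      rw [e]
      exact (Multiset.dvd_prod (Multiset.mem_map_of_mem _ hb)).mul_right q
    exact dvd_iff_isRoot.1 h

/-- a root of the reduction comes from a root -/
theorem den_lift [IsAlgClosed C] (hN : NP) (hr : Function.Surjective r) (β : O[X]) (s : κ)
    (h0 : β.map r ≠ 0) (hs : eval₂ r s β = 0) : ∃ a : O, r a = s ∧ X - Polynomial.C a ∣ β := by
  classical
  obtain ⟨R, q, e, -, hc⟩ := hN C κ O r hr β h0
  have h1 : 0 < (R.map r).count s := by
    rw [hc, rootMultiplicity_pos h0, IsRoot.def, eval_map]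
    exact hs
  obtain ⟨a, ha, rfl⟩ := Multiset.mem_map.1 (Multiset.count_pos.1 h1)
  refine ⟨a, rfl, ?_⟩
  rw [e]
  exact (Multiset.dvd_prod (Multiset.mem_map_of_mem _ ha)).mul_right q

theorem den_step {F : Type} [Field F] [Algebra C F] [CFF C F] (hN : NP) (hP : PT)
    (hr : Function.Surjective r) (ch : Chart r F) (z : F) (A : O[X][X]) (β : O[X]) (a : O)
    (hs : r a ∉ ch.bad)
    (h : z * eval₂ (io O F) ch.x ((X - Polynomial.C a) * β) = ev (io O F) ch.x ch.th A)
    (hz : ∀ P, InCl r ch.x (r a) P → 0 ≤ ord P z) :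
    ∃ A' : O[X][X], z * eval₂ (io O F) ch.x β = ev (io O F) ch.x ch.th A' := by
  have : IsAlgClosed C := CFF.ac F
  obtain ⟨-, p2, p3⟩ := hP C κ F O r hr ch a
  have eA : ev (io O F) ch.x ch.th (A %ₘ ch.Φ) = ev (io O F) ch.x ch.th A := by
    conv_rhs => rw [← modByMonic_add_div A ch.Φ, map_add, map_mul, ch.root, zero_mul, add_zero]
  have ec : r.comp (evalRingHom a) = eval₂RingHom r (r a) :=
    RingHom.ext fun p => (eval₂_at_apply r a).symm
  obtain ⟨T, hT, hb⟩ := den_roots hN hr (ch.Φ.map (evalRingHom a)) (ch.monic.map _)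
    (by rw [Polynomial.map_map, ec]; exact ch.sep _ hs)
  have g0 : (A %ₘ ch.Φ).map (evalRingHom a) = 0 := by
    refine eq_zero_of_degree_lt_of_eval_finset_eq_zero T ?_ fun b hbT => ?_
    · rw [hT, ch.monic.natDegree_map, ← degree_eq_natDegree ch.monic.ne_zero]
      exact degree_map_le.trans_lt (degree_modByMonic_lt A ch.monic)
    · rw [map_evalRingHom_eval]
      obtain ⟨P, hx, ht⟩ := p3 b (by rw [← map_evalRingHom_eval]; exact hb b hbT)
      have v1 := p2 P b hx ht (A %ₘ ch.Φ)
      have v2 := (P027M.K.val_vl (hz P ⟨a, rfl, hx⟩)).mul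
        (val_aeval hx (((X - Polynomial.C a) * β).map O.subtype))
      rw [← eval₂_io, h, ← eA] at v2
      have v3 := v1.unique v2
      have v4 : (((X - Polynomial.C a) * β).map O.subtype).eval (a : C) = 0 := by simp
      rw [v4, mul_zero] at v3
      exact Subtype.ext v3
  have dv : Polynomial.C (X - Polynomial.C a) ∣ A %ₘ ch.Φ := by
    refine (C_dvd_iff_dvd_coeff _ _).2 fun i => dvd_iff_isRoot.2 ?_
    have := congrArg (fun t => t.coeff i) g0
    simpa only [coeff_map, coeff_zero, coe_evalRingHom, IsRoot.def] using this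
  obtain ⟨A', hA'⟩ := dv
  refine ⟨A', ?_⟩
  have n0 : eval₂ (io O F) ch.x (X - Polynomial.C a) ≠ 0 := by
    rw [eval₂_sub, eval₂_X, eval₂_C, sub_ne_zero]
    exact ch.nc a
  refine mul_left_cancel₀ n0 ?_
  rw [← eA, hA', map_mul, ev_C, eval₂_mul] at h
  rw [← h]
  ring

theorem den (hN : NP) (hP : PT) : DEN := by
  intro C κ F _ _ _ _ _ O r hr ch z A β s hs h0 h hz
  have : IsAlgClosed C := CFF.ac F
  induction hn : β.natDegree using Nat.strong_induction_on generalizing A β with
  | _ n ih =>
    by_cases e : eval₂ r s β = 0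
    · obtain ⟨a, rfl, β₁, rfl⟩ := den_lift hN hr β s h0 e
      obtain ⟨A', hA'⟩ := den_step hN hP hr ch z A β₁ a hs h hz
      have h1 : β₁.map r ≠ 0 := fun h1 => h0 (by rw [Polynomial.map_mul, h1, mul_zero])
      have h2 : β₁ ≠ 0 := fun h2 => h1 (by rw [h2, Polynomial.map_zero])
      refine ih β₁.natDegree ?_ A' β₁ h1 hA' rfl
      rw [← hn, (monic_X_sub_C a).natDegree_mul' h2, natDegree_X_sub_C]
      omega
    · exact ⟨A, β, e, h⟩

end Vale.Agent.P027M.D
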