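import Vale.Agent.P027M.D.Bas0

/-!
# P027, route M, block D: echelon form over a valuation ring (row **ECH**)
-/

set_option linter.all false

noncomputable section

namespace Vale.Agent.P027M.D

namespace EchA

theorem step {C ι : Type} [Field C] (O : ValuationSubring C) (V : Submodule C (ι →₀ C))
    [FiniteDimensional C V] : ∀ n : ℕ, n ≤ Module.finrank C V →
    ∃ (v : Fin n → ι →₀ C) (e : Fin n → ι), (∀ k, v k ∈ V) ∧ (∀ k i, v k i ∈ O) ∧
      ∀ k l, v k (e l) = if k = l then 1 else 0 := by
  intro n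
  induction n with
  | zero => exact fun _ => ⟨Fin.elim0, Fin.elim0, fun k => k.elim0, fun k => k.elim0, fun k => k.elim0⟩
  | succ n ih =>
    intro hn
    obtain ⟨v, e, h1, h2, h3⟩ := ih (by omega)
    have h4 : ¬ V ≤ Submodule.span C (Set.range v) := fun h => by
      have : FiniteDimensional C (Submodule.span C (Set.range v)) :=
        FiniteDimensional.span_of_finite C (Set.finite_range v)
      have h5 := (Submodule.finrank_mono h).trans (finrank_range_le_card (R := C) v)
      rw [Fintype.card_fin] at h5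
      omega
    obtain ⟨w, hw, hw'⟩ := SetLike.not_le_iff_exists.1 h4
    have h5 : w - ∑ k, w (e k) • v k ≠ 0 := fun h => hw' (by
      rw [sub_eq_zero.1 h]
      exact Submodule.sum_mem _ fun k _ =>
        Submodule.smul_mem _ _ (Submodule.subset_span ⟨k, rfl⟩))
    have h6 : w - ∑ k, w (e k) • v k ∈ V :=
      V.sub_mem hw (V.sum_mem fun k _ => V.smul_mem _ (h1 k))
    have h7 : ∀ l, (w - ∑ k, w (e k) • v k) (e l) = 0 := fun l => by
      simp [Finsupp.finset_sum_apply, h3]
    generalize w - ∑ k, w (e k) • v k = w' at h5 h6 h7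
    obtain ⟨i, hi, hO⟩ := exists_prim O w' h5
    have u1 : ((w' i)⁻¹ • w') i = 1 := by
      rw [Finsupp.smul_apply, smul_eq_mul, inv_mul_cancel₀ hi]
    have u2 : ∀ l, ((w' i)⁻¹ • w') (e l) = 0 := fun l => by
      rw [Finsupp.smul_apply, h7, smul_zero]
    have u3 : ∀ j, ((w' i)⁻¹ • w') j ∈ O := hO
    have u4 : (w' i)⁻¹ • w' ∈ V := V.smul_mem _ h6
    generalize (w' i)⁻¹ • w' = u at u1 u2 u3 u4
    refine ⟨Fin.cons u fun k => v k - v k i • u, Fin.cons i e, fun k => ?_, fun k j => ?_,
      fun k l => ?_⟩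
    · refine Fin.cases u4 (fun k => ?_) k
      exact V.sub_mem (h1 k) (V.smul_mem _ u4)
    · refine Fin.cases (u3 j) (fun k => ?_) k
      exact O.toSubring.sub_mem (h2 k j) (O.mul_mem _ _ (h2 k i) (u3 j))
    · refine Fin.cases ?_ (fun k => ?_) k <;> refine Fin.cases ?_ (fun l => ?_) l
      · simpa using u1
      · simpa [(Fin.succ_ne_zero l).symm] using u2 l
      · simp [u1, Fin.succ_ne_zero]
      · simp [u2, h3]

end EchA

theorem ech : ECH := fun _ _ _ O V _ => EchA.step O V _ le_rfl

end Vale.Agent.P027M.D
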