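import Vale.Agent.P027M.D.Font0

/-!
# P027, route M, block D: row COS
-/

set_option linter.all false

noncomputable section

namespace Vale.Agent.P027M.D

open Polynomial Vale.Agent.P022

theorem cos (hL : F_LAG) (hD : F_DV) (hN : F_NORM) : F_COS := by
  classical
  intro O A w y k hI hK T1 hw hy hk he
  set v := O.valuation
  have w3 : w ^ 3 = 1 := by linear_combination (w - 1) * hw
  have vw : v w = 1 := (pow_eq_one_iff_of_nonneg zero_le three_ne_zero).1 (by
    rw [← map_pow, w3, map_one])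
  have T0 : v 3 ≠ 0 := (map_ne_zero v).2 three_ne_zero
  have l2 : v (1 - w) ^ 2 = v 3 := by
    rw [← map_pow, show (1 - w) ^ 2 = -(3 * w) by linear_combination hw, v.map_neg, map_mul, vw,
      mul_one]
  have l1 : v (1 - w) < 1 := by
    by_contra h
    exact T1.not_ge (l2 ▸ one_le_pow₀ (not_lt.1 h))
  have l0 : 0 < v (1 - w) := zero_lt_iff.2 fun e => T0 (by rw [← l2, e, zero_pow two_ne_zero])
  have l3 : v (1 - w ^ 2) = v (1 - w) := by
    rw [show 1 - w ^ 2 = -((1 - w) * w ^ 2) by linear_combination (1 - w) * hw, v.map_neg, map_mul,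
      map_pow, vw, one_pow, mul_one]
  have hj : ∀ j : ℕ, w ^ j = 1 ∨ w ^ j = w ∨ w ^ j = w ^ 2 := fun j => by
    rw [pow_eq_pow_mod j w3]
    have := Nat.mod_lt j three_pos
    interval_cases j % 3 <;> simp
  have f : y ^ 3 - 1 = (y - 1) * (y - 1 + (1 - w)) * (y - 1 + (1 - w ^ 2)) := by
    linear_combination (y - 1) * y * hw - (y - 1) * w3
  have lm : v (1 - w) < v (y - 1) := by
    by_contra h
    have h := not_lt.1 h
    have h1 : v (y ^ 3 - 1) ≤ v (1 - w) ^ 3 := by
      rw [f, map_mul, map_mul, pow_three']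
      exact mul_le_mul' (mul_le_mul' h (v.map_add_le h le_rfl)) (v.map_add_le h l3.le)
    have h2 := pow_le_pow_left₀ zero_le h1 k
    rw [he, ← l2, ← pow_mul] at h2
    exact h2.not_gt (pow_lt_pow_right_of_lt_one₀ l0 l1 (by omega))
  have m3 : v (y - 1) ^ (3 * k) = v 3 := by
    rw [← he, f, map_mul, map_mul, v.map_add_eq_of_lt_left lm, v.map_add_eq_of_lt_left (l3 ▸ lm),
      pow_mul, pow_three']
  have m0 := l0.trans lm
  have m1 : v (y - 1) < 1 := by
    by_contra h
    exact T1.not_ge (m3 ▸ one_le_pow₀ (not_lt.1 h))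
  have vy : v y ≤ 1 := by simpa using v.map_add_le m1.le v.map_one.le
  have key : ∀ (b : Qb) (c : ℤ), Fix A b → v b = v (y - 1) ^ c → 3 ∣ c := fun b c hb e => by
    obtain ⟨m, n, h1, h2⟩ := hK b ((map_ne_zero v).1 (e ▸ zpow_ne_zero _ m0.ne')) hb
    rw [show O.valuation b = _ from e, show O.valuation 3 = _ from m3.symm, ← zpow_natCast,
      ← zpow_natCast, ← zpow_mul, ← zpow_mul] at h2
    have h3 := zpow_right_injective₀ m0 m1.ne h2
    exact (Int.prime_three.dvd_or_dvd (⟨k * n, by rw [h3]; push_cast; ring⟩ :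
      (3 : ℤ) ∣ c * m)).resolve_right (by exact_mod_cast h1)
  have sub : Orb A (y - 1) ⊆ {1 * y - 1, w * y - 1, w ^ 2 * y - 1} := fun ρ h => by
    obtain ⟨σ, h1, rfl⟩ := mem_Orb.1 h
    obtain ⟨j, e⟩ := hy σ h1
    rw [map_sub, map_one, e]
    rcases hj j with h | h | h <;> simp [h]
  have c3 : (Orb A (y - 1)).card = 3 := by
    obtain ⟨b, -, h1, h2⟩ := hN O A hI (y - 1) ((map_ne_zero v).1 m0.ne')
    have h3 := key b _ h1 (h2.trans (zpow_natCast _ _).symm)
    have h4 := (Finset.card_le_card sub).trans Finset.card_le_three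
    have h5 := Finset.card_pos.2 ⟨_, (mem_Orb (A := A) (π := y - 1)).2 ⟨1, A.one_mem, rfl⟩⟩
    omega
  refine ⟨m3, fun j => ?_, fun a ha τ hτ => ?_⟩
  · have e := Finset.eq_of_subset_of_card_le sub (c3 ▸ Finset.card_le_three)
    obtain ⟨t, h1, h2⟩ := mem_Orb.1 (show w ^ j * y - 1 ∈ Orb A (y - 1) by
      rw [e]
      rcases hj j with h | h | h <;> simp [h])
    exact ⟨t, h1, by simpa using h2⟩
  obtain ⟨p, p1, p2, p3⟩ := hL A (y - 1) a fun σ h e => ha σ h (by simpa using e)
  rw [c3] at p1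
  have e1 := p3 1 A.one_mem
  have e2 := p3 τ hτ
  rw [eval_eq_sum_range' p1] at e1 e2
  rw [AlgEquiv.one_apply, AlgEquiv.one_apply] at e1
  have d := hD O (Finset.range 3) (fun i => p.coeff i * (y - 1) ^ i) fun i hi j hj n e => by
    have n1 : v (p.coeff j) ≠ 0 := fun h => (map_ne_zero v).2 n (by
      rw [show v _ = v _ from e, map_mul, h, zero_mul])
    have := key (p.coeff i / p.coeff j) ((j : ℤ) - i) (fun σ h => by
      rw [map_div₀, p2 i σ h, p2 j σ h]) (by
      rw [map_div₀, zpow_sub₀ m0.ne', zpow_natCast, zpow_natCast,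
        div_eq_div_iff n1 (pow_ne_zero _ m0.ne'), mul_comm _ (v (p.coeff j))]
      simpa only [map_mul, map_pow] using e)
    rw [Finset.mem_range] at hi hj
    omega
  rw [e1] at d
  have d1 := d 1 (by simp)
  have d2 := d 2 (by simp)
  simp only [map_mul, map_pow, pow_one] at d1 d2
  obtain ⟨j, ej⟩ := hy τ hτ
  have t1 : v (τ (y - 1) - (y - 1)) ≤ v (1 - w) := by
    rw [show τ (y - 1) - (y - 1) = -((1 - w ^ j) * y) by rw [map_sub, map_one, ej]; ring, v.map_neg,
      map_mul]
    refine mul_le_of_le_of_le_one ?_ vy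
    rcases hj j with h | h | h <;> simp [h, l3]
  have t2 : v (τ (y - 1) + (y - 1)) ≤ v (y - 1) :=
    v.map_add_le (by simpa using v.map_add_le (t1.trans lm.le) le_rfl) le_rfl
  have e3 : (τ a - a) * (y - 1) = p.coeff 1 * (y - 1) * (τ (y - 1) - (y - 1)) +
      p.coeff 2 * ((τ (y - 1) + (y - 1)) * (y - 1)) * (τ (y - 1) - (y - 1)) := by
    rw [← e2, ← e1]
    simp only [Finset.sum_range_succ, Finset.sum_range_zero]
    ring
  rw [← map_mul, e3]
  refine v.map_add_le ?_ ?_ <;> simp only [map_mul]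
  · exact mul_le_mul' d1 t1
  · exact mul_le_mul' (le_trans (by rw [sq]; gcongr) d2) t1

end Vale.Agent.P027M.D
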