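import Vale.Agent.P027M.D.Font0

/-!
# P027, route M, block D: the lower bound
-/

set_option linter.all false

noncomputable section

namespace Vale.Agent.P027M.D

open NumberField Polynomial Vale.Agent.P022
open scoped Classical

namespace Low

theorem self_mem (B : Subgroup GQ) (π : Qb) : π ∈ Orb B π := mem_Orb.2 ⟨1, B.one_mem, rfl⟩

theorem image_orb {B : Subgroup GQ} {σ : GQ} (h : σ ∈ B) (π : Qb) :
    (Orb B π).image σ = Orb B π := by
  ext ρ
  simp only [Finset.mem_image, mem_Orb]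
  constructor
  · rintro ⟨_, ⟨τ, m, rfl⟩, rfl⟩
    exact ⟨σ * τ, B.mul_mem h m, rfl⟩
  · rintro ⟨τ, m, rfl⟩
    exact ⟨(σ⁻¹ * τ) π, ⟨_, B.mul_mem (B.inv_mem h) m, rfl⟩, by simp⟩

theorem map_Q (s : Finset Qb) (σ : GQ) :
    (∏ ρ ∈ s, (X - C ρ)).map (σ : Qb →+* Qb) = ∏ ρ ∈ s, (X - C (σ ρ)) := by
  simp [Polynomial.map_prod]

theorem coeff_mem (O : ValuationSubring Qb) {s : Finset Qb} (h : ∀ ρ ∈ s, ρ ∈ O) (i : ℕ) :
    (∏ ρ ∈ s, (X - C ρ)).coeff i ∈ O := by
  refine Finset.prod_induction _ (fun q : Qb[X] => ∀ i, q.coeff i ∈ O) (fun a b ha hb i => ?_)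
    (fun i => ?_) (fun ρ m i => ?_) i
  · rw [coeff_mul]
    exact sum_mem fun c _ => mul_mem (ha _) (hb _)
  · rw [coeff_one]
    split_ifs
    exacts [one_mem _, zero_mem _]
  · rw [coeff_sub, coeff_X, coeff_C]
    refine sub_mem ?_ ?_
    · split_ifs
      exacts [one_mem _, zero_mem _]
    · split_ifs
      exacts [h ρ m, zero_mem _]

/-- the product over one coset -/
theorem key (O : ValuationSubring Qb) {B : Subgroup GQ} {π u z : Qb} (τ : GQ)
    (hv : ∀ σ ∈ B, O.valuation (σ π) = O.valuation π) (h1 : O.valuation π < 1)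
    (hz : O.valuation z ≠ 0)
    (h : ∀ a : Qb, Fix B a → O.valuation (τ a - a) * O.valuation u ≤ O.valuation a * O.valuation z) :
    (∏ ρ ∈ Orb B π, O.valuation (π - τ ρ)) * O.valuation u < O.valuation z := by
  set Q : Qb[X] := ∏ ρ ∈ Orb B π, (X - C ρ) with hQ
  have vρ : ∀ ρ ∈ Orb B π, O.valuation ρ = O.valuation π := by
    intro ρ m
    replace m := mem_Orb.1 m
    obtain ⟨σ, m, rfl⟩ := m
    exact hv σ m
  have fx : ∀ i, Fix B (Q.coeff i) := by
    intro i σ m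
    have e : Q.map (σ : Qb →+* Qb) = Q := by
      rw [hQ, map_Q]
      conv_rhs => rw [← image_orb m π]
      rw [Finset.prod_image fun a _ b _ k => σ.injective k]
    have := congrArg (fun q => q.coeff i) e
    simpa [coeff_map] using this
  have c1 : ∀ i, O.valuation (Q.coeff i) ≤ 1 := fun i =>
    (O.valuation_le_one_iff _).2 (coeff_mem O (fun ρ m =>
      (O.valuation_le_one_iff _).1 ((vρ ρ m).trans_le h1.le)) i)
  have c0 : O.valuation (Q.coeff 0) < 1 := by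
    rw [coeff_zero_eq_eval_zero, hQ, eval_prod, map_prod,
      Finset.prod_congr rfl (g := fun _ => O.valuation π) fun ρ m => by simp [vρ ρ m],
      Finset.prod_const]
    exact pow_lt_one₀ zero_le' h1 (Finset.card_ne_zero_of_mem (self_mem B π))
  have e0 : Q.eval π = 0 := by
    rw [hQ, eval_prod]
    exact Finset.prod_eq_zero (self_mem B π) (by simp)
  have e1 : ∏ ρ ∈ Orb B π, (π - τ ρ) =
      ∑ i ∈ Finset.range (Q.natDegree + 1), (τ (Q.coeff i) - Q.coeff i) * π ^ i := by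
    have a1 : (Q.map (τ : Qb →+* Qb)).eval π = ∏ ρ ∈ Orb B π, (π - τ ρ) := by
      rw [hQ, map_Q, eval_prod]
      simp
    rw [← a1, eval_eq_sum_range' (Nat.lt_succ_of_le natDegree_map_le)]
    simp only [sub_mul, Finset.sum_sub_distrib, ← eval_eq_sum_range, e0, sub_zero, coeff_map]
    rfl
  rw [← map_prod, ← map_mul, e1, Finset.sum_mul]
  refine O.valuation.map_sum_lt hz fun i _ => ?_
  rw [mul_right_comm, map_mul, map_mul]
  refine (mul_le_mul_left (h _ (fx i)) _).trans_lt ?_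
  rw [mul_right_comm]
  refine mul_lt_of_lt_one_left (zero_lt_iff.2 hz) ?_
  rcases Nat.eq_zero_or_pos i with rfl | k
  · simpa using c0
  · rw [map_pow]
    exact (mul_le_of_le_one_left' (c1 i)).trans_lt (pow_lt_one₀ zero_le' h1 k.ne')

end Low

open Low

theorem low (hV : F_VINV) : F_LOW := by
  intro O I A w y π hI AI h3 hw _ he hs ⟨s₀, s1, s2⟩ y0 ht hu ha
  have vi := hV O I hI
  have v3 : O.valuation (3 : Qb) ≠ 0 := by simp
  have w3 : w ^ 3 = 1 := by linear_combination (w - 1) * hw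
  have w1 : w ≠ 1 := by
    rintro rfl
    norm_num at hw
  have vw : O.valuation w = 1 := by
    have := congrArg O.valuation w3
    rw [map_pow, map_one] at this
    exact (pow_eq_one_iff_of_nonneg zero_le' (by norm_num)).1 this
  have vz : O.valuation (1 - w) ^ 2 = O.valuation (3 : Qb) := by
    rw [← map_pow, show (1 - w) ^ 2 = -(3 * w) by linear_combination hw, Valuation.map_neg, map_mul,
      vw, mul_one]
  have z0 : O.valuation (1 - w) ≠ 0 := by simpa [sub_eq_zero] using w1.symm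
  have p1 : O.valuation π < 1 := by
    by_contra k
    exact absurd (he ▸ one_le_pow₀ (not_lt.1 k)) h3.not_ge
  set B : Subgroup GQ := A ⊓ MulAction.stabilizer GQ y with hB
  have mB : ∀ σ : GQ, σ ∈ B ↔ σ ∈ A ∧ σ y = y := fun σ => Iff.rfl
  have K : ∀ τ ∈ A, (∏ ρ ∈ Orb B π, O.valuation (π - τ ρ)) * O.valuation (y - 1) <
      O.valuation (1 - w) := fun τ m =>
    key O τ (fun σ n => vi σ (AI n.1) π) p1 z0 fun a f =>
      ha a (fun σ n n' => f σ ⟨n, n'⟩) τ m
  obtain ⟨t₁, m1, e1⟩ := ht 1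
  obtain ⟨t₂, m2, e2⟩ := ht 2
  have n1 : t₁ y ≠ y := by
    rw [e1, pow_one]
    exact fun k => w1 (mul_right_cancel₀ y0 (k.trans (one_mul y).symm))
  have n2 : t₂ y ≠ y := by
    rw [e2]
    intro k
    have := mul_right_cancel₀ y0 (k.trans (one_mul y).symm)
    exact w1 (by linear_combination w3 - w * this)
  have n3 : t₁ y ≠ t₂ y := by
    rw [e1, e2]
    intro k
    have := mul_right_cancel₀ y0 k
    exact w1 (by linear_combination (-w ^ 2) * this + (1 - w) * w3)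
  obtain ⟨_, m, hm⟩ := Finset.exists_min_image
    ((Orb A π).filter fun ρ => ∃ t ∈ A, t y ≠ y ∧ t π = ρ) (fun ρ => O.valuation (ρ - π))
    ⟨t₁ π, Finset.mem_filter.2 ⟨mem_Orb.2 ⟨_, m1, rfl⟩, _, m1, n1, rfl⟩⟩
  obtain ⟨t, m0, n0, rfl⟩ := (Finset.mem_filter.1 m).2
  have mn : ∀ τ ∈ A, τ y ≠ y → ∀ ρ ∈ Orb B π, O.valuation (t π - π) ≤ O.valuation (π - τ ρ) := by
    intro τ k k' ρ n
    replace n := mem_Orb.1 n
    obtain ⟨σ, n, rfl⟩ := n
    have b : τ * σ ∈ A := A.mul_mem k n.1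
    rw [Valuation.map_sub_swap _ π]
    exact hm _ (Finset.mem_filter.2 ⟨mem_Orb.2 ⟨_, b, rfl⟩, _, b, by
      rwa [AlgEquiv.mul_apply, ((mB σ).1 n).2], rfl⟩)
  refine ⟨t, m0, n0, ?_⟩
  set f : Qb → O.ValueGroup := fun ρ => max (O.valuation (t π - π)) (O.valuation (π - ρ)) with hf
  have f1 : ∀ ρ ∈ Orb I π, f ρ ≤ O.valuation π := by
    intro ρ n
    replace n := mem_Orb.1 n
    obtain ⟨σ, n, rfl⟩ := n
    exact max_le (O.valuation.map_sub_le (vi t (AI m0) π).le le_rfl)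
      (O.valuation.map_sub_le le_rfl (vi σ n π).le)
  have sA : Orb A π ⊆ Orb I π := fun ρ n => by
    replace n := mem_Orb.1 n
    obtain ⟨σ, n, rfl⟩ := n
    exact mem_Orb.2 ⟨σ, AI n, rfl⟩
  have st : ∀ σ ∈ I, ∀ σ' ∈ I, σ π = σ' π → σ'⁻¹ * σ ∈ A ∧ σ y = σ' y := by
    intro σ k σ' k' e
    have := hs _ (I.mul_mem (I.inv_mem k') k) (by simp [e])
    refine ⟨this.1, ?_⟩
    have e' := congrArg σ' this.2
    simpa using e'
  have cd : (Orb I π).card ≤ 2 * (Orb I π \ Orb A π).card := by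
    have a1 : (Orb A π).image s₀ ⊆ Orb I π \ Orb A π := by
      intro ρ n
      replace n := Finset.mem_image.1 n
      obtain ⟨_, n, rfl⟩ := n
      replace n := mem_Orb.1 n
      obtain ⟨σ, n, rfl⟩ := n
      refine Finset.mem_sdiff.2 ⟨mem_Orb.2 ⟨s₀ * σ, I.mul_mem s1 (AI n), rfl⟩, fun k => s2 ?_⟩
      obtain ⟨σ', k, e⟩ := mem_Orb.1 k
      have := A.mul_mem (A.mul_mem k (st (s₀ * σ) (I.mul_mem s1 (AI n)) σ' (AI k) e.symm).1)
        (A.inv_mem n)
      simpa using this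
    have a2 := Finset.card_le_card a1
    rw [Finset.card_image_of_injective _ s₀.injective] at a2
    have a3 := Finset.card_sdiff_add_card_eq_card sA
    omega
  have P0 : (∏ ρ ∈ Orb I π \ Orb A π, f ρ) ^ 2 ≤ O.valuation (3 : Qb) := by
    refine (pow_le_pow_left' (Finset.prod_le_pow_card _ _ _ fun ρ n =>
      f1 ρ (Finset.mem_sdiff.1 n).1) 2).trans ?_
    rw [← pow_mul, ← he, mul_comm]
    exact pow_le_pow_right_of_le_one' p1.le cd
  have sub : ∀ τ ∈ A, (Orb B π).image τ ⊆ Orb A π := by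
    intro τ k ρ n
    replace n := Finset.mem_image.1 n
    obtain ⟨_, n, rfl⟩ := n
    replace n := mem_Orb.1 n
    obtain ⟨σ, n, rfl⟩ := n
    exact mem_Orb.2 ⟨τ * σ, A.mul_mem k n.1, rfl⟩
  have dj : ∀ τ ∈ A, ∀ τ' ∈ A, τ y ≠ τ' y →
      Disjoint ((Orb B π).image τ) ((Orb B π).image τ') := by
    intro τ k τ' k' ne
    refine Finset.disjoint_left.2 fun ρ n n' => ne ?_
    replace n := Finset.mem_image.1 n
    obtain ⟨_, n, rfl⟩ := n
    replace n := mem_Orb.1 n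
    obtain ⟨σ, n, rfl⟩ := n
    obtain ⟨_, n', e⟩ := Finset.mem_image.1 n'
    replace n' := mem_Orb.1 n'
    obtain ⟨σ', n', rfl⟩ := n'
    have := (st (τ * σ) (AI (A.mul_mem k n.1)) (τ' * σ') (AI (A.mul_mem k' n'.1)) e.symm).2
    rwa [AlgEquiv.mul_apply, AlgEquiv.mul_apply, ((mB σ).1 n).2, ((mB σ').1 n').2] at this
  have P1 : ∀ τ ∈ A, τ y ≠ y → (∏ ρ ∈ (Orb B π).image τ, f ρ) * O.valuation (y - 1) <
      O.valuation (1 - w) := by
    intro τ k k'
    rw [Finset.prod_image fun a _ b _ e => τ.injective e,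
      Finset.prod_congr rfl (g := fun ρ => O.valuation (π - τ ρ)) fun ρ n =>
        max_eq_right (mn τ k k' ρ n)]
    exact K τ k
  have P2 : (∏ ρ ∈ (Orb B π).image (1 : GQ), f ρ) * O.valuation (y - 1) < O.valuation (1 - w) := by
    rw [image_orb B.one_mem]
    refine (mul_le_mul_left (Finset.prod_le_prod' fun ρ n => max_le (mn t m0 n0 ρ n) ?_) _).trans_lt
      (K t m0)
    rw [← vi t (AI m0), map_sub, show t π - t ρ = (t π - π) + (π - t ρ) by ring]
    exact O.valuation.map_add_le (mn t m0 n0 ρ n) le_rfl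
  have P3 : ∏ ρ ∈ Orb A π, f ρ ≤ (∏ ρ ∈ (Orb B π).image (1 : GQ), f ρ) *
      ((∏ ρ ∈ (Orb B π).image t₁, f ρ) * ∏ ρ ∈ (Orb B π).image t₂, f ρ) := by
    rw [← Finset.prod_union (dj _ m1 _ m2 n3), ← Finset.prod_union (Finset.disjoint_union_right.2
      ⟨dj _ A.one_mem _ m1 n1.symm, dj _ A.one_mem _ m2 n2.symm⟩)]
    exact Finset.prod_le_prod_of_subset_of_le_one'
      (Finset.union_subset (sub _ A.one_mem) (Finset.union_subset (sub _ m1) (sub _ m2)))
      fun ρ n _ => (f1 ρ (sA n)).trans p1.le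
  have P4 : (∏ ρ ∈ Orb A π, f ρ) * O.valuation (y - 1) ^ 3 < O.valuation (1 - w) ^ 3 := by
    refine (mul_le_mul_left P3 _).trans_lt ?_
    have := mul_lt_mul'' P2 (mul_lt_mul'' (P1 _ m1 n1) (P1 _ m2 n2) zero_le' zero_le') zero_le'
      zero_le'
    convert this using 1
    · rw [pow_succ', sq]
      ac_rfl
    · rw [pow_succ', sq]
  have P5 : ((∏ ρ ∈ Orb A π, f ρ) * O.valuation (y - 1) ^ 3) ^ 2 < O.valuation (3 : Qb) ^ 3 := by
    rw [← vz, ← pow_mul, mul_comm 2 3, pow_mul]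
    exact pow_lt_pow_left₀ P4 zero_le' two_ne_zero
  rw [← Finset.prod_sdiff sA]
  refine lt_of_mul_lt_mul_right (a := O.valuation (y - 1) ^ 6) ?_ zero_le'
  calc ((∏ ρ ∈ Orb I π \ Orb A π, f ρ) * ∏ ρ ∈ Orb A π, f ρ) ^ 2 * O.valuation (y - 1) ^ 6
      = (∏ ρ ∈ Orb I π \ Orb A π, f ρ) ^ 2 *
          ((∏ ρ ∈ Orb A π, f ρ) * O.valuation (y - 1) ^ 3) ^ 2 := by
        rw [mul_pow, mul_pow, ← pow_mul, mul_assoc]
    _ ≤ O.valuation (3 : Qb) * ((∏ ρ ∈ Orb A π, f ρ) * O.valuation (y - 1) ^ 3) ^ 2 :=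
        mul_le_mul_left P0 _
    _ < O.valuation (3 : Qb) * O.valuation (3 : Qb) ^ 3 :=
        mul_lt_mul_of_pos_left P5 (zero_lt_iff.2 v3)
    _ ≤ O.valuation (3 : Qb) ^ 3 * O.valuation (y - 1) ^ 6 := by
        rw [mul_comm]
        exact mul_le_mul_right hu _

end Vale.Agent.P027M.D
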