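import Vale.Agent.P027M.D.Font0

/-!
# P027, route M, block D: the rows VINV, NORM, KL, STAB
-/

set_option linter.all false

noncomputable section

namespace Vale.Agent.P027M.D

open NumberField Polynomial Vale.Agent.P022

theorem vinv : F_VINV := by
  intro O I h
  have key : ∀ σ ∈ I, ∀ x : Qb, ¬ O.valuation (σ x) < O.valuation x := fun σ hσ x lt => by
    have x0 : x ≠ 0 := fun e => by simp [e] at lt
    have u1 : O.valuation (σ x / x) < 1 := by
      rw [map_div₀, div_lt_one₀ (zero_lt_iff.2 (by simpa using x0))]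
      exact lt
    have anti : StrictAnti fun n : ℕ => O.valuation ((σ ^ n) x) := by
      refine strictAnti_nat_of_succ_lt fun n => ?_
      have h1 := h _ (I.pow_mem hσ n) _ ((O.valuation_le_one_iff _).1 u1.le)
      have h2 := Valuation.map_add_lt _ h1 u1
      rwa [sub_add_cancel, map_div₀, map_div₀, div_lt_one₀ (zero_lt_iff.2
        ((Valuation.ne_zero_iff _).2 ((map_ne_zero (σ ^ n)).2 x0))),
        ← AlgEquiv.mul_apply, ← pow_succ] at h2
    exact ((orb_fin I x).image O.valuation).not_infinite (Set.infinite_of_injective_forall_mem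
      anti.injective fun n => ⟨_, ⟨_, I.pow_mem hσ n, rfl⟩, rfl⟩)
  intro σ hσ x
  refine le_antisymm (not_lt.1 fun k => key _ (I.inv_mem hσ) (σ x) ?_) (not_lt.1 (key σ hσ x))
  rwa [← AlgEquiv.mul_apply, inv_mul_cancel, AlgEquiv.one_apply]

theorem fnrm : F_NORM := by
  intro O A h a a0
  refine ⟨∏ ρ ∈ Orb A a, ρ, Finset.prod_ne_zero_iff.2 fun ρ k => ?_, fun σ hσ => ?_, ?_⟩
  · obtain ⟨σ, -, rfl⟩ := mem_Orb.1 k
    simpa using a0
  · rw [map_prod]
    refine Finset.prod_equiv σ.toEquiv (fun ρ => ?_) fun _ _ => rfl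
    rw [mem_Orb, mem_Orb]
    exact ⟨fun ⟨τ, k, e⟩ => ⟨σ * τ, A.mul_mem hσ k, e ▸ rfl⟩, fun ⟨τ, k, e⟩ =>
      ⟨σ⁻¹ * τ, A.mul_mem (A.inv_mem hσ) k, by
        rw [AlgEquiv.mul_apply, e]
        exact σ.symm_apply_apply ρ⟩⟩
  · rw [map_prod, ← Finset.prod_const]
    refine Finset.prod_congr rfl fun ρ k => ?_
    obtain ⟨σ, hσ, rfl⟩ := mem_Orb.1 k
    exact vinv O A h σ hσ a

/-- the orbit has as many elements as the index of the stabilizer -/
theorem card_Orb (A : Subgroup GQ) (a : Qb) :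
    (Orb A a).card = (MulAction.stabilizer GQ a).relIndex A := by
  have e : {ρ : Qb | ∃ σ ∈ A, σ a = ρ} = MulAction.orbit A a :=
    Set.ext fun ρ => ⟨fun ⟨σ, k, e⟩ => ⟨⟨σ, k⟩, e⟩, fun ⟨σ, e⟩ => ⟨σ, σ.2, e⟩⟩
  rw [Orb, ← Set.ncard_eq_toFinset_card _ (orb_fin A a), e, ← MulAction.index_stabilizer]
  rfl

theorem kl : F_KL := by
  intro O I Γ h kz N r p a a0 fx
  obtain ⟨b, b0, fb, vb⟩ := fnrm O I h a a0
  obtain ⟨n, hn⟩ := kz b b0 fb
  refine ⟨_, n, fun d => ?_, vb.symm.trans hn⟩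
  haveI : Finite (I ⧸ Γ.subgroupOf I) := Nat.finite_of_card_ne_zero r
  haveI : Fact (Nat.Prime 2) := ⟨Nat.prime_two⟩
  obtain ⟨k, hk⟩ := (IsPGroup.iff_card (p := 2) (G := I ⧸ Γ.subgroupOf I)).1 fun g => by
    obtain ⟨g, rfl⟩ := QuotientGroup.mk_surjective g
    obtain ⟨a, ha⟩ := p g
    exact ⟨a, by rw [← QuotientGroup.mk_pow, QuotientGroup.eq_one_iff]; exact ha⟩
  have h1 := Subgroup.relIndex_dvd_of_le_left I
    (show Γ ⊓ I ≤ MulAction.stabilizer GQ a from fun σ hσ => fx σ hσ)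
  rw [Subgroup.inf_relIndex_right, ← card_Orb] at h1
  have h2 : 3 ∣ 2 ^ k := d.trans (h1.trans (dvd_of_eq hk))
  exact absurd (Nat.prime_three.dvd_of_dvd_pow h2) (by norm_num)

theorem stab : F_STAB := by
  intro O I U π h kz v1 ⟨fx, r, vπ⟩
  have v0 : 0 < O.valuation (3 : Qb) := zero_lt_iff.2 (by simp)
  have π0 : π ≠ 0 := fun e => by
    rw [e, map_zero, zero_pow r] at vπ
    exact v0.ne vπ
  obtain ⟨b, b0, fb, vb⟩ := fnrm O I h π π0
  obtain ⟨n, hn⟩ := kz b b0 fb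
  have le : U ≤ MulAction.stabilizer GQ π := fun σ hσ => fx σ hσ
  have h1 := Subgroup.relIndex_inf_mul_relIndex U (MulAction.stabilizer GQ π) I
  rw [inf_of_le_left le, ← card_Orb] at h1
  set k := U.relIndex (MulAction.stabilizer GQ π ⊓ I)
  have h2 : O.valuation (3 : Qb) ^ (n * k) = O.valuation (3 : Qb) ^ (1 : ℤ) := by
    rw [zpow_mul, ← hn, vb, zpow_natCast, ← pow_mul, mul_comm, h1, vπ, zpow_one]
  have h3 : k = 1 := by
    have := Int.eq_one_of_mul_eq_one_left (Int.natCast_nonneg k)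
      (zpow_right_injective₀ v0 v1.ne h2)
    exact_mod_cast this
  exact ⟨by rw [← h1, h3, one_mul], fun σ hσ e => Subgroup.relIndex_eq_one.1 h3 ⟨e, hσ⟩⟩

end Vale.Agent.P027M.D
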