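import Vale.Agent.P027M.D.Font0

/-!
# P027, route M, block D: rows LAG, DV, POLY of `FONT`
-/

set_option linter.all false

noncomputable section

namespace Vale.Agent.P027M.D

open NumberField Polynomial Vale.Agent.P022

theorem lag : F_LAG := by
  classical
  intro A π x h
  have hs : ∀ ρ : Qb, ∃ y : Qb, ∀ σ ∈ A, σ π = ρ → σ x = y := by
    intro ρ
    by_cases hρ : ∃ σ ∈ A, σ π = ρ
    · obtain ⟨τ, hτ, rfl⟩ := hρ
      refine ⟨τ x, fun σ hσ e => ?_⟩
      have h1 := h (τ⁻¹ * σ) (A.mul_mem (A.inv_mem hτ) hσ) (by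
        rw [AlgEquiv.mul_apply, e]; exact τ.symm_apply_apply π)
      rw [AlgEquiv.mul_apply] at h1
      exact (τ.apply_symm_apply _).symm.trans (congrArg τ h1)
    · exact ⟨0, fun σ hσ e => absurd ⟨σ, hσ, e⟩ hρ⟩
  choose r hr using hs
  have hinj : Set.InjOn (id : Qb → Qb) (Orb A π) := Function.injective_id.injOn
  have hdeg : (Lagrange.interpolate (Orb A π) id r).degree < (Orb A π).card :=
    Lagrange.degree_interpolate_lt r hinj
  have hev : ∀ σ ∈ A, (Lagrange.interpolate (Orb A π) id r).eval (σ π) = σ x := by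
    intro σ hσ
    rw [hr _ σ hσ rfl]
    have h1 := Lagrange.eval_interpolate_at_node r hinj (mem_Orb.2 ⟨σ, hσ, rfl⟩ : σ π ∈ Orb A π)
    rwa [id] at h1
  generalize Lagrange.interpolate (Orb A π) id r = p at hdeg hev
  refine ⟨p, ?_, ?_, hev⟩
  · by_cases h0 : p = 0
    · rw [h0, natDegree_zero]
      exact Finset.card_pos.2 ⟨π, mem_Orb.2 ⟨1, one_mem _, rfl⟩⟩
    · exact (natDegree_lt_iff_degree_lt h0).2 hdeg
  · intro i τ hτ
    have h1 : p.map (τ : Qb →+* Qb) = p := by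
      refine eq_of_degrees_lt_of_eval_finset_eq (Orb A π) (degree_map_le.trans_lt hdeg) hdeg ?_
      intro ρ hρ
      obtain ⟨σ, hσ, rfl⟩ := mem_Orb.1 hρ
      have h2 := hev (τ⁻¹ * σ) (A.mul_mem (A.inv_mem hτ) hσ)
      have h3 : σ π = (τ : Qb →+* Qb) ((τ⁻¹ * σ) π) := (τ.apply_symm_apply _).symm
      conv_lhs => rw [h3]
      rw [eval_map, eval₂_hom, h2, hev σ hσ]
      exact τ.apply_symm_apply _
    have h2 := congrArg (fun q => coeff q i) h1
    simp only [coeff_map] at h2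
    exact h2

theorem dv : F_DV := by
  classical
  intro O s a h i hi
  obtain ⟨j, hj, hm⟩ := s.exists_max_image (fun j => O.valuation (a j)) ⟨i, hi⟩
  by_cases h0 : a j = 0
  · refine (hm i hi).trans ?_
    simp only [h0, map_zero, zero_le']
  · refine (hm i hi).trans (le_of_eq (Eq.symm ?_))
    refine O.valuation.map_sum_eq_of_lt hj fun k hk => ?_
    rw [Finset.mem_sdiff, Finset.mem_singleton] at hk
    exact lt_of_le_of_ne (hm k hk.1) fun e => hk.2 (h j hj k hk.1 h0 e.symm).symm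

namespace FPolyP

theorem gen (hS : F_STAB) {O : ValuationSubring Qb} {I : Subgroup GQ} (hI : Ine O I) (hK : KZ O I)
    (h3 : O.valuation (3 : Qb) < 1) {U : Subgroup GQ} {π x : Qb} (hx : x ∈ O) (hf : Fix U x)
    (hU : Unif O I U π) :
    ∃ g : Qb[X], (∀ i, g.coeff i ∈ O) ∧ ∀ σ : I, (σ : GQ) x = g.eval ((σ : GQ) π) := by
  obtain ⟨hc, hst⟩ := hS O I U π hI hK h3 hU
  obtain ⟨p, hd, hfix, hev⟩ := lag I π x fun σ hσ e => hf σ (hst σ hσ e)
  refine ⟨p, ?_, fun σ => (hev σ σ.2).symm⟩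
  rw [hc] at hd
  obtain ⟨-, he, hv⟩ := hU
  generalize U.relIndex I = e at hd he hv
  have h30 : O.valuation (3 : Qb) ≠ 0 := (Valuation.ne_zero_iff _).2 (by norm_num)
  have hπ0 : O.valuation π ≠ 0 := by
    intro h
    rw [h, zero_pow he] at hv
    exact h30 hv.symm
  have hπ1 : O.valuation π < 1 := by
    by_contra h
    exact absurd (one_le_pow₀ (not_lt.1 h) (n := e)) (not_le.2 (hv ▸ h3))
  have hanti := zpow_right_strictAnti₀ (zero_lt_iff.2 hπ0) hπ1
  have hval : ∀ i, p.coeff i ≠ 0 → ∃ n : ℤ, O.valuation (p.coeff i) = O.valuation π ^ (e * n) ∧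
      O.valuation (p.coeff i * π ^ i) = O.valuation π ^ (e * n + i) := by
    intro i hi
    obtain ⟨n, hn⟩ := hK _ hi (hfix i)
    have h1 : O.valuation (p.coeff i) = O.valuation π ^ (e * n) := by
      rw [hn, ← hv, zpow_mul, zpow_natCast]
    exact ⟨n, h1, by rw [map_mul, map_pow, h1, zpow_add₀ hπ0, zpow_natCast]⟩
  have hsum : ∑ i ∈ Finset.range e, p.coeff i * π ^ i = x := by
    have h1 := hev 1 (one_mem _)
    rw [eval_eq_sum_range' hd] at h1
    exact h1
  have hle := dv O (Finset.range e) (fun i => p.coeff i * π ^ i) (by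
    intro i hi j hj h0 hij
    have hi0 : p.coeff i ≠ 0 := left_ne_zero_of_mul h0
    have hj0 : p.coeff j ≠ 0 := by
      intro h
      rw [h, zero_mul, map_zero, Valuation.zero_iff] at hij
      exact h0 hij
    obtain ⟨n, -, hn⟩ := hval i hi0
    obtain ⟨m, -, hm⟩ := hval j hj0
    rw [hn, hm] at hij
    have h1 := hanti.injective hij
    rw [Finset.mem_range] at hi hj
    have h2 : ((e : ℤ) * n + i) % e = ((e : ℤ) * m + j) % e := by rw [h1]
    rw [Int.mul_add_emod_self_left, Int.mul_add_emod_self_left,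
      Int.emod_eq_of_lt (by positivity) (by exact_mod_cast hi),
      Int.emod_eq_of_lt (by positivity) (by exact_mod_cast hj)] at h2
    exact_mod_cast h2)
  intro i
  by_cases hi0 : p.coeff i = 0
  · rw [hi0]; exact zero_mem _
  have hi : i < e := (le_natDegree_of_ne_zero hi0).trans_lt hd
  obtain ⟨n, h1, hn⟩ := hval i hi0
  have h2 := hle i (Finset.mem_range.2 hi)
  rw [hsum, hn] at h2
  have h4 : O.valuation π ^ ((e : ℤ) * n + i) ≤ O.valuation π ^ (0 : ℤ) := by
    rw [zpow_zero]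
    exact h2.trans ((O.valuation_le_one_iff x).2 hx)
  have h5 : (0 : ℤ) ≤ e * n + i := hanti.le_iff_ge.1 h4
  have h6 : 0 ≤ n := by
    by_contra hneg
    have : (e : ℤ) * n ≤ e * (-1) := mul_le_mul_of_nonneg_left (by omega) (by positivity)
    have h7 : (i : ℤ) < e := by exact_mod_cast hi
    omega
  rw [← O.valuation_le_one_iff, h1, ← zpow_zero (O.valuation π)]
  exact hanti.antitone (by positivity)

end FPolyP

theorem poly : F_STAB → F_POLY := by
  classical
  intro hS O I hI hK h3 z hz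
  induction hz using Subring.closure_induction with
  | mem z hz =>
    rcases hz with ⟨c, hc, rfl⟩ | ⟨x, hx, rfl⟩
    · refine ⟨∅, fun U π _ _ => ⟨C c, fun i => ?_, fun σ => by simp⟩⟩
      rw [coeff_C]
      split_ifs
      exacts [hc, zero_mem _]
    · exact ⟨{x}, fun U π hf hU =>
        FPolyP.gen hS hI hK h3 hx (hf x (Finset.mem_singleton_self x)) hU⟩
  | zero => exact ⟨∅, fun U π _ _ => ⟨0, fun i => by simp, fun σ => by simp⟩⟩
  | one =>
    refine ⟨∅, fun U π _ _ => ⟨1, fun i => ?_, fun σ => by simp⟩⟩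
    rw [coeff_one]
    split_ifs
    exacts [one_mem _, zero_mem _]
  | add x y _ _ hx hy =>
    obtain ⟨X1, h1⟩ := hx
    obtain ⟨X2, h2⟩ := hy
    refine ⟨X1 ∪ X2, fun U π hf hU => ?_⟩
    obtain ⟨g1, a1, b1⟩ := h1 U π (fun x hx => hf x (Finset.mem_union_left _ hx)) hU
    obtain ⟨g2, a2, b2⟩ := h2 U π (fun x hx => hf x (Finset.mem_union_right _ hx)) hU
    exact ⟨g1 + g2, fun i => by rw [coeff_add]; exact add_mem (a1 i) (a2 i),
      fun σ => by rw [eval_add, Pi.add_apply, b1, b2]⟩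
  | neg x _ hx =>
    obtain ⟨X1, h1⟩ := hx
    refine ⟨X1, fun U π hf hU => ?_⟩
    obtain ⟨g1, a1, b1⟩ := h1 U π hf hU
    exact ⟨-g1, fun i => by rw [coeff_neg]; exact neg_mem (a1 i),
      fun σ => by rw [eval_neg, Pi.neg_apply, b1]⟩
  | mul x y _ _ hx hy =>
    obtain ⟨X1, h1⟩ := hx
    obtain ⟨X2, h2⟩ := hy
    refine ⟨X1 ∪ X2, fun U π hf hU => ?_⟩
    obtain ⟨g1, a1, b1⟩ := h1 U π (fun x hx => hf x (Finset.mem_union_left _ hx)) hU
    obtain ⟨g2, a2, b2⟩ := h2 U π (fun x hx => hf x (Finset.mem_union_right _ hx)) hU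
    exact ⟨g1 * g2, fun i => by
        rw [coeff_mul]; exact sum_mem fun c _ => mul_mem (a1 _) (a2 _),
      fun σ => by rw [eval_mul, Pi.mul_apply, b1, b2]⟩

end Vale.Agent.P027M.D
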