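import Vale.Agent.P027M.D.Font0
import Vale.Agent.P027M.D.Over
import Vale.Agent.P022.H916.Fld

/-!
# P027, route M, block D: the ramification index is the order of the inertia group
-/

set_option linter.all false

noncomputable section

namespace Vale.Agent.P027M.D

open NumberField IsDedekindDomain Vale.Agent.P022 Vale.Agent.P022.H916

namespace FRam

variable {P : Ideal (𝓞 Qb)} {O : ValuationSubring Qb} {L : Type} [Field L] [NumberField L]

/-- the prime of `L` below `P` -/
def bel (j : L →+* Qb) (hP : P.IsPrime) (h3 : (3 : 𝓞 Qb) ∈ P) : HeightOneSpectrum (𝓞 L) :=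
  ⟨below j P, Ideal.IsPrime.comap _, fun h0 => by
    have h1 : (3 : 𝓞 L) ∈ below j P := by
      show RingOfIntegers.mapRingHom j (3 : 𝓞 L) ∈ P
      rwa [map_ofNat]
    rw [h0, Ideal.mem_bot] at h1
    exact absurd h1 (by exact_mod_cast (three_ne_zero : (3 : ℕ) ≠ 0))⟩

/-- the valuation of `O` restricts to the adic valuation -/
theorem dict (j : L →+* Qb) (hP : P.IsPrime) (hO : Over P O) (v : HeightOneSpectrum (𝓞 L))
    (hv : v.asIdeal = below j P) : (O.valuation.comap j).IsEquiv (v.valuation L) := by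
  have key : ∀ x : L, v.valuation L x ≤ 1 → ∃ n d : 𝓞 L, d ∉ v.asIdeal ∧ x * d = n ∧
      ((RingOfIntegers.mapRingHom j d : 𝓞 Qb) : Qb) * j x = RingOfIntegers.mapRingHom j n := by
    intro x hx
    obtain ⟨n, d, h⟩ := v.exists_primeCompl_mul_eq_of_integer x hx
    refine ⟨n, d.1, d.2, h, ?_⟩
    have h1 := congrArg j h
    rw [map_mul, mul_comm] at h1
    exact h1
  rw [Valuation.isEquiv_iff_val_le_one]
  intro x
  rw [Valuation.comap_apply]
  constructor
  · intro h
    by_contra hc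
    have h1 : 1 < v.valuation L x := not_le.1 hc
    have hx : x ≠ 0 := by
      rintro rfl
      simp at h1
    have h2 : v.valuation L x⁻¹ < 1 := by
      rw [map_inv₀]
      exact inv_lt_one_of_one_lt₀ h1
    obtain ⟨n, d, hd, h4, h5⟩ := key _ h2.le
    have hn : n ∈ v.asIdeal := by
      rw [← v.valuation_lt_one_iff_mem (K := L)]
      have h6 : v.valuation L (algebraMap (𝓞 L) L n) = v.valuation L x⁻¹ * v.valuation L d := by
        rw [← map_mul, h4]
      rw [h6]
      exact mul_lt_one_of_lt_of_le h2 (v.valuation_le_one d)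
    rw [hv] at hd hn
    have h7 := Ov.lt_one hP hO hd hn h5
    rw [map_inv₀, map_inv₀, inv_lt_one₀ (zero_lt_iff.2 (by simpa using hx))] at h7
    exact absurd h (not_le.2 h7)
  · intro h
    obtain ⟨n, d, hd, -, h5⟩ := key _ h
    rw [hv] at hd
    exact (O.valuation_le_one_iff _).2 ((hO _).2 ⟨_, _, hd, h5⟩)

/-- `Un` elements are uniformizers -/
theorem unif (j : L →+* Qb) {v : HeightOneSpectrum (𝓞 L)}
    (he : (O.valuation.comap j).IsEquiv (v.valuation L)) {π : Qb} (h : Un O (GK j) π) :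
    ∃ y : L, j y = π ∧ v.valuation L y = WithZero.exp (-1 : ℤ) := by
  obtain ⟨h1, h2, h3, h4⟩ := h
  obtain ⟨y, rfl⟩ := fixed j (x := π) fun g => h1 g g.2
  refine ⟨y, rfl, ?_⟩
  obtain ⟨t, ht⟩ := v.valuation_exists_uniformizer L
  have ht0 : t ≠ 0 := by
    rintro rfl
    rw [map_zero] at ht
    exact WithZero.exp_ne_zero ht.symm
  obtain ⟨n, hn⟩ := h4 (j t) ((map_ne_zero j).2 ht0) fun g hg => hg t
  have h5 : v.valuation L t = v.valuation L (y ^ n) := by
    rw [← he.eq_iff, Valuation.comap_apply, Valuation.comap_apply, hn, map_zpow₀, map_zpow₀]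
  have h6 : v.valuation L y < 1 := he.lt_one_iff_lt_one.1 h3
  have h7 : v.valuation L y ≠ 0 := (map_ne_zero _).2 ((map_ne_zero j).1 h2)
  rw [← WithZero.exp_log h7] at h6 ⊢
  rw [map_zpow₀, ← WithZero.exp_log h7, ht, ← WithZero.exp_zsmul, WithZero.exp_inj,
    smul_eq_mul] at h5
  rw [← WithZero.exp_zero, WithZero.exp_lt_exp] at h6
  congr 1
  rcases Int.eq_one_or_neg_one_of_mul_eq_neg_one' h5.symm with h8 | h8 <;> omega

theorem GK_val {V : Subgroup GQ} (hV : IsOpen (V : Set GQ)) :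
    GK (IntermediateField.fixedField V).val.toRingHom = V := by
  have hfix : (IntermediateField.fixedField V).fixingSubgroup = V :=
    InfiniteGalois.fixingSubgroup_fixedField ⟨V, OpenSubgroup.isClosed ⟨V, hV⟩⟩
  ext g
  constructor
  · intro h
    rw [← hfix, IntermediateField.mem_fixingSubgroup_iff]
    intro x hx
    exact h (⟨x, hx⟩ : FF V)
  · intro h x
    have h1 := x.2
    rw [IntermediateField.mem_fixedField_iff] at h1
    exact h1 _ h

theorem card_in {K : Type} [Field K] [Algebra K L] {j : K →+* Qb} {jL : L →+* Qb}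
    {ρ : GK j →* (L ≃ₐ[K] L)} (D : Dict j jL ρ) (hP : P.IsPrime) :
    Nat.card ((below jL P).inertia (L ≃ₐ[K] L)) = (GK jL).relIndex (inr P ⊓ GK j) := by
  let φ : (inr P ⊓ GK j : Subgroup GQ) →* (L ≃ₐ[K] L) := ρ.comp (Subgroup.inclusion inf_le_right)
  have h1 : φ.ker = (GK jL).subgroupOf (inr P ⊓ GK j) := by
    ext g
    exact D.ker _
  have h2 : φ.range = (below jL P).inertia (L ≃ₐ[K] L) := by
    ext τ
    constructor
    · rintro ⟨g, rfl⟩
      exact D.inertia_push (g := Subgroup.inclusion inf_le_right g) g.2.1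
    · intro h
      obtain ⟨g, h3, h4⟩ := D.inertia_lift hP (τ := τ) h
      exact ⟨⟨g, h4, g.2⟩, h3⟩
  rw [Subgroup.relIndex, ← h1, Subgroup.index_ker, h2]

end FRam

open FRam in
theorem ram : F_RAM := by
  intro P O V U ϖ π hP h3 hO hU hN hUV hϖ hπ
  have hV : IsOpen (V : Set GQ) := Subgroup.isOpen_mono hUV hU
  have hfin : FiniteDimensional ℚ (FF V) := finU V hV
  have hNF : NumberField (FF V) := { to_charZero := inferInstance, to_finiteDimensional := hfin }
  obtain ⟨j, hj⟩ : ∃ j : FF V →+* Qb, GK j = V := ⟨_, GK_val hV⟩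
  obtain ⟨L, _, _, _, _, jL, ρ, D, hL, -⟩ := exists_fld j U hU (hUV.trans hj.ge)
    fun g _ u hu => hN.conj_mem u hu g
  let v := bel j hP h3
  let w := bel jL hP h3
  have hw := dict jL hP hO w rfl
  obtain ⟨x, rfl, hx⟩ := unif j (dict j hP hO v rfl) (hj.symm ▸ hϖ)
  obtain ⟨y, rfl, hy⟩ := unif jL hw (hL.symm ▸ hπ)
  have hl : w.asIdeal.LiesOver v.asIdeal := ⟨(D.below_comap P).symm⟩
  have h1 := Ideal.card_inertia_eq_ramificationIdxIn (G := L ≃ₐ[FF V] L) v.asIdeal w.asIdeal
  rw [Ideal.ramificationIdxIn_eq_ramificationIdx v.asIdeal w.asIdeal (L ≃ₐ[FF V] L),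
    ← Ideal.ramificationIdx'_eq_ramificationIdx _ _ v.ne_bot] at h1
  have h2 := card_in D hP
  rw [hL, hj] at h2
  have h4 := HeightOneSpectrum.valuation_liesOver L v w x
  rw [← h1, hx, ← hy, ← map_pow, eq_comm, ← hw.eq_iff, Valuation.comap_apply,
    Valuation.comap_apply, D.comp, map_pow, map_pow] at h4
  rw [h4, ← h2]
  rfl

end Vale.Agent.P027M.D
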