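import Vale.Agent.P027M.D.Font0
import Vale.Agent.P027M.D.Over
import Vale.Agent.P022.H916.Fld

/-!
# P027, route M, block D: uniformizers (rows UN and LOC of `FONT`)
-/

set_option linter.all false

noncomputable section

namespace Vale.Agent.P027M.D

open NumberField Vale.Agent.P022 IsDedekindDomain

namespace FUn

variable {P : Ideal (𝓞 Qb)} {O : ValuationSubring Qb}

/-- integers outside `P` are units of `O` -/
theorem val_one (hP : P.IsPrime) (hO : Over P O) {s : 𝓞 Qb} (hs : s ∉ P) :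
    O.valuation (s : Qb) = 1 := by
  have h3 : (s : Qb) ≠ 0 := fun h => hs (by
    rw [show s = 0 from RingOfIntegers.ext h]
    exact P.zero_mem)
  have h4 : (s : Qb)⁻¹ ∈ O := (hO _).mpr ⟨s, 1, hs, by simpa using mul_inv_cancel₀ h3⟩
  have h5 := (O.valuation_le_one_iff _).mpr h4
  rw [map_inv₀, inv_le_one₀ (zero_lt_iff.mpr ((map_ne_zero _).mpr h3))] at h5
  exact le_antisymm ((O.valuation_le_one_iff _).mpr ((hO _).mpr ⟨1, s, hP.one_notMem, by simp⟩)) h5

/-- the prime of a number field below `P` -/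
def below (hP : P.IsPrime) (h3 : (3 : 𝓞 Qb) ∈ P) {K : Type} [Field K] [NumberField K]
    (j : K →+* Qb) : HeightOneSpectrum (𝓞 K) :=
  ⟨P.comap (RingOfIntegers.mapRingHom j), Ideal.comap_isPrime _ P, fun h1 => by
    have h2 : (3 : 𝓞 K) ∈ P.comap (RingOfIntegers.mapRingHom j) := by
      rw [Ideal.mem_comap, map_ofNat]
      exact h3
    rw [h1, Ideal.mem_bot] at h2
    exact (Nat.cast_ne_zero (R := 𝓞 K) (n := 3)).2 (by norm_num) h2⟩

/-- **the dictionary**: `O` induces the adic valuation of the prime below `P` -/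
theorem dict (hP : P.IsPrime) (hO : Over P O) {K : Type} [Field K] [NumberField K]
    (j : K →+* Qb) (v : HeightOneSpectrum (𝓞 K))
    (hv : v.asIdeal = P.comap (RingOfIntegers.mapRingHom j)) :
    (O.valuation.comap j).IsEquiv (v.valuation K) := by
  have key : ∀ x : K, v.valuation K x ≤ 1 → ∃ s t : 𝓞 K, s ∉ v.asIdeal ∧
      ((RingOfIntegers.mapRingHom j s : 𝓞 Qb) : Qb) * j x = (RingOfIntegers.mapRingHom j t : 𝓞 Qb) ∧
      v.valuation K x = v.valuation K (algebraMap (𝓞 K) K t) := by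
    intro x hx
    obtain ⟨t, s, h⟩ := v.exists_primeCompl_mul_eq_of_integer x hx
    refine ⟨s.1, t, s.2, ?_, ?_⟩
    · have h1 := congrArg j h
      rw [map_mul, mul_comm] at h1
      exact h1
    · rw [← h, map_mul, v.valuation_eq_one_iff_notMem.2 s.2, mul_one]
  rw [Valuation.isEquiv_iff_val_le_one]
  intro x
  rw [Valuation.comap_apply]
  constructor
  · intro h
    by_contra h1
    have h0 : x ≠ 0 := by
      rintro rfl
      simp at h1
    have h2 : v.valuation K x⁻¹ < 1 := by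
      rw [map_inv₀]
      exact inv_lt_one_of_one_lt₀ (not_le.1 h1)
    obtain ⟨s, t, h3, h4, h5⟩ := key _ h2.le
    rw [h5] at h2
    have h6 := (v.valuation_lt_one_iff_mem (K := K) t).1 h2
    rw [hv] at h3 h6
    have h7 := Ov.lt_one hP hO h3 h6 h4
    rw [map_inv₀, map_inv₀, inv_lt_one₀ (zero_lt_iff.mpr (by simpa using h0))] at h7
    exact h7.not_ge h
  · intro h
    obtain ⟨s, t, h3, h4, -⟩ := key _ h
    rw [hv] at h3
    exact (O.valuation_le_one_iff _).mpr ((hO _).mpr ⟨_, _, h3, h4⟩)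

/-- a uniformizer in a number field -/
theorem unif (hP : P.IsPrime) (h3 : (3 : 𝓞 Qb) ∈ P) (hO : Over P O) {K : Type} [Field K]
    [NumberField K] (j : K →+* Qb) : ∃ π : K, π ≠ 0 ∧ O.valuation (j π) < 1 ∧
      ∀ a : K, a ≠ 0 → ∃ n : ℤ, O.valuation (j a) = O.valuation (j π) ^ n := by
  have hd := dict hP hO j (below hP h3 j) rfl
  generalize below hP h3 j = v at hd
  obtain ⟨π, hπ⟩ := v.valuation_exists_uniformizer K
  refine ⟨π, ?_, ?_, fun a ha => ?_⟩
  · rintro rfl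
    rw [map_zero] at hπ
    exact WithZero.exp_ne_zero hπ.symm
  · refine hd.lt_one_iff_lt_one.2 ?_
    rw [hπ, ← WithZero.exp_zero, WithZero.exp_lt_exp]
    norm_num
  · have h1 : v.valuation K a ≠ 0 := (map_ne_zero _).2 ha
    refine ⟨-WithZero.log (v.valuation K a), ?_⟩
    rw [← map_zpow₀, ← map_zpow₀]
    refine hd.eq_iff.2 ?_
    rw [map_zpow₀, hπ, ← WithZero.exp_zsmul, smul_eq_mul, neg_mul_neg, mul_one,
      WithZero.exp_log h1]

theorem val_three (hP : P.IsPrime) (h3 : (3 : 𝓞 Qb) ∈ P) (hO : Over P O) :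
    O.valuation (3 : Qb) < 1 :=
  Ov.lt_one hP hO hP.one_notMem h3 (by simp [map_ofNat])

theorem val_nat (hP : P.IsPrime) (h3 : (3 : 𝓞 Qb) ∈ P) (hO : Over P O) {n : ℕ} (hn : n ≠ 0) :
    ∃ k : ℕ, O.valuation (n : Qb) = O.valuation (3 : Qb) ^ k := by
  obtain ⟨k, m, hm, rfl⟩ := Nat.exists_eq_pow_mul_and_not_dvd hn 3 (by norm_num)
  have h2 : (m : 𝓞 Qb) ∉ P := by
    intro h
    obtain ⟨a, b, h4⟩ := Nat.Coprime.cast (R := 𝓞 Qb)
      ((Nat.Prime.coprime_iff_not_dvd Nat.prime_three).mpr hm)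
    exact hP.one_notMem (h4 ▸ P.add_mem (P.mul_mem_left a (by simpa using h3)) (P.mul_mem_left b h))
  have h5 : O.valuation (m : Qb) = 1 := by simpa using val_one hP hO h2
  exact ⟨k, by rw [Nat.cast_mul, Nat.cast_pow, map_mul, map_pow, h5, mul_one, Nat.cast_ofNat]⟩

theorem val_rat (hP : P.IsPrime) (h3 : (3 : 𝓞 Qb) ∈ P) (hO : Over P O) {q : ℚ} (hq : q ≠ 0) :
    ∃ n : ℤ, O.valuation (q : Qb) = O.valuation (3 : Qb) ^ n := by
  obtain ⟨k, hk⟩ := val_nat hP h3 hO (Int.natAbs_ne_zero.2 (Rat.num_ne_zero.2 hq))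
  obtain ⟨l, hl⟩ := val_nat hP h3 hO q.den_ne_zero
  have h1 : O.valuation ((q.num : ℤ) : Qb) = O.valuation ((q.num.natAbs : ℕ) : Qb) := by
    rcases Int.natAbs_eq q.num with h | h
    · rw [h, Int.cast_natCast, Int.natAbs_natCast]
    · rw [h, Int.cast_neg, Int.cast_natCast, Valuation.map_neg, Int.natAbs_neg, Int.natAbs_natCast]
  have h0 : O.valuation (3 : Qb) ≠ 0 := (map_ne_zero _).2 three_ne_zero
  refine ⟨(k : ℤ) - l, ?_⟩
  rw [Rat.cast_def, map_div₀, h1, hk, hl, zpow_sub₀ h0, zpow_natCast, zpow_natCast]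

end FUn

open FUn in
/-- row UN -/
theorem un : F_UN := by
  intro P O hP h3 hO
  refine ⟨⟨fun σ _ => map_ofNat σ 3, three_ne_zero, val_three hP h3 hO, fun a ha h => ?_⟩,
    fun U hU => ?_⟩
  · obtain ⟨q, rfl⟩ := IntermediateField.mem_bot.1
      ((InfiniteGalois.mem_bot_iff_fixed (k := ℚ) a).2 fun σ => h σ (Subgroup.mem_top σ))
    exact val_rat hP h3 hO fun e => ha (by rw [e, map_zero])
  · have hfin : FiniteDimensional ℚ (H916.FF U) := H916.finU U hU
    have hNF : NumberField (H916.FF U) :=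
      { to_charZero := inferInstance, to_finiteDimensional := hfin }
    obtain ⟨π, h1, h2, h4⟩ := unif hP h3 hO (algebraMap (H916.FF U) Qb)
    refine ⟨π, (IntermediateField.mem_fixedField_iff _ _).1 π.2, fun e => h1 (Subtype.ext e), h2,
      fun a ha h => ?_⟩
    exact h4 ⟨a, (IntermediateField.mem_fixedField_iff _ _).2 h⟩ fun e => ha (congrArg Subtype.val e)

open FUn in
/-- row LOC -/
theorem loc : F_RAM → F_LOC := by
  intro hR P O hP h3 hO
  obtain ⟨h1, h2⟩ := un P O hP h3 hO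
  have key : ∀ (U : Subgroup GQ) (π : Qb), IsOpen (U : Set GQ) → U.Normal → Un O U π →
      O.valuation (3 : Qb) = O.valuation π ^ U.relIndex (inr P) := by
    intro U π hU hn hπ
    have := hR P O ⊤ U 3 π hP h3 hO hU hn le_top h1 hπ
    rwa [inf_top_eq] at this
  refine ⟨fun a ha h => ?_, fun U hU hn => ?_⟩
  · have : Algebra.IsIntegral ℚ Qb := (AlgebraicClosure.isAlgebraic ℚ).isIntegral
    have hV : IsOpen (MulAction.stabilizer GQ a : Set GQ) := stabilizer_isOpen_of_isIntegral a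
    obtain ⟨U, hU⟩ := ProfiniteGrp.exist_openNormalSubgroup_sub_open_nhds_of_one hV
      (MulAction.stabilizer GQ a).one_mem
    obtain ⟨ϖ, hϖ⟩ := h2 _ hV
    obtain ⟨π, hπ⟩ := h2 U.toSubgroup U.isOpen
    have h4 := hR P O _ U.toSubgroup ϖ π hP h3 hO U.isOpen U.isNormal' hU hϖ hπ
    have h5 : inr P ≤ MulAction.stabilizer GQ a := fun σ hσ => h σ hσ
    rw [inf_eq_left.2 h5, ← key _ π U.isOpen U.isNormal' hπ] at h4
    rw [← h4]
    exact hϖ.2.2.2 a ha fun σ hσ => hσ
  · obtain ⟨π, hπ⟩ := h2 U hU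
    have h4 := key U π hU hn hπ
    refine ⟨π, hπ.1, fun e => ?_, h4.symm⟩
    rw [e, pow_zero] at h4
    exact (val_three hP h3 hO).ne h4

end Vale.Agent.P027M.D
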