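import Vale.Agent.P027M.D.Font0

/-!
# P027, route M, block D: row UP (the upper bound)
-/

set_option linter.all false

noncomputable section

namespace Vale.Agent.P027M.D

open NumberField Polynomial Vale.Agent.P022

namespace FUp

/-- an integral polynomial vanishing on `Ω` is bounded by the product of the distances -/
theorem div_le (O : ValuationSubring Qb) (x : Qb) (hx : x ∈ O) (Ω : Finset Qb) :
    (∀ ρ ∈ Ω, ρ ∈ O) → ∀ G : O[X], (∀ ρ ∈ Ω, (G.map O.subtype).eval ρ = 0) →
      O.valuation ((G.map O.subtype).eval x) ≤ ∏ ρ ∈ Ω, O.valuation (x - ρ) := by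
  classical
  induction Ω using Finset.induction_on with
  | empty =>
    intro _ G _
    rw [Finset.prod_empty, O.valuation_le_one_iff]
    have h : (G.map O.subtype).eval x = O.subtype (G.eval ⟨x, hx⟩) :=
      eval_map_apply (f := O.subtype) (p := G) ⟨x, hx⟩
    rw [h]
    exact (G.eval ⟨x, hx⟩).2
  | insert a s ha ih =>
    intro hO G hG
    have haO : a ∈ O := hO a (Finset.mem_insert_self a s)
    have h0 : G.IsRoot ⟨a, haO⟩ := by
      have h : (G.map O.subtype).eval a = O.subtype (G.eval ⟨a, haO⟩) :=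
        eval_map_apply (f := O.subtype) (p := G) ⟨a, haO⟩
      have h1 := hG a (Finset.mem_insert_self a s)
      rw [h] at h1
      exact Subtype.ext h1
    obtain ⟨G', rfl⟩ := dvd_iff_isRoot.2 h0
    have he : ∀ y : Qb, (((X - C (⟨a, haO⟩ : O)) * G').map O.subtype).eval y =
        (y - a) * (G'.map O.subtype).eval y := by
      intro y
      rw [Polynomial.map_mul, eval_mul, Polynomial.map_sub, map_X, map_C, eval_sub, eval_X, eval_C]
      rfl
    rw [Finset.prod_insert ha, he, map_mul]
    refine mul_le_mul_right ?_ _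
    refine ih (fun ρ h => hO ρ (Finset.mem_insert_of_mem h)) G' fun ρ h => ?_
    have h1 := hG ρ (Finset.mem_insert_of_mem h)
    rw [he] at h1
    refine (mul_eq_zero.1 h1).resolve_left (sub_ne_zero.2 ?_)
    rintro rfl
    exact ha h

theorem prod_lt (O : ValuationSubring Qb) (a b : Qb) (s : Multiset Qb) :
    (∀ r ∈ s, O.valuation (b - a) < O.valuation (a - r)) →
      O.valuation ((s.map fun r => b - r).prod - (s.map fun r => a - r).prod) <
        O.valuation (s.map fun r => a - r).prod := by
  induction s using Multiset.induction_on with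
  | empty =>
    intro _
    simp
  | cons r s ih =>
    intro h
    have h1 := ih fun r' h' => h r' (Multiset.mem_cons_of_mem h')
    have h2 := h r (Multiset.mem_cons_self r s)
    rw [Multiset.map_cons, Multiset.map_cons, Multiset.prod_cons, Multiset.prod_cons]
    set A := (s.map fun r => b - r).prod
    set B := (s.map fun r => a - r).prod
    have hB : 0 < O.valuation B := lt_of_le_of_lt zero_le' h1
    have hr : 0 < O.valuation (a - r) := lt_of_le_of_lt zero_le' h2
    have h3 : O.valuation (b - r) = O.valuation (a - r) := by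
      rw [show b - r = (a - r) + (b - a) by ring]
      exact Valuation.map_add_eq_of_lt_left _ h2
    rw [show (b - r) * A - (a - r) * B = (b - r) * (A - B) + (b - a) * B by ring, map_mul]
    refine Valuation.map_add_lt _ ?_ ?_
    · rw [map_mul, h3]
      exact mul_lt_mul_of_pos_left h1 hr
    · rw [map_mul]
      exact mul_lt_mul_of_pos_right h2 hB

/-- a root in the disc of centre `a` through `b` -/
theorem exists_root (O : ValuationSubring Qb) (a b : Qb) (q : Qb[X]) (h0 : q.eval a ≠ q.eval b)
    (h : O.valuation (q.eval a) ≤ O.valuation (q.eval b - q.eval a)) :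
    ∃ x, q.eval x = 0 ∧ O.valuation (a - x) ≤ O.valuation (b - a) := by
  by_contra hne
  push Not at hne
  have hq : q ≠ 0 := by
    rintro rfl
    simp at h0
  have hs : q.Splits := IsAlgClosed.splits q
  have h1 := prod_lt O a b q.roots fun r hr => hne r (isRoot_of_mem_roots hr)
  have hl : 0 < O.valuation q.leadingCoeff :=
    (Valuation.pos_iff _).2 (leadingCoeff_ne_zero.2 hq)
  rw [hs.eval_eq_prod_roots a, hs.eval_eq_prod_roots b, ← mul_sub, map_mul, map_mul] at h
  exact absurd h (not_le.2 (mul_lt_mul_of_pos_left h1 hl))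

end FUp

open FUp

theorem up : F_UP := by
  intro O Ω g π ρ₀ _ hO hg h3 hπ hρ hne
  obtain ⟨g₀, rfl⟩ : ∃ g₀ : O[X], g₀.map O.subtype = g :=
    (mem_lifts g).1 ((lifts_iff_coeff_lifts g).2 fun i => ⟨⟨_, hg i⟩, rfl⟩)
  have ha := h3 π hπ
  have hb := h3 ρ₀ hρ
  set α := (g₀.map O.subtype).eval π with hα
  set β := (g₀.map O.subtype).eval ρ₀ with hβ
  have hq : α ^ 2 + α * β + β ^ 2 = 0 := by
    have h : (α - β) * (α ^ 2 + α * β + β ^ 2) = 0 := by linear_combination ha - hb
    exact (mul_eq_zero.1 h).resolve_left (sub_ne_zero.2 hne)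
  obtain ⟨c, hc⟩ := IsAlgClosed.exists_pow_nat_eq (1 + (β - α) ^ 3) (n := 3) (by norm_num)
  have hu : O.valuation (c - α) ≤ O.valuation (β - α) := by
    by_contra hlt
    rw [not_le] at hlt
    have hlt3 : O.valuation (β - α) ^ 3 < O.valuation (c - α) ^ 3 :=
      pow_lt_pow_left₀ hlt zero_le' (by norm_num)
    have he : O.valuation (2 * α + β) < O.valuation (c - α) := by
      refine lt_of_pow_lt_pow_left₀ 3 zero_le' ?_
      rw [← map_pow, show (2 * α + β) ^ 3 = (β - α) ^ 3 by linear_combination (9 * α) * hq, map_pow]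
      exact hlt3
    have h1 : (c - α) * ((c - α) - (β - α)) * ((c - α) + (2 * α + β)) = (β - α) ^ 3 := by
      linear_combination hc - ha + (α - c) * hq
    have h2 := congrArg O.valuation h1
    rw [map_mul, map_mul, Valuation.map_sub_eq_of_lt_left _ hlt,
      Valuation.map_add_eq_of_lt_left _ he, map_pow, ← pow_three'] at h2
    exact absurd h2 hlt3.ne'
  obtain ⟨x, hx0, hx⟩ := exists_root O π ρ₀ (g₀.map O.subtype - C c)
    (by
      rw [eval_sub, eval_sub, eval_C, eval_C]
      exact fun h => hne (sub_left_injective h))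
    (by
      rw [eval_sub, eval_sub, eval_C, eval_C, sub_sub_sub_cancel_right, Valuation.map_sub_swap]
      exact hu)
  rw [eval_sub, eval_C, sub_eq_zero] at hx0
  have hxO : x ∈ O := by
    have h1 : π - x ∈ O :=
      (O.valuation_le_one_iff _).1
        (hx.trans ((O.valuation_le_one_iff _).2 (sub_mem (hO _ hρ) (hO _ hπ))))
    have h2 := sub_mem (hO _ hπ) h1
    rwa [sub_sub_cancel] at h2
  have he : ∀ y : Qb, ((g₀ ^ 3 - 1).map O.subtype).eval y = (g₀.map O.subtype).eval y ^ 3 - 1 := by
    intro y
    rw [Polynomial.map_sub, Polynomial.map_pow, Polynomial.map_one, eval_sub, eval_pow, eval_one]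
  have h4 := div_le O x hxO Ω hO (g₀ ^ 3 - 1) fun ρ h => by rw [he, h3 ρ h, sub_self]
  rw [he, hx0, hc, add_sub_cancel_left] at h4
  have h5 : ∏ ρ ∈ Ω, O.valuation (x - ρ) ≤
      ∏ ρ ∈ Ω, max (O.valuation (ρ₀ - π)) (O.valuation (π - ρ)) := by
    refine Finset.prod_le_prod' fun ρ _ => ?_
    rw [show x - ρ = (π - ρ) - (π - x) by ring]
    refine (Valuation.map_sub _ _ _).trans (max_le (le_max_right _ _) (hx.trans (le_max_left _ _)))
  have h6 : O.valuation (3 : Qb) ^ 3 = O.valuation ((β - α) ^ 3) ^ 2 := by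
    have h7 : (β - α) ^ 2 = -(3 * (α * β)) := by linear_combination hq
    have h8 : ((β - α) ^ 3) ^ 2 = -(3 : Qb) ^ 3 := by
      rw [← pow_mul, show 3 * 2 = 2 * 3 from rfl, pow_mul, h7]
      linear_combination (-27 * β ^ 3) * ha - 27 * hb
    rw [← map_pow, ← map_pow, h8, Valuation.map_neg]
  rw [h6]
  exact pow_le_pow_left₀ zero_le' (h4.trans h5) 2

end Vale.Agent.P027M.D
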