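import Vale.Agent.P027M.D.Bas0

/-!
# P027, route M, block D: reduction of polynomials on a circle
-/

set_option linter.all false

noncomputable section

namespace Vale.Agent.P027M.D

open Polynomial

variable {C κ : Type} [Field C] [Field κ] {O : ValuationSubring C} {r : O →+* κ}

/-- `P(ρ X) / η` is integral with reduction `Q` -/
def RedAt (r : O →+* κ) (ρ η : C) (P : C[X]) (Q : κ[X]) : Prop :=
  ∃ P0 : O[X], P0.map O.subtype * Polynomial.C η = P.comp (Polynomial.C ρ * X) ∧ P0.map r = Q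

variable {ρ η η' : C} {P P' : C[X]} {Q Q' : κ[X]}

theorem RedAt.zero : RedAt r ρ η 0 0 := ⟨0, by simp, by simp⟩

theorem RedAt.one : RedAt r ρ 1 1 1 := ⟨1, by simp, by simp⟩

theorem RedAt.add (h : RedAt r ρ η P Q) (h' : RedAt r ρ η P' Q') :
    RedAt r ρ η (P + P') (Q + Q') := by
  obtain ⟨A, h1, h2⟩ := h
  obtain ⟨B, h3, h4⟩ := h'
  exact ⟨A + B, by rw [Polynomial.map_add, add_mul, h1, h3, add_comp],
    by rw [Polynomial.map_add, h2, h4]⟩

theorem RedAt.sub (h : RedAt r ρ η P Q) (h' : RedAt r ρ η P' Q') :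
    RedAt r ρ η (P - P') (Q - Q') := by
  obtain ⟨A, h1, h2⟩ := h
  obtain ⟨B, h3, h4⟩ := h'
  exact ⟨A - B, by rw [Polynomial.map_sub, sub_mul, h1, h3, sub_comp],
    by rw [Polynomial.map_sub, h2, h4]⟩

theorem RedAt.mul (h : RedAt r ρ η P Q) (h' : RedAt r ρ η' P' Q') :
    RedAt r ρ (η * η') (P * P') (Q * Q') := by
  obtain ⟨A, h1, h2⟩ := h
  obtain ⟨B, h3, h4⟩ := h'
  exact ⟨A * B, by rw [Polynomial.map_mul, mul_comp, ← h1, ← h3, C_mul]; ring,
    by rw [Polynomial.map_mul, h2, h4]⟩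

theorem RedAt.sq (h : RedAt r ρ η P Q) : RedAt r ρ (η ^ 2) (P ^ 2) (Q ^ 2) := by
  rw [pow_two, pow_two, pow_two]
  exact h.mul h

theorem RedAt.sum {ι : Type*} (s : Finset ι) {P : ι → C[X]} {Q : ι → κ[X]}
    (h : ∀ i ∈ s, RedAt r ρ η (P i) (Q i)) : RedAt r ρ η (∑ i ∈ s, P i) (∑ i ∈ s, Q i) := by
  classical
  induction s using Finset.induction_on with
  | empty => rw [Finset.sum_empty, Finset.sum_empty]; exact RedAt.zero
  | insert i s hi ih =>
    rw [Finset.sum_insert hi, Finset.sum_insert hi]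
    exact (h i (Finset.mem_insert_self _ _)).add (ih fun j hj => h j (Finset.mem_insert_of_mem hj))

theorem RedAt.prod {ι : Type*} (s : Finset ι) {η : ι → C} {P : ι → C[X]} {Q : ι → κ[X]}
    (h : ∀ i ∈ s, RedAt r ρ (η i) (P i) (Q i)) :
    RedAt r ρ (∏ i ∈ s, η i) (∏ i ∈ s, P i) (∏ i ∈ s, Q i) := by
  classical
  induction s using Finset.induction_on with
  | empty => rw [Finset.prod_empty, Finset.prod_empty, Finset.prod_empty]; exact RedAt.one
  | insert i s hi ih =>
    rw [Finset.prod_insert hi, Finset.prod_insert hi, Finset.prod_insert hi]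
    exact (h i (Finset.mem_insert_self _ _)).mul (ih fun j hj => h j (Finset.mem_insert_of_mem hj))

theorem RedAt.mono {x : C} {k : ℕ} (e : O) (h : (e : C) * η = x * ρ ^ k) :
    RedAt r ρ η (Polynomial.C x * X ^ k) (Polynomial.C (r e) * X ^ k) := by
  refine ⟨Polynomial.C e * X ^ k, ?_, by simp⟩
  have h1 : Polynomial.C (e : C) * Polynomial.C η = Polynomial.C x * Polynomial.C ρ ^ k := by
    rw [← C_mul, h, C_mul, C_pow]
  simp only [Polynomial.map_mul, map_C, Polynomial.map_pow, map_X, mul_comp, C_comp, pow_comp,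
    X_comp, mul_pow]
  change Polynomial.C (e : C) * X ^ k * Polynomial.C η = _
  linear_combination X ^ k * h1

theorem exists_quot {x η : C} (hη : η ≠ 0) (h : O.valuation x ≤ O.valuation η) :
    ∃ e : O, (e : C) * η = x := by
  have h1 : O.valuation η ≠ 0 := by simpa using hη
  refine ⟨⟨x / η, ?_⟩, div_mul_cancel₀ x hη⟩
  rw [← O.valuation_le_one_iff, map_div₀]
  exact (div_le_one₀ (zero_lt_iff.2 h1)).2 h

theorem quot_small (hr : Function.Surjective r) {x η : C} {e : O} (he : (e : C) * η = x)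
    (h : O.valuation x < O.valuation η) : r e = 0 := by
  rw [← val_lt_iff hr]
  by_contra h1
  rw [← he, map_mul] at h
  have h2 := mul_le_mul_left (not_lt.1 h1) (O.valuation η)
  rw [one_mul] at h2
  exact absurd h (not_lt.2 h2)

theorem quot_unit (hr : Function.Surjective r) {x η : C} {e : O} (he : (e : C) * η = x)
    (hη : η ≠ 0) (h : O.valuation x = O.valuation η) : r e ≠ 0 := by
  have h1 : O.valuation η ≠ 0 := by simpa using hη
  rw [← val_eq_one_iff hr]
  rw [← he, map_mul] at h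
  exact mul_right_cancel₀ h1 (h.trans (one_mul _).symm)

theorem RedAt.small (hr : Function.Surjective r) {x : C} {k : ℕ}
    (h : O.valuation (x * ρ ^ k) < O.valuation η) : RedAt r ρ η (Polynomial.C x * X ^ k) 0 := by
  have hη : η ≠ 0 := by
    rintro rfl
    simp at h
  obtain ⟨e, he⟩ := exists_quot hη h.le
  have := RedAt.mono (r := r) e he
  rwa [quot_small hr he h, C_0, zero_mul] at this

theorem RedAt.scale (h : RedAt r ρ η' P Q) (u : O) (hu : (u : C) * η = η') :
    RedAt r ρ η P (Polynomial.C (r u) * Q) := by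
  obtain ⟨A, h1, h2⟩ := h
  refine ⟨Polynomial.C u * A, ?_, by rw [Polynomial.map_mul, map_C, h2]⟩
  rw [← h1, ← hu, C_mul, Polynomial.map_mul, map_C]
  change Polynomial.C (u : C) * _ * _ = _
  ring

theorem eval_of_map {A : O[X]} (h : A.map O.subtype * Polynomial.C η = P.comp (Polynomial.C ρ * X))
    (a : O) : ((A.eval a : O) : C) * η = P.eval (ρ * a) := by
  have h1 := congrArg (eval (a : C)) h
  rw [eval_mul, eval_C, eval_comp, eval_mul, eval_C, eval_X] at h1
  rw [← h1]
  congr 1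
  exact (eval_map_apply O.subtype a).symm

theorem RedAt.eval (h : RedAt r ρ η P Q) (a : O) :
    ∃ e : O, (e : C) * η = P.eval (ρ * a) ∧ r e = Q.eval (r a) := by
  obtain ⟨A, h1, h2⟩ := h
  exact ⟨A.eval a, eval_of_map h1 a, by rw [← h2, eval_map_apply]⟩

theorem RedAt.ne (h : RedAt r ρ η P Q) (hη : η ≠ 0) {a : O} (ha : Q.eval (r a) ≠ 0) :
    P.eval (ρ * a) ≠ 0 := by
  obtain ⟨e, h1, h2⟩ := h.eval a
  rw [← h1]
  refine mul_ne_zero (fun h0 => ha ?_) hη
  rw [← h2, show e = 0 from Subtype.ext h0, map_zero]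

theorem RedAt.simple (h : RedAt r ρ η P Q) (hη : η ≠ 0) {a : O} (ha : P.eval (ρ * a) = 0)
    (hd : (derivative Q).eval (r a) ≠ 0) :
    rootMultiplicity (ρ * a) P = 1 ∧ ∀ a' : O, r a' = r a → P.eval (ρ * a') = 0 → a' = a := by
  obtain ⟨A, h1, h2⟩ := h
  have hz : ∀ a' : O, P.eval (ρ * a') = 0 → A.eval a' = 0 := fun a' h' => by
    have := eval_of_map h1 a'
    rw [h'] at this
    exact Subtype.ext ((mul_eq_zero.1 this).resolve_right hη)
  obtain ⟨M, hM⟩ := dvd_iff_isRoot.2 (hz a ha)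
  have hM0 : (M.map r).eval (r a) ≠ 0 := by
    rw [← h2, hM, Polynomial.map_mul, derivative_mul] at hd
    simpa using hd
  constructor
  · have h3 := congrArg (fun t => (derivative t).eval (a : C)) h1
    have h4 : ((M.eval a : O) : C) ≠ 0 := fun h0 => hM0 (by
      rw [eval_map_apply, show M.eval a = 0 from Subtype.ext h0, map_zero])
    have h5 : (M.map O.subtype).eval (a : C) = ((M.eval a : O) : C) := eval_map_apply O.subtype a
    have h6 : (derivative P).eval (ρ * a) ≠ 0 := by
      intro h0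
      rw [hM] at h3
      simp [derivative_comp, eval_comp, h0, h5] at h3
      rcases h3 with h3 | h3
      · exact h4 (by simpa using h3)
      · exact hη h3
    have h7 : P ≠ 0 := by
      rintro rfl
      simp at h6
    have h8 := (rootMultiplicity_pos h7).2 ha
    have h9 : ¬ 1 < rootMultiplicity (ρ * a) P := fun h0 =>
      h6 ((one_lt_rootMultiplicity_iff_isRoot h7).1 h0).2
    omega
  · intro a' hr' h'
    have h3 := hz a' h'
    rw [hM, eval_mul, eval_sub, eval_X, eval_C] at h3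
    rcases mul_eq_zero.1 h3 with h3 | h3
    · exact sub_eq_zero.1 h3
    · exact (hM0 (by rw [← hr', eval_map_apply, h3, map_zero])).elim

/-! ### linear factors -/

theorem redAt_le {z : C} (e : O) (he : (e : C) * ρ = z) :
    RedAt r ρ ρ (X - Polynomial.C z) (X - Polynomial.C (r e)) := by
  have h1 := RedAt.mono (r := r) (η := ρ) (ρ := ρ) (x := 1) (k := 1) 1 (by simp)
  have h2 := RedAt.mono (r := r) (η := ρ) (ρ := ρ) (x := z) (k := 0) e (by simpa using he)
  simpa using h1.sub h2

theorem redAt_gt (hr : Function.Surjective r) {z : C} (h : O.valuation ρ < O.valuation z) :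
    RedAt r ρ (-z) (X - Polynomial.C z) 1 := by
  have h1 := RedAt.small (η := -z) (ρ := ρ) (x := 1) (k := 1) hr (by simpa using h)
  have h2 := RedAt.mono (r := r) (η := -z) (ρ := ρ) (x := z) (k := 0) (-1) (by simp)
  simpa using h1.sub h2

open Classical in
/-- the reduction of `X - z` on the circle of radius `|ρ|` -/
def fac (r : O →+* κ) (ρ z : C) : κ[X] :=
  if h : z / ρ ∈ O then X - Polynomial.C (r ⟨z / ρ, h⟩) else 1

theorem div_mem_iff (hρ : ρ ≠ 0) (z : C) : z / ρ ∈ O ↔ O.valuation z ≤ O.valuation ρ := by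
  have h1 : O.valuation ρ ≠ 0 := by simpa using hρ
  rw [← O.valuation_le_one_iff, map_div₀, div_le_one₀ (zero_lt_iff.2 h1)]

theorem redAt_fac (hr : Function.Surjective r) (hρ : ρ ≠ 0) (z : C) :
    ∃ σ : C, O.valuation σ = max (O.valuation ρ) (O.valuation z) ∧
      RedAt r ρ σ (X - Polynomial.C z) (fac r ρ z) := by
  unfold fac
  split_ifs with h
  · exact ⟨ρ, (max_eq_left ((div_mem_iff hρ z).1 h)).symm, redAt_le _ (div_mul_cancel₀ z hρ)⟩
  · have h1 := not_le.1 (mt (div_mem_iff hρ z).2 h)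
    exact ⟨-z, by rw [Valuation.map_neg, max_eq_right h1.le], redAt_gt hr h1⟩

theorem fac_lt (hr : Function.Surjective r) {z : C} (h : O.valuation z < O.valuation ρ) :
    fac r ρ z = X := by
  have hρ : ρ ≠ 0 := by
    rintro rfl
    simp at h
  have h1 := (div_mem_iff hρ z).2 h.le
  rw [fac, dif_pos h1, quot_small hr (e := ⟨z / ρ, h1⟩) (div_mul_cancel₀ z hρ) h, C_0, sub_zero]

theorem fac_gt (hρ : ρ ≠ 0) {z : C} (h : O.valuation ρ < O.valuation z) : fac r ρ z = 1 := by
  rw [fac, dif_neg fun h1 => absurd ((div_mem_iff hρ z).1 h1) (not_le.2 h)]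

theorem redAt_fch (hr : Function.Surjective r) (hρ : ρ ≠ 0) (c : C) (T : Finset C) :
    ∃ σ : C, O.valuation σ = O.valuation c * O.valuation ρ *
        ∏ z ∈ T, max (O.valuation ρ) (O.valuation z) ∧
      RedAt r ρ σ (fch c T) (X * ∏ z ∈ T, fac r ρ z) := by
  choose σ h1 h2 using redAt_fac hr hρ
  refine ⟨c * ρ * ∏ z ∈ T, σ z, ?_, ?_⟩
  · rw [map_mul, map_mul, map_prod]
    simp only [h1]
  · have h3 := RedAt.mono (r := r) (η := c * ρ) (ρ := ρ) (x := c) (k := 1) 1 (by simp)
    have h4 := h3.mul (RedAt.prod T fun z _ => h2 z)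
    simpa [fch] using h4

variable {J : Type} {c : C} {T : Finset C} {R H : J → C}

theorem Circ.even_filter (h : Circ O J c T R H) (p : O.ValueGroup → Prop) [DecidablePred p] :
    Even (T.filter fun z => p (O.valuation z)).card := by
  classical
  rw [Finset.card_eq_sum_card_image O.valuation]
  refine Finset.even_sum _ fun γ hγ => ?_
  obtain ⟨z, hz, rfl⟩ := Finset.mem_image.1 hγ
  obtain ⟨hz1, hz2⟩ := Finset.mem_filter.1 hz
  obtain ⟨j, hj⟩ := h.on z hz1
  have h0 : ((T.filter fun z => p (O.valuation z)).filter fun w => O.valuation w = O.valuation z) =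
      T.filter fun w => O.valuation w = O.valuation (R j) := by
    ext w
    simp only [Finset.mem_filter]
    constructor
    · rintro ⟨⟨h1, -⟩, h2⟩
      exact ⟨h1, h2.trans hj⟩
    · rintro ⟨h1, h2⟩
      exact ⟨⟨h1, by rw [h2, ← hj]; exact hz2⟩, h2.trans hj.symm⟩
  rw [h0]
  convert h.even j

theorem Circ.η0 (h : Circ O J c T R H) (j : J) : H j ≠ 0 := by
  intro h0
  have h1 := h.nrm j
  have h2 : O.valuation (R j) ≠ 0 := by simpa using h.ρ0 j
  rw [h0, map_zero, zero_pow two_ne_zero] at h1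
  refine mul_ne_zero (mul_ne_zero (by simpa using h.c0) h2) ?_ h1.symm
  exact Finset.prod_ne_zero_iff.2 fun z _ => (lt_of_lt_of_le (zero_lt_iff.2 h2) (le_max_left _ _)).ne'

theorem Circ.red (hr : Function.Surjective r) (h : Circ O J c T R H) (j : J) :
    ∃ g : κ[X], RedAt r (R j) (H j ^ 2) (fch c T) g ∧ Odd g.natDegree ∧
      ∀ s : κ, s ≠ 0 → g.eval s = 0 → (derivative g).eval s ≠ 0 := by
  classical
  have hρ := h.ρ0 j
  obtain ⟨σ, h1, h2⟩ := redAt_fch hr hρ c T
  have h3 : O.valuation σ = O.valuation (H j ^ 2) := by rw [h1, map_pow, h.nrm j]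
  have hη := pow_ne_zero 2 (h.η0 j)
  obtain ⟨u, hu⟩ := exists_quot hη h3.le
  have hu0 := quot_unit hr hu hη h3
  have hm : ∀ z, (fac r (R j) z).Monic := fun z => by
    unfold fac
    split_ifs
    · exact monic_X_sub_C _
    · exact monic_one
  refine ⟨_, h2.scale u hu, ?_, fun s hs h0 => ?_⟩
  · rw [natDegree_C_mul hu0, monic_X.natDegree_mul (monic_prod_of_monic _ _ fun z _ => hm z),
      natDegree_X, natDegree_prod_of_monic _ _ fun z _ => hm z]
    have h4 : ∑ z ∈ T, (fac r (R j) z).natDegree =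
        (T.filter fun z => O.valuation z ≤ O.valuation (R j)).card := by
      rw [Finset.card_filter]
      refine Finset.sum_congr rfl fun z _ => ?_
      unfold fac
      by_cases h5 : z / R j ∈ O
      · rw [dif_pos h5, if_pos ((div_mem_iff hρ z).1 h5), natDegree_X_sub_C]
      · rw [dif_neg h5, if_neg (mt (div_mem_iff hρ z).2 h5), natDegree_one]
    rw [h4]
    exact odd_one.add_even (h.even_filter fun γ => γ ≤ O.valuation (R j))
  · have key : ∀ z, (fac r (R j) z).eval s = 0 → ∃ e : O, (e : C) * R j = z ∧ r e = s ∧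
        fac r (R j) z = X - Polynomial.C s := fun z hz => by
      unfold fac at hz ⊢
      by_cases h5 : z / R j ∈ O
      · rw [dif_pos h5] at hz ⊢
        rw [eval_sub, eval_X, eval_C, sub_eq_zero] at hz
        exact ⟨⟨_, h5⟩, div_mul_cancel₀ z hρ, hz.symm, by rw [hz]⟩
      · rw [dif_neg h5, eval_one] at hz
        exact (one_ne_zero hz).elim
    rw [eval_mul, eval_C, eval_mul, eval_X, eval_prod] at h0
    obtain ⟨z, hz, hz0⟩ := Finset.prod_eq_zero_iff.1
      ((mul_eq_zero.1 ((mul_eq_zero.1 h0).resolve_left hu0)).resolve_left hs)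
    obtain ⟨e, he1, he2, he3⟩ := key z hz0
    have h5 : ∏ w ∈ T.erase z, (fac r (R j) w).eval s ≠ 0 := by
      refine Finset.prod_ne_zero_iff.2 fun w hw hw0 => ?_
      obtain ⟨e', he1', he2', -⟩ := key w hw0
      have h6 := h.dist w (Finset.mem_of_mem_erase hw) z hz (Finset.ne_of_mem_erase hw)
      have h7 := (res_eq_iff hr e' e).1 (he2'.trans he2.symm)
      have h8 : O.valuation (e : C) = 1 := (val_eq_one_iff hr e).2 (he2 ▸ hs)
      have h9 : O.valuation (R j) ≠ 0 := by simpa using hρ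
      have h10 : O.valuation z ≤ O.valuation (w - z) := h6 ▸ le_max_right _ _
      rw [← he1, ← he1', ← sub_mul, map_mul, map_mul, h8] at h10
      exact absurd (le_of_mul_le_mul_right h10 (zero_lt_iff.2 h9)) (not_le.2 h7)
    rw [← Finset.mul_prod_erase T _ hz, he3]
    simp only [derivative_mul, eval_add, eval_mul, eval_sub, eval_X, eval_C, derivative_C,
      derivative_X, derivative_sub, eval_zero, eval_one, sub_self, zero_mul, mul_zero, add_zero,
      zero_add, sub_zero, one_mul, eval_prod]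
    exact mul_ne_zero hu0 (mul_ne_zero hs h5)

theorem fj : FJ := by
  intro C κ J _ _ _ O r hr c T ρ η h j
  obtain ⟨g, ⟨A, h1, rfl⟩, h2, h3⟩ := h.red hr j
  exact ⟨A, eval_of_map h1, h1, h2, h3⟩

end Vale.Agent.P027M.D
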