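import Vale.Agent.P027M.D.Font0
import Vale.Agent.P027M.D.Bas0
import Vale.Agent.P027M.K.Pic

/-!
# P027, route M, block D: an atlas gives `FlK`
-/

set_option linter.all false

noncomputable section

namespace Vale.Agent.P027M.D

open NumberField Polynomial Vale.Agent.P022 Vale.Agent.P019P P025H492 P025H816
open _root_.P027M.K

variable {O : ValuationSubring Qb} {I : Subgroup GQ}

theorem Bs_fin {z : I → Qb} (hz : z ∈ Bs O I) : (Set.range z).Finite := by
  induction hz using Subring.closure_induction with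
  | mem z hz =>
    rcases hz with ⟨c, hc, rfl⟩ | ⟨x, hx, rfl⟩
    · exact (Set.finite_singleton c).subset (by rintro _ ⟨σ, rfl⟩; rfl)
    · exact (orb_fin I x).subset (by rintro _ ⟨σ, rfl⟩; exact ⟨σ, σ.2, rfl⟩)
  | zero => exact (Set.finite_singleton 0).subset (by rintro _ ⟨σ, rfl⟩; rfl)
  | one => exact (Set.finite_singleton 1).subset (by rintro _ ⟨σ, rfl⟩; rfl)
  | add y z _ _ hy hz =>
    exact (hy.image2 (· + ·) hz).subset (by rintro _ ⟨σ, rfl⟩; exact ⟨_, ⟨σ, rfl⟩, _, ⟨σ, rfl⟩, rfl⟩)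
  | neg y _ hy => exact (hy.image (- ·)).subset (by rintro _ ⟨σ, rfl⟩; exact ⟨_, ⟨σ, rfl⟩, rfl⟩)
  | mul y z _ _ hy hz =>
    exact (hy.image2 (· * ·) hz).subset (by rintro _ ⟨σ, rfl⟩; exact ⟨_, ⟨σ, rfl⟩, _, ⟨σ, rfl⟩, rfl⟩)

variable (O I) in
/-- the units of `Bs` -/
def BU (z : I → Qb) : Prop := z ∈ Bs O I ∧ O.valuation (z 1) = 1

theorem BU.val (h : Ine O I) {z : I → Qb} (hz : BU O I z) (σ : I) : O.valuation (z σ) = 1 := by
  have := Valuation.map_add_eq_of_lt_left O.valuation (x := z 1) (y := z σ - z 1)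
    (by rw [hz.2]; exact (Bs_val h hz.1 σ).2)
  rwa [add_sub_cancel, hz.2] at this

theorem BU.ne (h : Ine O I) {z : I → Qb} (hz : BU O I z) (σ : I) : z σ ≠ 0 := fun k => by
  simpa [k] using hz.val h σ

theorem BU.one : BU O I 1 := ⟨one_mem _, by simp⟩

theorem BU.mul {y z : I → Qb} (hy : BU O I y) (hz : BU O I z) : BU O I (y * z) :=
  ⟨mul_mem hy.1 hz.1, by rw [Pi.mul_apply, map_mul, hy.2, hz.2, mul_one]⟩

theorem BU.inv (h : Ine O I) {z : I → Qb} (hz : BU O I z) : BU O I z⁻¹ :=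
  ⟨inv_mem hz.1 (Bs_fin hz.1) (hz.val h), by rw [Pi.inv_apply, map_inv₀, hz.2, inv_one]⟩

theorem BU.zpow (h : Ine O I) {z : I → Qb} (hz : BU O I z) (n : ℤ) : BU O I (z ^ n) := by
  have k : ∀ m : ℕ, BU O I (z ^ m) := fun m =>
    ⟨pow_mem hz.1 m, by rw [Pi.pow_apply, map_pow, hz.2, one_pow]⟩
  rcases n with m | m
  · simpa using k m
  · rw [zpow_negSucc]
    exact (k _).inv h

theorem BU.prod {ι : Type*} (s : Finset ι) {z : ι → I → Qb} (hz : ∀ i ∈ s, BU O I (z i)) :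
    BU O I (∏ i ∈ s, z i) :=
  Finset.prod_induction z (BU O I) (fun _ _ => BU.mul) BU.one hz

/-- the constants cancel on divisors of degree `0` -/
theorem BU.div0 (h : Ine O I) {α J : Type} [Fintype J] (E : J → α →₀ ℤ) (v : I → α → Qb)
    (c : J → I → Qb) (hc : ∀ j σ, c j σ ≠ 0) (h0 : ∀ j, dg (E j) = 0)
    (hv : ∀ j, ∀ P ∈ (E j).support, ∃ z, BU O I z ∧ ∀ σ, v σ P = c j σ * z σ) :
    BU O I fun σ => (∑ j, E j).prod fun P m => v σ P ^ m := by
  classical
  choose! z z1 z2 using hv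
  have := BU.prod Finset.univ fun j _ => BU.prod (E j).support fun P hP => (z1 j P hP).zpow h (E j P)
  convert this using 1
  funext σ
  simp only [Finset.prod_apply, Pi.pow_apply]
  rw [Finsupp.prod_of_support_subset _ Finsupp.support_finsetSum _ (by simp)]
  have e1 : ∀ P ∈ Finset.univ.biUnion fun j => (E j).support,
      v σ P ^ (∑ j, E j) P = ∏ j, v σ P ^ E j P := fun P hP => by
    obtain ⟨i, -, hi⟩ := Finset.mem_biUnion.1 hP
    have : v σ P ≠ 0 := by
      rw [z2 i P hi]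
      exact mul_ne_zero (hc _ _) ((z1 i P hi).ne h σ)
    rw [Finsupp.finsetSum_apply]
    induction (Finset.univ : Finset J) using Finset.induction_on with
    | empty => simp
    | insert a s ha ih => rw [Finset.sum_insert ha, Finset.prod_insert ha, zpow_add₀ this, ih]
  rw [Finset.prod_congr rfl e1, Finset.prod_comm]
  refine Finset.prod_congr rfl fun j _ => ?_
  rw [← Finset.prod_subset (Finset.subset_biUnion_of_mem (fun j => (E j).support) (Finset.mem_univ j))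
    fun P _ hP => by rw [Finsupp.notMem_support_iff.1 hP, zpow_zero],
    Finset.prod_congr rfl fun P hP => by rw [z2 j P hP, mul_zpow], Finset.prod_mul_distrib]
  have e2 : ∀ s : Finset α, ∏ P ∈ s, c j σ ^ E j P = c j σ ^ ∑ P ∈ s, E j P := fun s => by
    induction s using Finset.induction_on with
    | empty => simp
    | insert a s ha ih => rw [Finset.sum_insert ha, Finset.prod_insert ha, zpow_add₀ (hc _ _), ih]
  have e3 : ∑ P ∈ (E j).support, E j P = 0 := h0 j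
  rw [e2, e3, zpow_zero, one_mul]

theorem ev_ind {R : Type*} [CommRing R] {p : R[X][X] → Prop}
    (h1 : ∀ a, p (Polynomial.C (Polynomial.C a))) (h2 : p (Polynomial.C X)) (h3 : p X)
    (ha : ∀ A B, p A → p B → p (A + B)) (hm : ∀ A B, p A → p B → p (A * B)) (A : R[X][X]) :
    p A := by
  have hC : ∀ β : R[X], p (Polynomial.C β) := fun β => by
    induction β using Polynomial.induction_on with
    | C a => exact h1 a
    | add x y hx hy => rw [map_add]; exact ha _ _ hx hy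
    | monomial n a hn => rw [pow_succ, ← mul_assoc, map_mul]; exact hm _ _ hn h2
  induction A using Polynomial.induction_on with
  | C a => exact hC a
  | add x y hx hy => exact ha _ _ hx hy
  | monomial n a hn => rw [pow_succ, ← mul_assoc]; exact hm _ _ hn h3

theorem ev_mem (φ : I → O →+* Qb) (a b : I → Qb) (hφ : ∀ c, (fun σ => φ σ c) ∈ Bs O I)
    (ha : a ∈ Bs O I) (hb : b ∈ Bs O I) (A : O[X][X]) :
    (fun σ => ev (φ σ) (a σ) (b σ) A) ∈ Bs O I := by
  induction A using ev_ind with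
  | h1 c => simpa only [ev_CC] using hφ c
  | h2 => simpa only [ev_CX] using ha
  | h3 => simpa only [ev_X] using hb
  | ha A B hA hB => simp only [map_add]; exact add_mem hA hB
  | hm A B hA hB => simp only [map_mul]; exact mul_mem hA hB

theorem ev_sub (a b : O) (A : O[X][X]) :
    ev O.subtype (a : Qb) (b : Qb) A = (A.evalEval a b : O) := by
  induction A using ev_ind with
  | h1 c => simp [ev_CC]
  | h2 => rw [ev_CX, evalEval_C, eval_X]
  | h3 => simp [ev_X]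
  | ha A B hA hB => simp [hA, hB, evalEval_add]
  | hm A B hA hB => simp [hA, hB, evalEval_mul]

theorem ev_map {R F G : Type*} [CommRing R] [CommRing F] [CommRing G] (φ : R →+* F) (x θ : F)
    (s : F →+* G) (A : R[X][X]) : s (ev φ x θ A) = ev (s.comp φ) (s x) (s θ) A := by
  induction A using ev_ind with
  | h1 c => simp [ev_CC]
  | h2 => simp [ev_CX]
  | h3 => simp [ev_X]
  | ha A B hA hB => simp [hA, hB]
  | hm A B hA hB => simp [hA, hB]

variable {F : Type} [Field F] [Algebra Qb F] [CFF Qb F]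

theorem val_ev (φ : O →+* Qb) {P : Plk Qb F} {x θ : F} {a b : Qb} (ha : Val P x a) (hb : Val P θ b)
    (A : O[X][X]) : Val P (ev ((algebraMap Qb F).comp φ) x θ A) (ev φ a b A) := by
  induction A using ev_ind with
  | h1 c => rw [ev_CC, ev_CC]; exact Val.const P _
  | h2 => rwa [ev_CX, ev_CX]
  | h3 => rwa [ev_X, ev_X]
  | ha A B hA hB => rw [map_add, map_add]; exact hA.add hB
  | hm A B hA hB => rw [map_mul, map_mul]; exact hA.mul hB

theorem val_quot {P : Plk Qb F} {f p q : F} {c a b : Qb} (h : f * q = algebraMap Qb F c * p)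
    (hp : Val P p a) (hq : Val P q b) (hb : b ≠ 0) : Val P f (c * (a * b⁻¹)) := by
  obtain ⟨q0, q1⟩ := hq.unit hb
  have h1 : Val P q⁻¹ (vl P q⁻¹) := val_vl (by rw [ord_inv, q1, neg_zero])
  have h2 := hq.mul h1
  rw [mul_inv_cancel₀ q0] at h2
  have h3 : vl P q⁻¹ = b⁻¹ := eq_inv_of_mul_eq_one_right (h2.unique (Val.one P))
  have h4 := (Val.const P c).mul (hp.mul h1)
  rwa [h3, ← mul_assoc, ← h, mul_assoc, mul_inv_cancel₀ q0, mul_one] at h4

/-- the values of `σ f` at `P` and of `f` at `σ P` -/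
theorem loc_val (rep : REP) (h : Ine O I) {r : GQ → F ≃+* F} (hs : Semi I r) {κ : Type} [Field κ]
    {res : O →+* κ} (hr : Function.Surjective res) (ch : Chart res F)
    (fx : ∀ σ ∈ I, r σ ch.x = ch.x) (ft : ∀ σ ∈ I, r σ ch.th = ch.th) {f : F} (hf : f ≠ 0) :
    ∃ c : Qb, c ≠ 0 ∧ ∀ s ∉ ch.bad, (∀ P, InCl res ch.x s P → ord P f = 0) →
      ∀ P, InCl res ch.x s P →
        (∃ z, BU O I z ∧ ∀ σ : I, Val P (r σ f) ((σ : GQ) c * z σ)) ∧
        ∃ z, BU O I z ∧ ∀ σ : I,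
          Val (plEquiv (r σ) (σ : GQ).toRingEquiv (hs σ σ.2) P) f (c * z σ) := by
  obtain ⟨c, c0, hc⟩ := rep Qb κ F O res hr ch f hf
  refine ⟨c, c0, fun s s1 s2 P ⟨a, a1, a2⟩ => ?_⟩
  obtain ⟨A, β, b0, e, hP⟩ := hc s s1 s2
  obtain ⟨b, b1, b2⟩ := hP P a a1 a2
  rw [← ev_C (θ := ch.th)] at e
  have uA : O.valuation (ev O.subtype (a : Qb) (b : Qb) A) = 1 := by
    rw [ev_sub, ← O.valuation_eq_one_iff]; exact b2
  have uB : O.valuation (ev O.subtype (a : Qb) (b : Qb) (Polynomial.C β)) = 1 := by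
    rw [ev_sub, val_eq_one_iff hr, evalEval_C, ← eval₂_at_apply, a1]; exact b0
  constructor
  · let φ : I → O →+* Qb := fun σ => ((σ : GQ) : Qb →+* Qb).comp O.subtype
    have k := ev_mem φ (fun _ => a) (fun _ => b) (fun c => gal_mem c.2) (const_mem a.2)
      (const_mem b.2)
    have kB : BU O I _ := ⟨k (Polynomial.C β), uB⟩
    refine ⟨_, BU.mul ⟨k A, uA⟩ (kB.inv h), fun σ => ?_⟩
    have e1 := congrArg (r σ : F →+* F) e
    have e2 : (r σ : F →+* F).comp (io O F) = (algebraMap Qb F).comp (φ σ) :=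
      RingHom.ext fun c => hs σ σ.2 c
    rw [map_mul, map_mul, ev_map, ev_map, e2] at e1
    simp only [RingHom.coe_coe, fx σ σ.2, ft σ σ.2, hs σ σ.2 c] at e1
    exact val_quot e1 (val_ev _ a2 b1 A) (val_ev _ a2 b1 _) (kB.ne h σ)
  · have k := ev_mem (fun _ : I => O.subtype) (fun σ => (σ : GQ) a) (fun σ => (σ : GQ) b)
      (fun c => const_mem c.2) (gal_mem a.2) (gal_mem b.2)
    have kB : BU O I _ := ⟨k (Polynomial.C β), uB⟩
    refine ⟨_, BU.mul ⟨k A, uA⟩ (kB.inv h), fun σ => ?_⟩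
    have a3 := a2.semi (s₀ := (σ : GQ).toRingEquiv) (hs σ σ.2)
    have b3 := b1.semi (s₀ := (σ : GQ).toRingEquiv) (hs σ σ.2)
    rw [fx σ σ.2] at a3
    rw [ft σ σ.2] at b3
    exact val_quot e (val_ev _ a3 b3 A) (val_ev _ a3 b3 _) (kB.ne h σ)

theorem move {κ J : Type} [Field κ] [Fintype J] {res : O →+* κ} {x : J → F} (mov : Mov res x)
    {m : ℕ} (hm : m ≠ 0) (S : Finset κ) {f : Fˣ} (hf : f ∈ divU Qb F m) :
    ∃ (u : Fˣ) (E : J → Plk Qb F →₀ ℤ), m • ∑ j, E j = dv Qb ((f * u ^ m : Fˣ) : F) ∧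
      ∀ j, dg (E j) = 0 ∧ ∀ P ∈ (E j).support, Good res x S j P := by
  obtain ⟨D, hD⟩ := exists_halfdiv hf
  obtain ⟨u, E, u0, e, hE⟩ := mov S D (dg_of_tors hm ⟨f, f.ne_zero, hD⟩)
  refine ⟨Units.mk0 u u0, E, ?_, hE⟩
  rw [← e, smul_add, hD]
  ext P
  rw [Finsupp.add_apply, Finsupp.smul_apply, dv_apply, dv_apply, dv_apply, ou_mul, ou_pow,
    nsmul_eq_mul]
  rfl

theorem exists_pair {m : ℕ} (hm : m ≠ 0) (χ : Fˣ → Qb)
    (h1 : ∀ f ∈ divU Qb F m, ∀ g ∈ divU Qb F m, χ (f * g) = χ f * χ g)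
    (h2 : ∀ f ∈ powU F m, χ f = 1) :
    ∃ g ∈ divU Qb F m, ∀ f ∈ divU Qb F m, χ f = ((e Qb m g f).toMul : Qbˣ) := by
  let χ1 : divU Qb F m →* Qb :=
    { toFun := fun f => χ f, map_one' := h2 1 (one_mem _), map_mul' := fun f g => h1 _ f.2 _ g.2 }
  obtain ⟨x, hx⟩ := (eH_bijective (k := Qb) (F := F) (n := m) (by exact_mod_cast hm)).2
    (QuotientGroup.lift _ χ1.toHomUnits fun f hf => Units.ext (h2 _ hf))
  obtain ⟨g, rfl⟩ := QuotientGroup.mk_surjective x
  refine ⟨g, g.2, fun f hf => ?_⟩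
  have := eH_mk hm g ⟨f, hf⟩
  rw [hx] at this
  exact congrArg Units.val this

theorem fla : Spec_FLA := by
  classical
  rintro rep F _ _ _ O I r h hs ⟨⟨κ, res, hr, J, ch, fx, ft, mov⟩⟩ m hm χ h1 h2 f hf
  obtain ⟨g, hg, hχ⟩ := exists_pair hm χ h1 h2
  obtain ⟨u, E, eE, hE⟩ := move mov hm (insert 0 (Finset.univ.biUnion fun j => (ch j).bad)) hf
  have fin : {s : κ | ∃ j i, ∃ P ∈ (E i).support, InCl res (ch j).x s P}.Finite := by
    refine (Set.finite_iUnion fun j : J => Set.finite_iUnion fun i : J =>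
      (E i).support.finite_toSet.biUnion fun P _ => Set.Subsingleton.finite
        (s := {s | InCl res (ch j).x s P}) fun s a t b => InCl.unique a b).subset ?_
    rintro s ⟨j, i, P, p1, p2⟩
    exact Set.mem_iUnion.2 ⟨j, Set.mem_iUnion.2 ⟨i, Set.mem_biUnion p1 p2⟩⟩
  obtain ⟨v, D, eD, hD⟩ := move mov hm
    (fin.toFinset ∪ Finset.univ.biUnion fun j => (ch j).bad) hg
  have o : ∀ {G : J → Plk Qb F →₀ ℤ} {k : F}, m • ∑ j, G j = dv Qb k → ∀ P,
      (∀ j, P ∉ (G j).support) → ord P k = 0 := fun {G k} e P hP => by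
    rw [← dv_apply, ← e, Finsupp.smul_apply, Finsupp.finsetSum_apply,
      Finset.sum_eq_zero fun j _ => Finsupp.notMem_support_iff.1 (hP j), smul_zero]
  choose c c0 hc using fun j => loc_val rep h hs hr (ch j) (fun σ hσ => fx σ hσ j)
    (fun σ hσ => ft σ hσ j) (f * u ^ m).ne_zero
  choose d d0 hd using fun j => loc_val rep h hs hr (ch j) (fun σ hσ => fx σ hσ j)
    (fun σ hσ => ft σ hσ j) (g * v ^ m).ne_zero
  have k1 : ∀ j, ∀ Q ∈ (D j).support, ∃ z, BU O I z ∧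
      ∀ σ : I, Val Q (r σ ((f * u ^ m : Fˣ) : F)) ((σ : GQ) (c j) * z σ) := fun j Q hQ => by
    obtain ⟨⟨s, s1, s2⟩, -⟩ := (hD j).2 Q hQ
    rw [Finset.mem_union, not_or] at s1
    refine (hc j s (fun k => s1.2 (Finset.mem_biUnion.2 ⟨j, Finset.mem_univ _, k⟩))
      (fun P hP => o eE P fun i hi => s1.1 (fin.mem_toFinset.2 ⟨j, i, P, hi, hP⟩)) Q s2).1
  have k2 : ∀ j, ∀ P ∈ (E j).support, ∃ z, BU O I z ∧ ∀ σ : I,
      Val (plEquiv (r σ) (σ : GQ).toRingEquiv (hs σ σ.2) P) ((g * v ^ m : Fˣ) : F) (d j * z σ) :=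
    fun j P hP => by
    obtain ⟨⟨s, s1, s2⟩, -⟩ := (hE j).2 P hP
    rw [Finset.mem_insert, not_or] at s1
    refine (hd j s (fun k => s1.2 (Finset.mem_biUnion.2 ⟨j, Finset.mem_univ _, k⟩))
      (fun Q hQ => o eD Q fun i hi => ?_) P s2).2
    obtain ⟨⟨t, t1, t2⟩, t3⟩ := (hD i).2 Q hi
    by_cases hij : j = i
    · subst hij
      exact t1 (Finset.mem_union_left _ (fin.mem_toFinset.2 ⟨j, j, P, hP, t2.unique hQ ▸ s2⟩))
    · exact t3 j hij s s1.1 hQ
  have B1 := BU.div0 h D (fun σ Q => vl Q (r σ ((f * u ^ m : Fˣ) : F))) (fun j σ => (σ : GQ) (c j))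
    (fun j σ => by simpa using c0 j) (fun j => (hD j).1) fun j Q hQ =>
      (k1 j Q hQ).imp fun z hz => ⟨hz.1, fun σ => vl_eq (hz.2 σ)⟩
  have B2 := BU.div0 h E (fun σ P => vl (plEquiv (r σ) (σ : GQ).toRingEquiv (hs σ σ.2) P)
    ((g * v ^ m : Fˣ) : F)) (fun j _ => d j) (fun j _ => d0 j) (fun j => (hE j).1) fun j P hP =>
      (k2 j P hP).imp fun z hz => ⟨hz.1, fun σ => vl_eq (hz.2 σ)⟩
  convert (B2.mul (B1.inv h)).1 using 1
  funext σ
  have hσ : ∀ a, r σ (algebraMap Qb F a) = algebraMap Qb F ((σ : GQ).toRingEquiv a) := hs σ σ.2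
  have f1 : mU (r σ) f ∈ divU Qb F m := mU_mem hσ hf
  have p1 : mU (r σ) (u ^ m) ∈ powU F m := ⟨mU (r σ) u, (map_pow _ _ _).symm⟩
  have p2 : v ^ m ∈ powU F m := ⟨v, rfl⟩
  have eA : m • (∑ j, E j).mapDomain (plEquiv (r σ) _ hσ) =
      dv Qb ((mU (r σ) (f * u ^ m) : Fˣ) : F) := by
    rw [← Finsupp.mapDomain_smul, eE, mU_val, dv_plEquiv _ _ hσ]
  have key := e_disj hm eD eA fun Q => by
    by_contra hQ
    rw [not_or, Finsupp.finsetSum_apply] at hQ
    obtain ⟨j, -, hj⟩ := Finset.exists_ne_zero_of_sum_ne_zero hQ.1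
    obtain ⟨z, z1, z2⟩ := k1 j Q (Finsupp.mem_support_iff.2 hj)
    have := ((z2 σ).unit (mul_ne_zero (by simpa using c0 j) (z1.ne h σ))).2
    rw [← mU_val, ← dv_apply, ← eA, Finsupp.smul_apply, smul_eq_zero] at this
    exact hQ.2 (this.resolve_left hm)
  have e5 : e Qb m (g * v ^ m) (mU (r σ) (f * u ^ m)) = e Qb m g (mU (r σ) f) := by
    rw [map_mul, e_mul_left hm _ hg (powU_le _ p2), e_powU_left hm p2
      (mul_mem f1 (powU_le _ p1)), add_zero, e_mul_right hm _ f1 (powU_le _ p1),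
      e_powU_right hm hg p1, add_zero]
  rw [e5, Finsupp.prod_mapDomain_index_inj (plEquiv (r σ) _ hσ).injective] at key
  exact (hχ _ f1).trans (key.trans (div_eq_mul_inv _ _))

end Vale.Agent.P027M.D
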