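import Vale.Agent.P027M.D.FRam
import Vale.Agent.P027M.D.FUn
import Vale.Agent.P027M.D.FNorm
import Vale.Agent.P027M.D.FPoly
import Vale.Agent.P027M.D.FUp
import Vale.Agent.P027M.D.FCos
import Vale.Agent.P027M.D.FLow
import Vale.Agent.P027M.D.Over

/-!
# P027, route M, block D: `FONT` from its rows
-/

set_option linter.all false

noncomputable section

namespace Vale.Agent.P027M.D

open NumberField Polynomial Vale.Agent.P022

theorem exists_U (Γ : Subgroup GQ) (hΓ : IsOpen (Γ : Set GQ)) (X : Finset Qb) :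
    ∃ U : Subgroup GQ, IsOpen (U : Set GQ) ∧ U.Normal ∧ U ≤ Γ ∧ ∀ x ∈ X, Fix U x := by
  have : Algebra.IsIntegral ℚ Qb := (AlgebraicClosure.isAlgebraic ℚ).isIntegral
  have hV : IsOpen ((Γ : Set GQ) ∩ ⋂ x ∈ X, (MulAction.stabilizer GQ x : Set GQ)) :=
    hΓ.inter (isOpen_biInter_finset fun x _ => stabilizer_isOpen_of_isIntegral x)
  obtain ⟨U, hU⟩ := ProfiniteGrp.exist_openNormalSubgroup_sub_open_nhds_of_one hV
    ⟨Γ.one_mem, Set.mem_iInter₂.2 fun x _ => (MulAction.stabilizer GQ x).one_mem⟩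
  exact ⟨U.toSubgroup, U.isOpen, U.isNormal', fun σ hσ => (hU hσ).1,
    fun x hx σ hσ => Set.mem_iInter₂.1 (hU hσ).2 x hx⟩

theorem font_of (hov : Spec_OVER) (loc : F_LOC) (kl : F_KL) (stab : F_STAB) (poly : F_POLY)
    (up : F_UP) (cos : F_COS) (low : F_LOW) : Spec_FONT := by
  rintro P O Γ w y φ hP h3 hO hw hΓ hn h2 hz hy k hk ⟨s, t, hs, ht, hst⟩
  obtain ⟨O', o1, hI, v3, -⟩ := hov 3 P Nat.prime_three hP (by simpa using h3)
  obtain rfl : O' = O := ValuationSubring.ext _ _ fun x => (o1 x).trans (hO x).symm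
  replace v3 : O'.valuation (3 : Qb) < 1 := by simpa using v3
  have v0 : O'.valuation (3 : Qb) ≠ 0 := by simp
  obtain ⟨kz, hpi⟩ := loc P O' hP h3 hO
  obtain ⟨X, hX⟩ := poly O' _ hI kz v3 _ hz
  classical
  obtain ⟨U, U1, U2, U3, U4⟩ := exists_U Γ hΓ (insert y X)
  obtain ⟨π, hπ⟩ := hpi U U1 U2
  obtain ⟨g, g1, g2⟩ := hX U π (fun x hx => U4 x (Finset.mem_insert_of_mem hx)) hπ
  obtain ⟨s1, s2⟩ := stab O' _ U π hI kz v3 hπ
  have hk2 : 2 ≤ k := by omega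
  have hv : O'.valuation (y ^ 3 - 1) ^ k = O'.valuation (3 : Qb) := by
    have := congrArg O'.valuation hst
    rwa [map_mul, map_mul, FUn.val_one hP hO hs, FUn.val_one hP hO ht, one_mul, mul_one, map_pow] at this
  have hri : Γ.relIndex (inr P) ≠ 0 := fun h => hπ.2.1 (Subgroup.relIndex_eq_zero_of_le_left U3 h)
  have hA : ∀ σ ∈ Γ ⊓ inr P, ∃ j : ℕ, σ y = w ^ j * y := fun σ hσ => ⟨_, hy σ hσ.1⟩
  have w3 : w ^ 3 = 1 := by linear_combination (w - 1) * hw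
  obtain ⟨c1, c2, c3⟩ := cos O' (Γ ⊓ inr P) w y k (hI.mono inf_le_right)
    (kl O' _ Γ hI kz hn hri h2) v3 hw hA hk2 hv
  have u1 : O'.valuation (y - 1) < 1 := by
    by_contra h
    exact absurd (c1 ▸ v3) (not_lt.2 (one_le_pow₀ (not_lt.1 h)))
  have y0 : y ≠ 0 := by
    rintro rfl
    simp at u1
  have hex : ∃ σ ∈ inr P, σ ∉ Γ ⊓ inr P := by
    by_contra h
    push Not at h
    have a0 : y ^ 3 - 1 ≠ 0 := fun h0 => by
      rw [h0, map_zero, zero_pow (by omega)] at hv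
      exact v0 hv.symm
    obtain ⟨n, hn⟩ := kz _ a0 fun σ hσ => by
      obtain ⟨j, hj⟩ := hA σ (h σ hσ)
      rw [map_sub, map_pow, hj, map_one, mul_pow, ← pow_mul, mul_comm j, pow_mul, w3, one_pow,
        one_mul]
    rw [hn, ← zpow_natCast, ← zpow_mul] at hv
    have := zpow_right_injective₀ (zero_lt_iff.2 v0) v3.ne (hv.trans (zpow_one _).symm)
    rcases hk with rfl | rfl <;> omega
  obtain ⟨τ, τ1, τ2, τ3⟩ := low O' (inr P) (Γ ⊓ inr P) w y π hI inf_le_right v3 hw hA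
    (s1 ▸ hπ.2.2) (fun σ hσ h => ⟨⟨U3 (s2 σ hσ h), hσ⟩,
      U4 y (Finset.mem_insert_self _ _) σ (s2 σ hσ h)⟩) hex y0 c2
    (c1 ▸ pow_le_pow_right_of_le_one' u1.le (by omega)) c3
  have πO : π ∈ O' := by
    rw [← O'.valuation_le_one_iff]
    by_contra h
    exact absurd (hπ.2.2 ▸ v3) (not_lt.2 (one_le_pow₀ (not_le.1 h).le))
  refine absurd τ3 (not_lt.2 (up O' _ g π (τ π) v3 ?_ g1 ?_ (mem_Orb.2 ⟨1, one_mem _, rfl⟩)
    (mem_Orb.2 ⟨τ, τ1.2, rfl⟩) ?_))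
  · intro ρ hρ
    obtain ⟨σ, hσ, rfl⟩ := mem_Orb.1 hρ
    exact hI.mem hσ πO
  · intro ρ hρ
    obtain ⟨σ, hσ, rfl⟩ := mem_Orb.1 hρ
    rw [← g2 ⟨σ, hσ⟩]
    show (w ^ _) ^ 3 = 1
    rw [← pow_mul, mul_comm, pow_mul, w3, one_pow]
  · intro h
    have e1 := g2 1
    have e2 := g2 ⟨τ, τ1.2⟩
    have e3 := hy 1 (one_mem _)
    apply τ2
    rw [hy τ τ1.1]
    have : w ^ (φ τ).val = w ^ (φ 1).val := e2.trans (h.symm.trans e1.symm)
    rw [this]
    exact e3.symm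

/-- **the ramification bound** -/
theorem font : Spec_FONT :=
  font_of over_ok (loc ram) kl stab (poly stab) up (cos lag dv fnrm) (low vinv)

end Vale.Agent.P027M.D
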