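import Vale.Agent.P027M.D.Atlas

/-!
# P027, route M, block D: the statements of the rows of `FONT`
-/

set_option linter.all false

noncomputable section

namespace Vale.Agent.P027M.D

open NumberField Polynomial Vale.Agent.P022

/-- `x` is fixed by `A` -/
def Fix (A : Subgroup GQ) (x : Qb) : Prop := ∀ σ ∈ A, σ x = x

theorem orb_fin (A : Subgroup GQ) (π : Qb) : {ρ : Qb | ∃ σ ∈ A, σ π = ρ}.Finite := by
  have h : IsIntegral ℚ π := ((AlgebraicClosure.isAlgebraic ℚ).isAlgebraic π).isIntegral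
  refine ((minpoly ℚ π).rootSet_finite Qb).subset ?_
  rintro _ ⟨σ, -, rfl⟩
  rw [mem_rootSet_of_ne (minpoly.ne_zero h), aeval_algEquiv]
  simp [minpoly.aeval]

/-- the orbit of `π` under `A` -/
def Orb (A : Subgroup GQ) (π : Qb) : Finset Qb := (orb_fin A π).toFinset

theorem mem_Orb {A : Subgroup GQ} {π ρ : Qb} : ρ ∈ Orb A π ↔ ∃ σ ∈ A, σ π = ρ :=
  (orb_fin A π).mem_toFinset

/-- elements fixed by `I` have the valuation of a power of `3` -/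
def KZ (O : ValuationSubring Qb) (I : Subgroup GQ) : Prop :=
  ∀ a : Qb, a ≠ 0 → Fix I a → ∃ n : ℤ, O.valuation a = O.valuation (3 : Qb) ^ n

/-- elements fixed by `A` have a valuation of denominator prime to `3` -/
def KL (O : ValuationSubring Qb) (A : Subgroup GQ) : Prop :=
  ∀ a : Qb, a ≠ 0 → Fix A a → ∃ (m : ℕ) (n : ℤ), ¬ 3 ∣ m ∧
    O.valuation a ^ m = O.valuation (3 : Qb) ^ n

/-- `π` is a uniformizer of the fixed field of `U` -/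
def Un (O : ValuationSubring Qb) (U : Subgroup GQ) (π : Qb) : Prop :=
  Fix U π ∧ π ≠ 0 ∧ O.valuation π < 1 ∧
    ∀ a : Qb, a ≠ 0 → Fix U a → ∃ n : ℤ, O.valuation a = O.valuation π ^ n

/-- `π` is fixed by `U` and `|π| ^ [I : I ∩ U] = |3|` -/
def Unif (O : ValuationSubring Qb) (I U : Subgroup GQ) (π : Qb) : Prop :=
  Fix U π ∧ U.relIndex I ≠ 0 ∧ O.valuation π ^ U.relIndex I = O.valuation (3 : Qb)

/-- row RAM: the ramification index is the order of the inertia group -/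
def F_RAM : Prop := ∀ (P : Ideal (𝓞 Qb)) (O : ValuationSubring Qb) (V U : Subgroup GQ) (ϖ π : Qb),
  P.IsPrime → (3 : 𝓞 Qb) ∈ P → Over P O → IsOpen (U : Set GQ) → U.Normal → U ≤ V →
  Un O V ϖ → Un O U π → O.valuation ϖ = O.valuation π ^ U.relIndex (inr P ⊓ V)

/-- row UN: uniformizers -/
def F_UN : Prop := ∀ (P : Ideal (𝓞 Qb)) (O : ValuationSubring Qb),
  P.IsPrime → (3 : 𝓞 Qb) ∈ P → Over P O →
  Un O ⊤ 3 ∧ ∀ U : Subgroup GQ, IsOpen (U : Set GQ) → ∃ π, Un O U π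

/-- row LOC (from RAM and UN) -/
def F_LOC : Prop := ∀ (P : Ideal (𝓞 Qb)) (O : ValuationSubring Qb),
  P.IsPrime → (3 : 𝓞 Qb) ∈ P → Over P O → KZ O (inr P) ∧
    ∀ U : Subgroup GQ, IsOpen (U : Set GQ) → U.Normal → ∃ π, Unif O (inr P) U π

/-- row VINV: inertia preserves the valuation -/
def F_VINV : Prop := ∀ (O : ValuationSubring Qb) (I : Subgroup GQ), Ine O I →
  ∀ σ ∈ I, ∀ x : Qb, O.valuation (σ x) = O.valuation x

/-- row NORM: the product over an orbit -/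
def F_NORM : Prop := ∀ (O : ValuationSubring Qb) (A : Subgroup GQ), Ine O A → ∀ a : Qb, a ≠ 0 →
  ∃ b : Qb, b ≠ 0 ∧ Fix A b ∧ O.valuation b = O.valuation a ^ (Orb A a).card

/-- row KL: subgroups of index a power of two -/
def F_KL : Prop := ∀ (O : ValuationSubring Qb) (I Γ : Subgroup GQ), Ine O I → KZ O I → Γ.Normal →
  Γ.relIndex I ≠ 0 → (∀ g : GQ, ∃ a : ℕ, g ^ 2 ^ a ∈ Γ) → KL O (Γ ⊓ I)

/-- row STAB: the stabilizer of a uniformizer -/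
def F_STAB : Prop := ∀ (O : ValuationSubring Qb) (I U : Subgroup GQ) (π : Qb), Ine O I → KZ O I →
  O.valuation (3 : Qb) < 1 → Unif O I U π →
  (Orb I π).card = U.relIndex I ∧ ∀ σ ∈ I, σ π = π → σ ∈ U

/-- row LAG: Lagrange interpolation along an orbit -/
def F_LAG : Prop := ∀ (A : Subgroup GQ) (π x : Qb), (∀ σ ∈ A, σ π = π → σ x = x) →
  ∃ p : Qb[X], p.natDegree < (Orb A π).card ∧ (∀ i, Fix A (p.coeff i)) ∧
    ∀ σ ∈ A, p.eval (σ π) = σ x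

/-- row DV: terms of distinct valuations -/
def F_DV : Prop := ∀ (O : ValuationSubring Qb) (s : Finset ℕ) (a : ℕ → Qb),
  (∀ i ∈ s, ∀ j ∈ s, a i ≠ 0 → O.valuation (a i) = O.valuation (a j) → i = j) →
  ∀ i ∈ s, O.valuation (a i) ≤ O.valuation (∑ j ∈ s, a j)

/-- row POLY: the elements of `Bs` are integral polynomials in `σ π` -/
def F_POLY : Prop := ∀ (O : ValuationSubring Qb) (I : Subgroup GQ), Ine O I → KZ O I →
  O.valuation (3 : Qb) < 1 → ∀ z ∈ Bs O I, ∃ X : Finset Qb, ∀ (U : Subgroup GQ) (π : Qb),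
    (∀ x ∈ X, Fix U x) → Unif O I U π →
    ∃ g : Qb[X], (∀ i, g.coeff i ∈ O) ∧ ∀ σ : I, z σ = g.eval ((σ : GQ) π)

/-- row UP: the upper bound -/
def F_UP : Prop := ∀ (O : ValuationSubring Qb) (Ω : Finset Qb) (g : Qb[X]) (π ρ₀ : Qb),
  O.valuation (3 : Qb) < 1 → (∀ ρ ∈ Ω, ρ ∈ O) → (∀ i, g.coeff i ∈ O) →
  (∀ ρ ∈ Ω, g.eval ρ ^ 3 = 1) → π ∈ Ω → ρ₀ ∈ Ω → g.eval π ≠ g.eval ρ₀ →
  O.valuation (3 : Qb) ^ 3 ≤ (∏ ρ ∈ Ω, max (O.valuation (ρ₀ - π)) (O.valuation (π - ρ))) ^ 2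

/-- row COS: the action on the cubic extension -/
def F_COS : Prop := ∀ (O : ValuationSubring Qb) (A : Subgroup GQ) (w y : Qb) (k : ℕ), Ine O A →
  KL O A → O.valuation (3 : Qb) < 1 → w ^ 2 + w + 1 = 0 → (∀ σ ∈ A, ∃ j : ℕ, σ y = w ^ j * y) →
  2 ≤ k → O.valuation (y ^ 3 - 1) ^ k = O.valuation (3 : Qb) →
  O.valuation (y - 1) ^ (3 * k) = O.valuation (3 : Qb) ∧ (∀ j : ℕ, ∃ t ∈ A, t y = w ^ j * y) ∧
    ∀ a : Qb, (∀ σ ∈ A, σ y = y → σ a = a) → ∀ τ ∈ A,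
      O.valuation (τ a - a) * O.valuation (y - 1) ≤ O.valuation a * O.valuation (1 - w)

/-- row LOW: the lower bound -/
def F_LOW : Prop := ∀ (O : ValuationSubring Qb) (I A : Subgroup GQ) (w y π : Qb), Ine O I → A ≤ I →
  O.valuation (3 : Qb) < 1 → w ^ 2 + w + 1 = 0 → (∀ σ ∈ A, ∃ j : ℕ, σ y = w ^ j * y) →
  O.valuation π ^ (Orb I π).card = O.valuation (3 : Qb) →
  (∀ σ ∈ I, σ π = π → σ ∈ A ∧ σ y = y) → (∃ σ ∈ I, σ ∉ A) → y ≠ 0 →
  (∀ j : ℕ, ∃ t ∈ A, t y = w ^ j * y) →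
  O.valuation (3 : Qb) ≤ O.valuation (y - 1) ^ 6 →
  (∀ a : Qb, (∀ σ ∈ A, σ y = y → σ a = a) → ∀ τ ∈ A,
      O.valuation (τ a - a) * O.valuation (y - 1) ≤ O.valuation a * O.valuation (1 - w)) →
  ∃ t ∈ A, t y ≠ y ∧
    (∏ ρ ∈ Orb I π, max (O.valuation (t π - π)) (O.valuation (π - ρ))) ^ 2 <
      O.valuation (3 : Qb) ^ 3

end Vale.Agent.P027M.D
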