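import Vale.Agent.P027M.D.Font
import Vale.Agent.P027M.TW.Glue

/-!
# P027, route M, block D: `FONT` in the form used by block TW
-/

set_option linter.all false

namespace Vale.Agent.P027M.D

theorem fontTW : TW.FONT := fun P O Γ w hP h3 hO hB hw _ F hF y hy =>
  ⟨font P O Γ w y F hP h3 hO hw hB.opn hB.nrm hB.two hF hy 4 (Or.inl rfl),
    font P O Γ w y F hP h3 hO hw hB.opn hB.nrm hB.two hF hy 2 (Or.inr rfl)⟩

end Vale.Agent.P027M.D
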