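import Vale.Agent.P027M.D.Geo

/-!
# P027, route M, block D (geometry): a function with at most one zero in a finite set
-/

set_option linter.all false

noncomputable section

namespace Vale.Agent.P027M.D

open Vale.Agent.P019P P025H492 P025H816

theorem gen_two {α : Type} (Z : Finset α) (f : α →₀ ℤ) (h0 : ∀ P, 0 ≤ f P)
    (h : 1 < ∑ P ∈ Z, f P) : ∃ P ∈ Z, ∃ Q ∈ Z, ∀ R,
      (Finsupp.single P 1 + Finsupp.single Q 1 : α →₀ ℤ) R ≤ f R := by
  classical
  have ex : ∀ Y : Finset α, 0 < ∑ P ∈ Y, f P → ∃ P ∈ Y, 0 < f P := fun Y hY => by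
    by_contra hc
    push Not at hc
    exact absurd (Finset.sum_nonpos hc) (not_le.2 hY)
  obtain ⟨P, hP, h1⟩ := ex Z (by omega)
  by_cases h2 : 2 ≤ f P
  · refine ⟨P, hP, P, hP, fun R => ?_⟩
    have := h0 R
    rw [Finsupp.add_apply, Finsupp.single_apply]
    split_ifs with e
    · subst e; omega
    · omega
  · rw [← Finset.add_sum_erase Z _ hP] at h
    obtain ⟨Q, hQ, h3⟩ := ex (Z.erase P) (by omega)
    have hne := Finset.ne_of_mem_erase hQ
    refine ⟨P, hP, Q, Finset.mem_of_mem_erase hQ, fun R => ?_⟩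
    have := h0 R
    rw [Finsupp.add_apply, Finsupp.single_apply, Finsupp.single_apply]
    split_ifs with e1 e2 e2
    · exact absurd (e2.trans e1.symm) hne
    · subst e1; omega
    · subst e2; omega
    · omega

theorem gen' : GEN := by
  intro κ G _ _ _ _ E Z U hE hU hd
  have : IsAlgClosed κ := CFF.ac G
  have : FiniteDimensional κ U := Submodule.finiteDimensional_of_le hU
  have h1 := RR_large (D := E) (by omega)
  have h2 : dg (can κ G) = 2 * (gen κ G : ℤ) - 2 := by
    have a1 := RR (0 : Plk κ G →₀ ℤ)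
    have a2 := RR (can κ G)
    rw [l_zero, sub_zero, map_zero] at a1
    rw [sub_self, l_zero] at a2
    omega
  let p : Option (Z × Z) → Submodule κ U := fun o => o.elim ⊥ fun q =>
    (LL κ (E - (Finsupp.single q.1.1 1 + Finsupp.single q.2.1 1))).comap U.subtype
  obtain ⟨w, hw⟩ := Submodule.exists_forall_notMem_of_forall_ne_top p (by
    rintro (_ | ⟨P, Q⟩) h
    · have h3 : (⊥ : Submodule κ U) = ⊤ := h
      have h4 := congrArg (fun S : Submodule κ U => Module.finrank κ S) h3
      simp only [finrank_bot, finrank_top] at h4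
      omega
    · have h3 : U ≤ LL κ (E - (Finsupp.single P.1 1 + Finsupp.single Q.1 1)) :=
        Submodule.comap_subtype_eq_top.1 h
      have h4 := Submodule.finrank_mono h3
      have h5 : dg (E - (Finsupp.single P.1 1 + Finsupp.single Q.1 1)) = dg E - 2 := by
        rw [map_sub, map_add, dg_sgl, dg_sgl]; ring
      have h6 := RR_large (D := E - (Finsupp.single P.1 1 + Finsupp.single Q.1 1)) (by omega)
      omega)
  have hw0 : (w : G) ≠ 0 := fun h => hw none (Subtype.ext h)
  refine ⟨w, w.2, hw0, not_lt.1 fun h => ?_⟩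
  have h3 := (mem_LL.1 (hU w.2)).resolve_left hw0
  obtain ⟨P, hP, Q, hQ, h4⟩ := gen_two Z (E + dv κ (w : G)) (fun P => by
    rw [Finsupp.add_apply, dv_apply]
    linarith [h3 P]) h
  refine hw (some (⟨P, hP⟩, ⟨Q, hQ⟩)) (mem_LL.2 (Or.inr fun R => ?_))
  have h5 := h4 R
  rw [Finsupp.add_apply E, dv_apply] at h5
  rw [Finsupp.sub_apply]
  show _ ≤ ord R (w : G)
  linarith

end Vale.Agent.P027M.D
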