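import Vale.Agent.P027M.D.Geo
import Vale.Agent.P025.R2.H492.Canon1

/-!
# P027, route M, block D: the hyperelliptic involution
-/

set_option linter.all false

noncomputable section

namespace Vale.Agent.P027M.D

open Polynomial IntermediateField Vale.Agent.P019P P025H492 P025H816
open _root_.P027M.K (Val)

namespace Iot

theorem eq_of_le {ι : Type*} {D E : ι →₀ ℤ} (h : E ≤ D) (h' : dg D ≤ dg E) : D = E := by
  have h1 : dg (D - E) = ∑ p ∈ (D - E).support, (D - E) p :=
    dg_eq_sum fun p hp => Finsupp.notMem_support_iff.1 hp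
  have h0 : ∀ p, 0 ≤ (D - E) p := fun p => by
    rw [Finsupp.sub_apply]
    exact sub_nonneg.2 (h p)
  have h2 : ∑ p ∈ (D - E).support, (D - E) p = 0 :=
    le_antisymm (by rw [← h1, map_sub]; omega) (Finset.sum_nonneg fun p _ => h0 p)
  rw [Finset.sum_eq_zero_iff_of_nonneg fun p _ => h0 p] at h2
  rw [← sub_eq_zero]
  ext p
  by_contra c
  exact c (h2 p (Finsupp.mem_support_iff.2 c))

theorem two_eq {ι : Type*} {D : ι →₀ ℤ} (h0 : ∀ p, 0 ≤ D p) (h2 : dg D = 2) {p : ι}
    (hp : 2 ≤ D p) : D = Finsupp.single p 1 + Finsupp.single p 1 ∧ ∀ q, 0 < D q → q = p := by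
  classical
  have e : D = Finsupp.single p 1 + Finsupp.single p 1 := by
    refine eq_of_le (fun q => ?_) (by rw [map_add, dg_sgl, h2]; omega)
    have := h0 q
    rw [Finsupp.add_apply, Finsupp.single_apply]
    split_ifs with c
    · subst c; omega
    · omega
  refine ⟨e, fun q hq => ?_⟩
  by_contra c
  rw [e, Finsupp.add_apply, Finsupp.single_eq_of_ne c] at hq
  omega

theorem pair_eq {ι : Type*} {D : ι →₀ ℤ} (h0 : ∀ p, 0 ≤ D p) (h2 : dg D = 2) {p p' : ι}
    (hn : p ≠ p') (hp : 0 < D p) (hp' : 0 < D p') :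
    D = Finsupp.single p 1 + Finsupp.single p' 1 ∧ D p = 1 ∧ ∀ q, 0 < D q → q = p ∨ q = p' := by
  classical
  have e : D = Finsupp.single p 1 + Finsupp.single p' 1 := by
    refine eq_of_le (fun q => ?_) (by rw [map_add, dg_sgl, dg_sgl, h2]; omega)
    have := h0 q
    rw [Finsupp.add_apply, Finsupp.single_apply, Finsupp.single_apply]
    split_ifs with c c' c'
    · exact absurd (c.trans c'.symm) hn
    · subst c; omega
    · subst c'; omega
    · omega
  refine ⟨e, ?_, fun q hq => ?_⟩
  · rw [e, Finsupp.add_apply, Finsupp.single_eq_same, Finsupp.single_eq_of_ne hn]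
    rfl
  · by_contra c
    rw [not_or] at c
    rw [e, Finsupp.add_apply, Finsupp.single_eq_of_ne c.1, Finsupp.single_eq_of_ne c.2] at hq
    omega

variable {C F : Type} [Field C] [Field F] [Algebra C F] [CFF C F]

theorem val_aeval {P : Plk C F} {x : F} {a : C} (h : Val P x a) (f : C[X]) :
    Val P (aeval x f) (f.eval a) := by
  induction f using Polynomial.induction_on' with
  | add p q hp hq => rw [map_add, eval_add]; exact hp.add hq
  | monomial n c =>
    rw [aeval_monomial, eval_monomial]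
    exact (Val.const P c).mul (h.pow n)

theorem val_pos {P : Plk C F} {x : F} {a : C} (hx : ∀ a : C, x ≠ algebraMap C F a) :
    Val P x a ↔ 0 < ord P (x - algebraMap C F a) := by
  refine ⟨fun h => ?_, fun h => mem_Mge_one_of_pos h⟩
  rcases mem_Mge.1 h with h | h
  · exact absurd (sub_eq_zero.1 h) (hx a)
  · omega

/-- the zeros of `x - a` -/
def Z (x : F) (a : C) : Plk C F →₀ ℤ := dv C (x - algebraMap C F a) + pol C x

theorem Z_apply {x : F} (hx : ∀ a : C, x ≠ algebraMap C F a) (a : C) (P : Plk C F) :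
    Z x a P = max 0 (ord P (x - algebraMap C F a)) := by
  rw [Z, Finsupp.add_apply, dv_apply, pol_apply]
  by_cases c : ord P x < 0
  · have x0 : x ≠ 0 := fun e => by rw [e, ord_zero] at c; omega
    have := (ord_add_of_lt (P := P) x0 (w := -algebraMap C F a)
      (mem_Mge.2 (Or.inr (by rw [ord_neg, ord_const]; omega)))).2
    rw [← sub_eq_add_neg] at this
    omega
  · have h1 : x - algebraMap C F a ∈ Mge P 0 :=
      sub_mem (mem_Mge.2 (Or.inr (by omega))) (_root_.P027M.K.const_mem P a)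
    rcases mem_Mge.1 h1 with h | h
    · exact absurd (sub_eq_zero.1 h) (hx a)
    · omega

theorem exists_aut {x y : F} {f : C[X]} (hx : ∀ a : C, x ≠ algebraMap C F a)
    (h2 : Module.finrank C⟮x⟯ F = 2) (hy : y ^ 2 = aeval x f) (ho : Odd f.natDegree) :
    ∃ σ : F ≃ₐ[C] F, σ x = x ∧ σ y = -y := by
  have f0 : f ≠ 0 := fun e => by rw [e, natDegree_zero] at ho; exact absurd ho (by decide)
  haveI := cff_adjoin hx
  haveI := (finite_of_notMem hx).2
  haveI : Algebra.IsQuadraticExtension C⟮x⟯ F := { finrank_eq_two' := h2 }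
  obtain ⟨P, hP⟩ : ∃ P : Plk C F, ord P x < 0 := by
    by_contra c
    have e : pol C x = 0 := by
      ext P
      have : ¬ ord P x < 0 := fun d => c ⟨P, d⟩
      rw [pol_apply, Finsupp.zero_apply]
      omega
    have := dg_pol hx
    rw [e, map_zero, h2] at this
    omega
  have hn : y ∉ (algebraMap C⟮x⟯ F).range := by
    rintro ⟨w, rfl⟩
    have h1 := (ord_aeval_pole hP f0).2
    rw [← hy, ord_pow, ord_algebraMap, ord_eq_neg_ram hx hP] at h1
    have h3 : (0 : ℤ) < ram C⟮x⟯ P := by exact_mod_cast ram_pos (K := C⟮x⟯) P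
    obtain ⟨m, hm⟩ := ho
    rw [hm] at h1
    push_cast at h1
    have h4 : (ram C⟮x⟯ P : ℤ) * (2 * ord (down C⟮x⟯ P) w + (2 * m + 1)) = 0 := by linarith
    rcases mul_eq_zero.1 h4 with h | h <;> omega
  have hi : IsIntegral C⟮x⟯ y := Algebra.IsIntegral.isIntegral y
  set t : C⟮x⟯ := aeval (AdjoinSimple.gen C x) f with ht
  have e : algebraMap C⟮x⟯ F t = y ^ 2 := by
    rw [hy, ht, ← aeval_algebraMap_apply, AdjoinSimple.algebraMap_gen]
  have hm : minpoly C⟮x⟯ y = X ^ 2 - Polynomial.C t := by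
    refine (eq_of_monic_of_dvd_of_natDegree_le (minpoly.monic hi) (monic_X_pow_sub_C t (by norm_num))
      (minpoly.dvd _ _ (by simp [e])) ?_).symm
    rw [natDegree_X_pow_sub_C]
    exact (minpoly.two_le_natDegree_iff hi).2 hn
  obtain ⟨σ, hσ⟩ := minpoly.exists_algEquiv_of_root' (K := C⟮x⟯) (x := -y) hi.isAlgebraic
    (by rw [hm]; simp [e])
  exact ⟨σ.restrictScalars C, σ.commutes (AdjoinSimple.gen C x), hσ⟩

end Iot

open Iot in
theorem iot : IOT := by
  intro C F _ _ _ _ x y f two hx h2 hy ho hs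
  obtain ⟨σ, σx, σy⟩ := exists_aut hx h2 hy ho
  have f0 : f ≠ 0 := hs.ne_zero
  have y0 : y ≠ 0 := fun e => by
    rw [e, zero_pow (by norm_num)] at hy
    exact (finite_of_notMem hx).1 ⟨f, f0, hy.symm⟩
  have σa : ∀ g : C[X], σ (aeval x g) = aeval x g := fun g => by
    rw [← aeval_algHom_apply, σx]
  have od : ∀ (P : Plk C F) z, ord (trEquiv σ P) (σ z) = ord P z := fun P z => ord_tr σ P z
  have vl : ∀ (P : Plk C F) z c, Val P z c → Val (trEquiv σ P) (σ z) c := fun P z c h => by
    have e : σ z - algebraMap C F c = σ (z - algebraMap C F c) := by rw [map_sub, σ.commutes]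
    rcases mem_Mge.1 h with h | h
    · exact mem_Mge.2 (Or.inl (by rw [e, h, map_zero]))
    · exact mem_Mge.2 (Or.inr (by rw [e, od]; exact h))
  have vx : ∀ (P : Plk C F) a, Val P x a → Val (trEquiv σ P) x a := fun P a h => σx ▸ vl P x a h
  have dp : dg (pol C x) = 2 := by rw [dg_pol hx, h2]; rfl
  have dZ : ∀ a : C, dg (Z x a) = 2 := fun a => by rw [Z, map_add, dg_dv, dp, zero_add]
  have Z0 : ∀ (a : C) P, 0 ≤ Z x a P := fun a P => by rw [Z_apply hx]; omega
  have Zp : ∀ (a : C) P, Val P x a → 0 < Z x a P := fun a P h => by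
    have := (val_pos hx).1 h
    rw [Z_apply hx]
    omega
  have c1 : ∀ P : Plk C F, ord P x < 0 →
      pol C x = Finsupp.single P 1 + Finsupp.single P 1 ∧ trEquiv σ P = P := fun P h => by
    have h1 := (ord_aeval_pole h f0).2
    rw [← hy, ord_pow] at h1
    obtain ⟨m, hm⟩ := ho
    rw [hm] at h1
    push_cast at h1
    have h3 : ord P x = 2 * (ord P y - m * ord P x) := by linarith
    obtain ⟨a1, a2⟩ := two_eq (D := pol C x) (pol_nonneg x) dp (p := P) (by rw [pol_apply]; omega)
    refine ⟨a1, a2 _ ?_⟩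
    have := od P x
    rw [σx] at this
    rw [pol_apply]
    omega
  have c2 : ∀ (P : Plk C F) a, Val P x a → f.eval a = 0 →
      Z x a = Finsupp.single P 1 + Finsupp.single P 1 ∧ trEquiv σ P = P := fun P a h e => by
    obtain ⟨g, hg⟩ := dvd_iff_isRoot.2 e
    have g0 : g.eval a ≠ 0 := fun e' => by
      obtain ⟨g', hg'⟩ := dvd_iff_isRoot.2 e'
      exact not_isUnit_X_sub_C a (hs _ ⟨g', by rw [hg, hg', mul_assoc]⟩)
    have h1 := (val_pos hx).1 h
    obtain ⟨a1, a2⟩ := (val_aeval h g).unit g0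
    have h3 := congrArg (ord P) hy
    rw [ord_pow, hg, map_mul, map_sub, aeval_X, aeval_C, ord_mul P (sub_ne_zero.2 (hx a)) a1,
      a2] at h3
    push_cast at h3
    obtain ⟨b1, b2⟩ := two_eq (Z0 a) (dZ a) (p := P) (by rw [Z_apply hx]; omega)
    exact ⟨b1, b2 _ (Zp a _ (vx P a h))⟩
  have c3 : ∀ (P : Plk C F) a, Val P x a → f.eval a ≠ 0 →
      Z x a = Finsupp.single P 1 + Finsupp.single (trEquiv σ P) 1 ∧
      ord P (x - algebraMap C F a) = 1 ∧
      (∃ b, Val P y b ∧ b ^ 2 = f.eval a ∧ Val (trEquiv σ P) y (-b)) ∧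
      ∀ Q, Val Q x a → Q = P ∨ Q = trEquiv σ P := fun P a h e => by
    have h1 := ((val_aeval h f).unit e).2
    rw [← hy, ord_pow] at h1
    push_cast at h1
    obtain ⟨b, hb⟩ := _root_.P027M.K.exists_val (P := P) (z := y) (mem_Mge.2 (Or.inr (by omega)))
    have b2 : b ^ 2 = f.eval a := (hb.pow 2).unique (hy ▸ val_aeval h f)
    have b3 : Val (trEquiv σ P) y (-b) := by
      have := (vl P y b hb).neg
      rwa [σy, neg_neg] at this
    have hn : P ≠ trEquiv σ P := fun d => by
      have d1 : b = -b := hb.unique (d ▸ b3)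
      have d2 : 2 * b = 0 := by linear_combination d1
      rw [(mul_eq_zero.1 d2).resolve_left two] at b2
      exact e (by rw [← b2]; ring)
    obtain ⟨a1, a2, a3⟩ := pair_eq (Z0 a) (dZ a) hn (Zp a P h) (Zp a _ (vx P a h))
    rw [Z_apply hx] at a2
    exact ⟨a1, by omega, ⟨b, hb, b2, b3⟩, fun Q hQ => a3 Q (Zp a Q hQ)⟩
  have one : ∀ P : Plk C F,
      Finsupp.single P 1 + Finsupp.single (trEquiv σ P) 1 - pol C x ∈ prn C F := fun P => by
    by_cases c : ord P x < 0
    · rw [(c1 P c).2, ← (c1 P c).1, sub_self]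
      exact zero_mem _
    · obtain ⟨a, h⟩ := _root_.P027M.K.exists_val (P := P) (z := x) (mem_Mge.2 (Or.inr (by omega)))
      have e : Z x a = Finsupp.single P 1 + Finsupp.single (trEquiv σ P) 1 := by
        by_cases d : f.eval a = 0
        · rw [(c2 P a h d).2]
          exact (c2 P a h d).1
        · exact (c3 P a h d).1
      rw [← e, Z, add_sub_cancel_right]
      exact ⟨_, sub_ne_zero.2 (hx a), rfl⟩
  have all : ∀ D : Plk C F →₀ ℤ,
      D + Finsupp.mapDomain (trEquiv σ) D - dg D • pol C x ∈ prn C F := fun D => by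
    induction D using Finsupp.induction_linear with
    | zero => simp
    | add D E hD hE =>
      have := add_mem hD hE
      rw [Finsupp.mapDomain_add, map_add, add_smul]
      convert this using 1
      abel
    | single P n =>
      have := zsmul_mem (one P) n
      rw [Finsupp.mapDomain_single, dg_sgl]
      convert this using 1
      rw [smul_sub, smul_add, Finsupp.smul_single, Finsupp.smul_single, smul_eq_mul, mul_one]
  refine ⟨trEquiv σ, fun P α β => ?_, fun P h => (c1 P h).2, fun P a h e => (c2 P a h e).2, vx,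
    fun P a h e => (c3 P a h e).2, fun D h => ?_⟩
  · rw [← od P, map_sub, map_mul, σa, σa, σy, mul_neg, sub_neg_eq_add]
  · have := all D
    rwa [h, zero_smul, sub_zero] at this

end Vale.Agent.P027M.D
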