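import Vale.Agent.P027M.D.Geo

/-!
# P027, route M, block D: reduction keeps the dimension
-/

set_option linter.all false

noncomputable section

namespace Vale.Agent.P027M.D

open Polynomial IntermediateField Vale.Agent.P019P

namespace LatAux

theorem ev_mon {R F : Type*} [CommRing R] [CommRing F] (φ : R →+* F) (x θ : F) (i j : ℕ) (c : R) :
    ev φ x θ (monomial i (monomial j c)) = φ c * (x ^ j * θ ^ i) := by
  simp [ev, eval₂_monomial, mul_assoc]

theorem ev_C {R F : Type*} [CommRing R] [CommRing F] (φ : R →+* F) (x θ : F) (β : R[X]) :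
    ev φ x θ (Polynomial.C β) = eval₂ φ x β := by
  simp [ev]

theorem ne_zero {R k G : Type} [CommRing R] [Field k] [Field G] [Algebra k G] [CFF k G] {x : G}
    (nc : ∀ a : k, x ≠ algebraMap k G a) (φ : R →+* k) {β : R[X]} (h : β.map φ ≠ 0) :
    eval₂ ((algebraMap k G).comp φ) x β ≠ 0 := fun e =>
  h (transcendental_iff.1 (finite_of_notMem nc).1 _ (by rw [aeval_def, eval₂_map]; exact e))

variable {C F : Type} [Field C] [Field F] [Algebra C F] {O : ValuationSubring C}

theorem mem_range {d : ℕ} (x θ : F) {A : O[X][X]} (h : A.degree < d) : ev (io O F) x θ A ∈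
    LinearMap.range (Finsupp.linearCombination C fun p : Fin d × ℕ => x ^ p.2 * θ ^ (p.1 : ℕ)) := by
  rw [A.as_sum_support, map_sum]
  refine Submodule.sum_mem _ fun i hi => ?_
  have hd : i < d := by exact_mod_cast (le_degree_of_mem_supp i hi).trans_lt h
  rw [(A.coeff i).as_sum_support, map_sum, map_sum]
  refine Submodule.sum_mem _ fun j _ => ⟨Finsupp.single (⟨i, hd⟩, j) ((A.coeff i).coeff j : C), ?_⟩
  rw [ev_mon, Finsupp.linearCombination_single, Algebra.smul_def]
  rfl

end LatAux

open LatAux in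
theorem lat (bas : BAS) (minp : MINP) (ech : ECH) : LAT := by
  intro C κ F G _ _ _ _ _ _ _ _ O r hr ch b V _
  classical
  set n := Module.finrank C V with hn
  set d := ch.Φ.natDegree with hd
  set L := Finsupp.linearCombination C fun p : Fin d × ℕ => ch.x ^ p.2 * ch.th ^ (p.1 : ℕ) with hL
  let B := Module.finBasis C V
  have B0 : ∀ k, (B k : F) ≠ 0 := fun k e => B.ne_zero k (Subtype.ext e)
  choose c A β c0 hA hA' hβ e using fun k => (bas C κ F O r hr ch).2.2 (B k) (B0 k)
  have β0 : (∏ k, β k).map r ≠ 0 := by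
    rw [Polynomial.map_prod]
    exact Finset.prod_ne_zero_iff.2 fun k _ => hβ k
  have y0 : eval₂ (io O F) ch.x (∏ k, β k) ≠ 0 := ne_zero ch.nc O.subtype fun q => β0 (by
    rw [(Polynomial.map_eq_zero_iff O.subtype_injective).1 q, Polynomial.map_zero])
  have yb : eval₂ (ib r G) b.x (∏ k, β k) ≠ 0 := ne_zero b.nc r β0
  set y := eval₂ (io O F) ch.x (∏ k, β k) with hy
  have ex : ∀ k, ∃ u, L u = y * B k := fun k => by
    have a1 : (A k * Polynomial.C (∏ l ∈ Finset.univ.erase k, β l)).degree < d := by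
      refine (degree_mul_le _ _).trans_lt ((add_le_add le_rfl degree_C_le).trans_lt ?_)
      rw [add_zero, hd, ← degree_eq_natDegree ch.monic.ne_zero]
      exact hA k
    obtain ⟨u, hu⟩ := mem_range ch.x ch.th a1
    refine ⟨c k • u, ?_⟩
    rw [map_smul, hL, hu, map_mul, ev_C, Algebra.smul_def, ← mul_assoc, ← e k, hy,
      ← Finset.mul_prod_erase _ β (Finset.mem_univ k), eval₂_mul]
    ring
  choose u hu using ex
  have li : LinearIndependent C u := by
    refine LinearIndependent.of_comp L ?_
    have := (B.linearIndependent.map' V.subtype V.ker_subtype).map' (LinearMap.mulLeft C y)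
      (LinearMap.ker_eq_bot.2 (mul_right_injective₀ y0))
    have q : L ∘ u = LinearMap.mulLeft C y ∘ V.subtype ∘ B := funext hu
    rw [q]
    exact this
  haveI := FiniteDimensional.span_of_finite C (Set.finite_range u)
  have rk : Module.finrank C (Submodule.span C (Set.range u)) = n := by
    rw [finrank_span_eq_card li, Fintype.card_fin]
  obtain ⟨v, f, v1, v2, v3⟩ : ∃ (v : Fin n → Fin d × ℕ →₀ C) (f : Fin n → Fin d × ℕ),
      (∀ k, v k ∈ Submodule.span C (Set.range u)) ∧ (∀ k i, v k i ∈ O) ∧
        ∀ k l, v k (f l) = if k = l then 1 else 0 := by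
    rw [← rk]
    exact ech C _ O _
  let s := Finset.univ.biUnion fun k => (v k).support
  let P : Fin n → O[X][X] := fun k => ∑ p ∈ s, monomial p.1 (monomial p.2 ⟨v k p, v2 k p⟩)
  have eP : ∀ k, ev (io O F) ch.x ch.th (P k) = L (v k) := fun k => by
    rw [map_sum, hL, Finsupp.linearCombination_apply, Finsupp.sum_of_support_subset _
      (Finset.subset_biUnion_of_mem (fun k => (v k).support) (Finset.mem_univ k))
        (fun p a => a • (ch.x ^ p.2 * ch.th ^ (p.1 : ℕ))) fun _ _ => zero_smul _ _]
    refine Finset.sum_congr rfl fun p _ => ?_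
    rw [ev_mon, Algebra.smul_def]
    rfl
  have inV : ∀ a ∈ Submodule.span C (Set.range u), L a / y ∈ V := fun a ha => by
    induction ha using Submodule.span_induction with
    | mem a h =>
      obtain ⟨k, rfl⟩ := h
      rw [hu, mul_div_cancel_left₀ _ y0]
      exact (B k).2
    | zero => simp
    | add a a' _ _ h h' => rw [map_add, add_div]; exact V.add_mem h h'
    | smul t a _ h => rw [map_smul, smul_div_assoc]; exact V.smul_mem t h
  refine ⟨fun k => L (v k) / y,
    fun k => ev (ib r G) b.x b.th (P k) / eval₂ (ib r G) b.x (∏ k, β k),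
    fun k => ⟨inV _ (v1 k), P k, ∏ k, β k, β0, by rw [eP, div_mul_cancel₀ _ y0],
      div_mul_cancel₀ _ yb⟩, Fintype.linearIndependent_iff.2 fun g hg l => ?_⟩
  have ind : LinearIndependent κ fun p : Fin d × ℕ => b.x ^ p.2 * b.th ^ (p.1 : ℕ) := by
    refine indep_pow_mul (finite_of_notMem b.nc).1 (y := fun i : Fin d => b.th ^ (i : ℕ)) ?_
    have q : (minpoly κ⟮b.x⟯ b.th).natDegree = d := by
      rw [(minp C κ F O r hr ch).2 G b, ch.monic.natDegree_map]
    rw [← q]
    exact linearIndependent_pow b.th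
  have z : ∑ p ∈ s, (∑ k, g k * r ⟨v k p, v2 k p⟩) • (b.x ^ p.2 * b.th ^ (p.1 : ℕ)) = 0 := by
    simp only [← smul_div_assoc, ← Finset.sum_div] at hg
    rw [← (div_eq_zero_iff.1 hg).resolve_right yb]
    simp only [P, map_sum, ev_mon, Finset.sum_smul, Finset.smul_sum]
    rw [Finset.sum_comm]
    refine Finset.sum_congr rfl fun k _ => Finset.sum_congr rfl fun p _ => ?_
    rw [mul_smul, Algebra.smul_def (r _)]
    rfl
  have := linearIndependent_iff'.1 ind s _ z (f l) (Finset.mem_biUnion.2 ⟨l, Finset.mem_univ _,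
    Finsupp.mem_support_iff.2 (by rw [v3, if_pos rfl]; exact one_ne_zero)⟩)
  rw [Finset.sum_eq_single l (fun k _ h => by
    rw [show (⟨v k (f l), v2 k _⟩ : O) = 0 from Subtype.ext (by simp [v3, h]), map_zero, mul_zero])
    (by simp), show (⟨v l (f l), v2 l _⟩ : O) = 1 from Subtype.ext (by simp [v3]), map_one,
    mul_one] at this
  exact this

end Vale.Agent.P027M.D
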