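import Vale.Agent.P027M.D.Bas0

/-!
# P027, route M, block D (geometry): the minimal polynomial of a chart
-/

set_option linter.all false

noncomputable section

namespace Vale.Agent.P027M.D

open Polynomial IntermediateField Vale.Agent.P019P P025H492 P025H816

namespace Minp

variable {R k L : Type} [CommRing R] [Field k] [Field L] [Algebra k L]

theorem cmp (φ : R →+* k) (x : L) :
    (algebraMap k⟮x⟯ L).comp (eval₂RingHom ((algebraMap k k⟮x⟯).comp φ) (AdjoinSimple.gen k x)) =
      eval₂RingHom ((algebraMap k L).comp φ) x := by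
  refine Polynomial.ringHom_ext (fun a => ?_) ?_
  · simp only [RingHom.comp_apply, coe_eval₂RingHom, eval₂_C]
    rfl
  · simp only [RingHom.comp_apply, coe_eval₂RingHom, eval₂_X]
    rfl

theorem aev (φ : R →+* k) (x θ : L) (A : R[X][X]) :
    aeval θ (A.map (eval₂RingHom ((algebraMap k k⟮x⟯).comp φ) (AdjoinSimple.gen k x))) =
      ev ((algebraMap k L).comp φ) x θ A := by
  rw [aeval_def, eval₂_map, cmp, ev_eq]

end Minp

open Minp

theorem minp (bas : BAS) : MINP := by
  intro C κ F _ _ _ _ _ O r hr ch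
  refine ⟨?_, fun G _ _ _ b => ?_⟩
  · haveI : FiniteDimensional C⟮ch.x⟯ F := (finite_of_notMem ch.nc).2
    have top : C⟮ch.x⟯⟮ch.th⟯ = ⊤ := by
      refine eq_top_iff.2 fun z _ => ?_
      by_cases hz : z = 0
      · rw [hz]; exact zero_mem _
      obtain ⟨c, A, β, -, -, -, hβ, e⟩ := (bas C κ F O r hr ch).2.2 z hz
      rw [eq_div_of_mul_eq (ch.den_ne hβ) e]
      have m : ∀ A : O[X][X], ev (io O F) ch.x ch.th A ∈ C⟮ch.x⟯⟮ch.th⟯ := fun A => by
        rw [io, ← aev]
        exact algebra_adjoin_le_adjoin _ _ (aeval_mem_adjoin_singleton _ _)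
      refine div_mem (mul_mem ?_ (m A)) (ev_C (φ := io O F) (x := ch.x) (θ := ch.th) β ▸ m _)
      rw [IsScalarTower.algebraMap_apply C C⟮ch.x⟯ F c]
      exact IntermediateField.algebraMap_mem _ _
    have hm := ch.monic.map (eval₂RingHom (io O C⟮ch.x⟯) (AdjoinSimple.gen C ch.x))
    refine (eq_of_monic_of_dvd_of_natDegree_le (minpoly.monic (IsIntegral.of_finite _ _)) hm
      (minpoly.dvd _ _ ((aev O.subtype ch.x ch.th ch.Φ).trans ch.root)) ?_).symm
    rw [ch.monic.natDegree_map, ch.deg,
      (Field.primitive_element_iff_minpoly_natDegree_eq _ _).1 top]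
  · have tr : Transcendental κ b.x := (finite_of_notMem b.nc).1
    have e : eval₂RingHom (ib r κ⟮b.x⟯) (AdjoinSimple.gen κ b.x) =
        ((RatFunc.algEquivOfTranscendental b.x tr).toRingEquiv : RatFunc κ →+* κ⟮b.x⟯).comp
          ((algebraMap κ[X] (RatFunc κ)).comp (mapRingHom r)) := by
      refine Polynomial.ringHom_ext (fun a => ?_) ?_
      · simp [ib]
      · exact Subtype.ext (by simp)
    refine (minpoly.eq_of_irreducible_of_monic ?_ ((aev r b.x b.th ch.Φ).trans b.root)
      (ch.monic.map _)).symm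
    rw [ib] at e
    rw [e, ← Polynomial.map_map]
    exact (MulEquiv.irreducible_iff
      (mapEquiv (RatFunc.algEquivOfTranscendental b.x tr).toRingEquiv)).2 ch.irr

end Vale.Agent.P027M.D
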