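import Vale.Agent.P027M.D.Geo

/-! # P027, route M, block D: the moving lemma for chains -/

set_option linter.all false

noncomputable section

namespace Vale.Agent.P027M.D

open Polynomial IntermediateField Vale.Agent.P019P P025H492 P025H816
open _root_.P027M.K (Val)
open scoped Classical

namespace Movc

variable {C κ F J : Type} [Field C] [Field κ] [Field F] [Algebra C F] [CFF C F] [Fintype J]
  {O : ValuationSubring C} {r : O →+* κ}

theorem v_one (hr : Function.Surjective r) {a : O} (h : r a ≠ 0) : O.valuation a = 1 := by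
  rw [← ValuationSubring.valuation_eq_one_iff]
  by_contra c
  apply h
  rw [← RingHom.mem_ker, IsLocalRing.ker_eq_maximalIdeal r hr]
  exact c

theorem val_aeval {P : Plk C F} {x : F} {a : C} (h : Val P x a) (p : C[X]) :
    Val P (aeval x p) (p.eval a) := by
  induction p using Polynomial.induction_on' with
  | add p q hp hq => rw [map_add, eval_add]; exact hp.add hq
  | monomial n c =>
    rw [aeval_monomial, eval_monomial]
    exact (_root_.P027M.K.Val.const P c).mul (h.pow n)

/-- the movable divisors -/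
def Mv (Gd : J → Plk C F → Prop) : AddSubgroup (Plk C F →₀ ℤ) where
  carrier := {D | ∃ (u : F) (E : J → Plk C F →₀ ℤ), u ≠ 0 ∧ D + dv C u = ∑ j, E j ∧
    ∀ j, dg (E j) = 0 ∧ ∀ P ∈ (E j).support, Gd j P}
  zero_mem' := ⟨1, 0, one_ne_zero, by
    ext P
    simp [dv_apply, ord_one], fun j => ⟨map_zero _, by simp⟩⟩
  add_mem' := by
    rintro D D' ⟨u, E, hu, e, h⟩ ⟨u', E', hu', e', h'⟩
    refine ⟨u * u', E + E', mul_ne_zero hu hu', ?_, fun j => ⟨?_, fun P hP => ?_⟩⟩
    · simp only [Pi.add_apply, Finset.sum_add_distrib]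
      rw [dv_mul hu hu', ← e, ← e']
      abel
    · rw [Pi.add_apply, map_add, (h j).1, (h' j).1, add_zero]
    · rcases Finset.mem_union.1 (Finsupp.support_add hP) with k | k
      · exact (h j).2 P k
      · exact (h' j).2 P k
  neg_mem' := by
    rintro D ⟨u, E, hu, e, h⟩
    refine ⟨u⁻¹, -E, inv_ne_zero hu, ?_, fun j => ⟨?_, fun P hP => ?_⟩⟩
    · simp only [Pi.neg_apply, Finset.sum_neg_distrib]
      rw [dv_inv, ← e]
      abel
    · rw [Pi.neg_apply, map_neg, (h j).1, neg_zero]
    · rw [Pi.neg_apply, Finsupp.support_neg] at hP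
      exact (h j).2 P hP

theorem prn_le (Gd : J → Plk C F → Prop) : prn C F ≤ Mv Gd := by
  rintro _ ⟨z, hz, rfl⟩
  exact ⟨z⁻¹, 0, inv_ne_zero hz, by simp [dv_inv], fun j => ⟨map_zero _, by simp⟩⟩

theorem pair_mem {Gd : J → Plk C F → Prop} {j : J} {P Q : Plk C F} (h : Gd j P) (h' : Gd j Q) :
    Finsupp.single P 1 - Finsupp.single Q 1 ∈ Mv Gd := by
  refine ⟨1, Pi.single j (Finsupp.single P 1 - Finsupp.single Q 1), one_ne_zero, ?_, fun i => ?_⟩
  · rw [Finset.sum_pi_single', if_pos (Finset.mem_univ _)]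
    ext R
    simp [dv_apply, ord_one]
  · by_cases e : i = j
    · subst e
      rw [Pi.single_eq_same]
      refine ⟨by rw [map_sub]; simp [dg], fun R hR => ?_⟩
      rw [Finsupp.mem_support_iff, Finsupp.sub_apply] at hR
      by_cases e1 : R = P
      · rwa [e1]
      · by_cases e2 : R = Q
        · rwa [e2]
        · rw [Finsupp.single_eq_of_ne e1, Finsupp.single_eq_of_ne e2, sub_zero] at hR
          exact absurd rfl hR
    · rw [Pi.single_eq_of_ne e]
      exact ⟨map_zero _, by simp⟩

theorem del_mem (M : AddSubgroup (Plk C F →₀ ℤ)) (ι : Plk C F → Plk C F) (E : Plk C F →₀ ℤ)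
    (h : ∀ P, E P ≠ 0 → Finsupp.single P 1 - Finsupp.single (ι P) 1 ∈ M) :
    E - Finsupp.mapDomain ι E ∈ M := by
  have e : E - Finsupp.mapDomain ι E =
      ∑ P ∈ E.support, E P • (Finsupp.single P 1 - Finsupp.single (ι P) 1) := by
    simp only [smul_sub, Finset.sum_sub_distrib, Finsupp.smul_single, smul_eq_mul, mul_one]
    congr 1
    exact (Finsupp.sum_single E).symm
  rw [e]
  exact M.sum_mem fun P hP => M.zsmul_mem (h P (Finsupp.mem_support_iff.1 hP)) _

variable {c : C} {T : Finset C} {ρ η : J → C}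

theorem good (hr : Function.Surjective r) (h : Circ O J c T ρ η) {x : F} {S : Finset κ} {j : J}
    {a : O} (a0 : r a ≠ 0) (aS : r a ∉ S) {P : Plk C F} (hP : Val P x (ρ j * a)) :
    Good r (fun j => algebraMap C F (ρ j)⁻¹ * x) S j P := by
  have v : ∀ i, Val P (algebraMap C F (ρ i)⁻¹ * x) ((ρ i)⁻¹ * (ρ j * a)) := fun i =>
    (_root_.P027M.K.Val.const P _).mul hP
  refine ⟨⟨r a, aS, a, rfl, ?_⟩, ?_⟩
  · have := v j
    rwa [inv_mul_cancel_left₀ (h.ρ0 j)] at this
  · rintro i hi s hs ⟨a', rfl, ha'⟩
    have e : ρ i * a' = ρ j * a := by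
      rw [ha'.unique (v i), mul_inv_cancel_left₀ (h.ρ0 i)]
    have e2 := congrArg O.valuation e
    rw [map_mul, map_mul, v_one hr hs, v_one hr a0, mul_one, mul_one] at e2
    exact hi (h.inj i j e2)

theorem zero_notMem (h : Circ O J c T ρ η) : (0 : C) ∉ T := by
  intro k
  obtain ⟨j, e⟩ := h.on 0 k
  rw [map_zero] at e
  exact h.ρ0 j ((Valuation.zero_iff _).1 e.symm)

theorem even_card (h : Circ O J c T ρ η) : Even T.card := by
  have e : T = Finset.univ.biUnion fun j => T.filter fun z => O.valuation z = O.valuation (ρ j) := by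
    ext z
    simp only [Finset.mem_biUnion, Finset.mem_univ, true_and, Finset.mem_filter]
    exact ⟨fun k => (h.on z k).imp fun j e => ⟨k, e⟩, fun ⟨_, k, _⟩ => k⟩
  rw [e, Finset.card_biUnion]
  · exact Finset.even_sum _ fun j _ => by convert h.even j
  · intro i _ j _ k
    refine Finset.disjoint_left.2 fun z h1 h2 => k (h.inj i j ?_)
    rw [← (Finset.mem_filter.1 h1).2, (Finset.mem_filter.1 h2).2]

theorem fch_eq (h : Circ O J c T ρ η) :
    fch c T = Polynomial.C c * ∏ z ∈ insert 0 T, (X - Polynomial.C z) := by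
  rw [Finset.prod_insert (zero_notMem h), map_zero, sub_zero, fch, mul_assoc]

theorem odd_deg (h : Circ O J c T ρ η) : Odd (fch c T).natDegree := by
  rw [fch_eq h, natDegree_C_mul h.c0, natDegree_prod_of_monic _ _ fun z _ => monic_X_sub_C z]
  simp only [natDegree_X_sub_C, Finset.sum_const, smul_eq_mul, mul_one]
  rw [Finset.card_insert_of_notMem (zero_notMem h)]
  exact (even_card h).add_one

theorem sqf (h : Circ O J c T ρ η) : Squarefree (fch c T) := by
  rw [fch_eq h, (associated_unit_mul_left _ _ (isUnit_C.2 h.c0.isUnit)).squarefree_iff]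
  exact (separable_prod_X_sub_C_iff'.2 fun _ _ _ _ e => e).squarefree

end Movc

open Movc in
theorem movc (hL : LAM) (hI : IOT) : MOVC := by
  intro C κ F J _ _ _ _ _ _ O r hr c T ρ η h x y nc fr hy S
  haveI : IsAlgClosed C := CFF.ac F
  have two : (2 : C) ≠ 0 := fun e => by
    have := h.two
    rw [e, map_zero] at this
    exact zero_ne_one this
  obtain ⟨ι, i1, i2, i3, i4, i5, i6⟩ := hI C F x y (fch c T) two nc fr hy (odd_deg h) (sqf h)
  let M := Mv (Good r (fun j => algebraMap C F (ρ j)⁻¹ * x) S)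
  have easy : ∀ Q : Plk C F, (∀ z, Val Q x z → (fch c T).eval z ≠ 0 → GdPt r ρ S z) →
      Finsupp.single Q 1 - Finsupp.single (ι Q) 1 ∈ M := by
    intro Q hQ
    by_cases e : ι Q = Q
    · rw [e, sub_self]
      exact M.zero_mem
    have v := _root_.P027M.K.val_vl (P := Q) (z := x) (not_lt.1 fun k => e (i2 Q k))
    obtain ⟨j, a, e1, a0, aS⟩ := hQ _ v fun k => e (i3 Q _ v k)
    rw [e1] at v
    exact pair_mem (good hr h a0 aS v) (good hr h a0 aS (i4 Q _ v))
  have all : ∀ P : Plk C F, Finsupp.single P 1 - Finsupp.single (ι P) 1 ∈ M := by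
    intro P
    by_cases k : ∀ z, Val P x z → (fch c T).eval z ≠ 0 → GdPt r ρ S z
    · exact easy P k
    push Not at k
    obtain ⟨a, va, fa, ga⟩ := k
    obtain ⟨o1, ⟨b, vb, b2, -⟩, two⟩ := i5 P a va fa
    have b0 : b ≠ 0 := fun e => fa (by rw [← b2, e, sq, mul_zero])
    obtain ⟨α, β, e1, e2, e3⟩ := hL C κ J O r hr c T ρ η h S a b b0 b2 ga
    set N := fch c T * β ^ 2 - α ^ 2 with hN
    have N0 : N ≠ 0 := fun e => by
      rw [e, rootMultiplicity_zero] at e2
      exact zero_ne_one e2
    obtain ⟨q, hq, q0⟩ := exists_eq_pow_rootMultiplicity_mul_and_not_dvd N N0 a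
    rw [e2, pow_one] at hq
    rw [dvd_iff_isRoot] at q0
    obtain ⟨q1, q2⟩ := (val_aeval va q).unit q0
    have x0 : x - algebraMap C F a ≠ 0 := sub_ne_zero.2 (nc a)
    have eN : aeval x N = (x - algebraMap C F a) * aeval x q := by
      rw [hq, map_mul, map_sub, aeval_X, aeval_C]
    have eh : (aeval x α - aeval x β * y) * (aeval x α + aeval x β * y) = -aeval x N := by
      rw [hN, map_sub, map_mul, map_pow, map_pow, ← hy]
      ring
    have n0 : (aeval x α - aeval x β * y) * (aeval x α + aeval x β * y) ≠ 0 := by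
      rw [eh, eN, neg_ne_zero]
      exact mul_ne_zero x0 q1
    have h0 := left_ne_zero_of_mul n0
    have h0' := right_ne_zero_of_mul n0
    have s1 : ord P (aeval x α - aeval x β * y) + ord P (aeval x α + aeval x β * y) = 1 := by
      rw [← ord_mul P h0 h0', eh, ord_neg, eN, ord_mul P x0 q1, o1, q2, add_zero]
    have s2 : 1 ≤ ord P (aeval x α - aeval x β * y) := by
      have := (val_aeval va α).sub ((val_aeval va β).mul vb)
      rw [e1, mul_comm b, sub_self, _root_.P027M.K.Val.zero_iff, mem_Mge] at this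
      exact this.resolve_left h0
    have s3 : 0 ≤ ord P (aeval x α + aeval x β * y) :=
      (mem_Mge.1 ((val_aeval va α).add ((val_aeval va β).mul vb)).mem).resolve_left h0'
    have s4 : ord (ι P) (aeval x α - aeval x β * y) = 0 := by
      have := i1 P α (-β)
      rw [map_neg, neg_mul, ← sub_eq_add_neg, sub_neg_eq_add] at this
      omega
    have s5 : ord P (aeval x α - aeval x β * y) = 1 := by omega
    have ne : ι P ≠ P := fun e => by
      rw [e] at s4
      omega
    have md : Finsupp.mapDomain ι (dv C (aeval x α - aeval x β * y)) =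
        dv C (aeval x α + aeval x β * y) := by
      ext Q
      obtain ⟨Q, rfl⟩ := ι.surjective Q
      rw [Finsupp.mapDomain_apply ι.injective, dv_apply, dv_apply, i1]
    have m1 : dv C (aeval x α - aeval x β * y) -
        Finsupp.mapDomain ι (dv C (aeval x α - aeval x β * y)) ∈ M := by
      rw [md]
      exact M.sub_mem (prn_le _ ⟨_, h0, rfl⟩) (prn_le _ ⟨_, h0', rfl⟩)
    have m2 := del_mem M ι (dv C (aeval x α - aeval x β * y) - Finsupp.single P 1) fun Q hQ =>
      easy Q fun z vz fz => by
        rw [Finsupp.sub_apply, dv_apply] at hQ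
        have za : z ≠ a := by
          rintro rfl
          rcases two Q vz with e | e
          · rw [e, s5, Finsupp.single_eq_same] at hQ
            exact hQ (sub_self _)
          · rw [e, s4, Finsupp.single_eq_of_ne ne] at hQ
            exact hQ (sub_self _)
        have QP : Q ≠ P := fun e => za ((e ▸ vz).unique va)
        rw [Finsupp.single_eq_of_ne QP, sub_zero] at hQ
        obtain ⟨-, ⟨b', vb', -, -⟩, -⟩ := i5 Q z vz fz
        have w1 := (val_aeval vz α).sub ((val_aeval vz β).mul vb')
        have w2 := (val_aeval vz α).add ((val_aeval vz β).mul vb')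
        have w3 := w1.mul w2
        rw [eh] at w3
        have w4 := w3.unique (val_aeval vz N).neg
        have w5 : α.eval z - β.eval z * b' = 0 := by
          by_contra k
          exact hQ (w1.unit k).2
        rw [w5, zero_mul, eq_comm, neg_eq_zero] at w4
        rcases e3 z w4 with e | e | e
        · exact absurd e za
        · exact absurd (by rw [e, fch]; simp) fz
        · exact e
    have m3 := M.sub_mem m1 m2
    rw [Finsupp.mapDomain_sub, Finsupp.mapDomain_single] at m3
    convert m3 using 1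
    abel
  intro D hD
  obtain ⟨g, E, g0, E0, e⟩ := exists_dv (n := 2) (by exact_mod_cast two) hD
  have m := M.add_mem (M.add_mem (prn_le _ ⟨g, g0, rfl⟩) (prn_le _ (i6 E E0)))
    (del_mem M ι E fun P _ => all P)
  have e' : D = dv C g + (E + Finsupp.mapDomain ι E) + (E - Finsupp.mapDomain ι E) := by
    rw [e, two_nsmul]
    abel
  rw [← e'] at m
  exact m

end Vale.Agent.P027M.D
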