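import Vale.Agent.P027M.D.Bas0

/-!
# P027, route M, block D: the moving lemma for good reduction
-/

set_option linter.all false

noncomputable section

namespace Vale.Agent.P027M.D

open Polynomial IntermediateField Vale.Agent.P019P P025H492 P025H816
open _root_.P027M.K (Val)
open scoped Classical

namespace Movg

section bs

variable {α β : Type}

/-- the degree of the part of a divisor on the places with the property `p` -/
def bs (p : α → Prop) : (α →₀ ℤ) →+ ℤ := dg.comp (Finsupp.filterAddHom p)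

theorem bs_apply (p : α → Prop) (D : α →₀ ℤ) : bs p D = dg (D.filter p) := rfl

theorem bs_single (p : α → Prop) (Q : α) (n : ℤ) :
    bs p (Finsupp.single Q n) = if p Q then n else 0 := by
  rw [bs_apply]
  split_ifs with h
  · rw [Finsupp.filter_single_of_pos _ h, dg_sgl]
  · rw [Finsupp.filter_single_of_neg _ h, map_zero]

theorem bs_map (c : α → β) (p : β → Prop) (D : α →₀ ℤ) :
    bs (fun Q => p (c Q)) D = bs p (Finsupp.mapDomain c D) := by
  induction D using Finsupp.induction_linear with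
  | zero => simp
  | add f g hf hg => rw [map_add, Finsupp.mapDomain_add, map_add, hf, hg]
  | single Q n => rw [Finsupp.mapDomain_single, bs_single, bs_single]

theorem bs_all {p : α → Prop} {D : α →₀ ℤ} (h : ∀ Q, D Q ≠ 0 → p Q) : bs p D = dg D := by
  rw [bs_apply, (Finsupp.filter_eq_self_iff p D).2 h]

theorem bs_le {p : α → Prop} {D : α →₀ ℤ} (h : 0 ≤ D) {Z : Finset α} (hZ : ∀ Q, p Q → Q ∈ Z) :
    bs p D ≤ ∑ Q ∈ Z, D Q := by
  rw [bs_apply, dg_eq_sum (S := Z) fun Q hQ => Finsupp.filter_apply_neg _ _ fun c => hQ (hZ Q c)]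
  refine Finset.sum_le_sum fun Q _ => ?_
  rw [Finsupp.filter_apply]
  split_ifs
  exacts [le_rfl, h Q]

theorem le_bs {p : α → Prop} {D : α →₀ ℤ} (h : 0 ≤ D) {Q : α} (hQ : p Q) : D Q ≤ bs p D := by
  rw [bs_apply, ← dg_sgl Q (D Q)]
  refine dg_mono fun R => ?_
  rw [Finsupp.filter_apply, Finsupp.single_apply]
  split_ifs with a b b
  · rw [a]
  · exact absurd (a ▸ hQ) b
  · exact h R
  · exact le_rfl

end bs

theorem pole_of {k L : Type} [Field k] [Field L] [Algebra k L] [CFF k L] {x : L} {Q : Plk k L}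
    (h : pol k x Q ≠ 0) : ord Q x < 0 := by
  rw [pol_apply] at h
  omega

/-- the zeros of `x - a` -/
theorem fib {k L : Type} [Field k] [Field L] [Algebra k L] [CFF k L] {x : L}
    (hx : ∀ a : k, x ≠ algebraMap k L a) (a : k) {Q : Plk k L} (h : ¬ Val Q x a) :
    pol k x Q + ord Q (x - algebraMap k L a) = 0 := by
  rw [pol_apply]
  rcases lt_or_ge (ord Q x) 0 with c | c
  · have := (ord_add_of_lt (P := Q) (z := x) (w := algebraMap k L (-a))
      (fun e => hx 0 (by rw [e, map_zero])) (Or.inr (by rw [ord_const]; omega))).2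
    rw [map_neg, ← sub_eq_add_neg] at this
    omega
  · have v := P027M.K.val_vl c
    have := ((v.sub (Val.const Q a)).unit (sub_ne_zero.2 fun e => h (e ▸ v))).2
    omega

end Movg

open Movg in
/-- row MOVG -/
theorem movg (hC : CNT) (hL : LAT) (hR : RED) (hG : GEN) : MOVG := by
  intro C κ F G _ _ _ _ _ _ _ _ O r hr ch b hg S
  haveI : IsAlgClosed C := CFF.ac (k := C) (F := F)
  haveI := res_infinite hr
  have one : ∀ P : Plk C F, ∃ u : F, u ≠ 0 ∧ ∀ Q, cl r ch.x Q ∈ Finset.insertNone S →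
      Finsupp.single P (1 : ℤ) Q + ord Q u = 0 := by
    intro P
    by_cases hP : cl r ch.x P ∈ Finset.insertNone S
    swap
    · refine ⟨1, one_ne_zero, fun Q hQ => ?_⟩
      rw [ord_one, Finsupp.single_eq_of_ne (fun e : Q = P => hP (e ▸ hQ)), add_zero]
    have dF : dg (pol C ch.x) = ch.Φ.natDegree := by rw [dg_pol ch.nc, ch.deg]
    have dG : dg (pol κ b.x) = ch.Φ.natDegree := by rw [dg_pol b.nc, b.deg]
    have d1 : 1 ≤ (ch.Φ.natDegree : ℤ) := by
      haveI := (finite_of_notMem ch.nc).2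
      rw [ch.deg]
      exact_mod_cast Module.finrank_pos
    obtain ⟨N, n1, n2⟩ : ∃ N : ℕ, dg (can C F) + 2 < N * (ch.Φ.natDegree : ℤ) ∧
        dg (can κ G) + 2 < N * (ch.Φ.natDegree : ℤ) := by
      obtain ⟨N, hN⟩ := exists_nat_gt (max (dg (can C F)) (dg (can κ G)) + 2)
      have := le_mul_of_one_le_right (Nat.cast_nonneg N : (0 : ℤ) ≤ N) d1
      exact ⟨N, by omega, by omega⟩
    have eF : dg (N • pol C ch.x - Finsupp.single P 1) = N * (ch.Φ.natDegree : ℤ) - 1 := by
      rw [map_sub, map_nsmul, dF, dg_sgl, nsmul_eq_mul]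
    have eG : dg (N • pol κ b.x) = N * (ch.Φ.natDegree : ℤ) := by rw [map_nsmul, dG, nsmul_eq_mul]
    have rF := RR_large (D := N • pol C ch.x - Finsupp.single P 1) (by omega)
    have rG := RR_large (D := N • pol κ b.x) (by omega)
    obtain ⟨z, w, h1, h2⟩ := hL C κ F G O r hr ch b (LL C (N • pol C ch.x - Finsupp.single P 1))
    have le : LL C (N • pol C ch.x - Finsupp.single P 1) ≤ LL C (N • pol C ch.x) :=
      LL_mono (sub_le_self _ (Finsupp.single_nonneg.2 zero_le_one))
    have hU : Submodule.span κ (Set.range w) ≤ LL κ (N • pol κ b.x) := by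
      rw [Submodule.span_le]
      rintro _ ⟨k, rfl⟩
      exact hR C κ F G O r hr ch b (z k) (w k) N (h1 k).2 (le (h1 k).1)
    obtain ⟨w₀, m₀, n₀, s₀⟩ := hG κ G (N • pol κ b.x) ((pol κ b.x).support ∪
      S.biUnion fun s => (dv κ (b.x - algebraMap κ G s)).support) _ (by omega) hU (by
        rw [finrank_span_eq_card h2, Fintype.card_fin]
        omega)
    obtain ⟨c, rfl⟩ := (Submodule.mem_span_range_iff_exists_fun κ).1 m₀
    choose a ha using fun k => hr (c k)
    have rd : Rd b (∑ k, (a k : C) • z k) (∑ k, c k • w k) :=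
      Rd.sum _ fun k _ => ha k ▸ (h1 k).2.smul (a k)
    obtain ⟨z0, cn⟩ := hC C κ F G O r hr ch b _ _ rd n₀
    have e1 : 0 ≤ N • pol C ch.x - Finsupp.single P 1 + dv C (∑ k, (a k : C) • z k) := fun Q => by
      have := ((mem_LL.1 (Submodule.sum_mem _ fun k (_ : k ∈ Finset.univ) =>
        Submodule.smul_mem _ (a k : C) (h1 k).1)).resolve_left z0) Q
      rw [Finsupp.add_apply, dv_apply, Finsupp.coe_zero, Pi.zero_apply]
      omega
    have e2 : 0 ≤ N • pol κ b.x + dv κ (∑ k, c k • w k) := fun Q => by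
      have := ((mem_LL.1 (hU m₀)).resolve_left n₀) Q
      rw [Finsupp.add_apply, dv_apply, Finsupp.coe_zero, Pi.zero_apply]
      omega
    have e3 := (bs_le (p := fun Q => clb b.x Q ∈ Finset.insertNone S) e2 fun Q hQ => ?_).trans s₀
    swap
    · rcases e : clb b.x Q with _ | s
      · refine Finset.mem_union_left _ (Finsupp.mem_support_iff.2 ?_)
        have := clb_eq_none.1 e
        rw [pol_apply]
        omega
      · rw [e, Finset.some_mem_insertNone] at hQ
        refine Finset.mem_union_right _ (Finset.mem_biUnion.2 ⟨s, hQ, Finsupp.mem_support_iff.2 ?_⟩)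
        have := (clb_eq_some.1 e).resolve_left (sub_ne_zero.2 (b.nc s))
        rw [dv_apply]
        omega
    rw [map_add, map_nsmul, bs_all (fun Q hQ => by
      rw [clb_eq_none.2 (pole_of hQ)]; exact Finset.none_mem_insertNone), dG,
      bs_map (clb b.x) (· ∈ Finset.insertNone S), ← cn, ← bs_map] at e3
    obtain ⟨s, hs⟩ := Infinite.exists_notMem_finset S
    obtain ⟨t, rfl⟩ := hr s
    have x0 : ch.x - algebraMap C F t ≠ 0 := sub_ne_zero.2 (ch.nc _)
    refine ⟨(ch.x - algebraMap C F t) ^ N * (∑ k, (a k : C) • z k)⁻¹,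
      mul_ne_zero (pow_ne_zero _ x0) (inv_ne_zero z0), fun Q hQ => ?_⟩
    have e4 := le_bs (p := fun Q => cl r ch.x Q ∈ Finset.insertNone S) e1 hQ
    rw [map_add, map_sub, map_nsmul, bs_all (fun Q hQ => by
      rw [cl_of_pole (pole_of hQ)]; exact Finset.none_mem_insertNone), dF, bs_single,
      if_pos hP] at e4
    have e5 := e1 Q
    have e6 := fib ch.nc (t : C) (Q := Q) fun v => by
      rw [cl_eq_some.2 ⟨t, rfl, v⟩, Finset.some_mem_insertNone] at hQ
      exact hs hQ
    rw [ord_mul Q (pow_ne_zero _ x0) (inv_ne_zero z0), ord_pow, ord_inv,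
      eq_neg_of_add_eq_zero_right e6]
    simp only [Finsupp.add_apply, Finsupp.sub_apply, Finsupp.smul_apply, dv_apply, nsmul_eq_mul,
      Finsupp.coe_zero, Pi.zero_apply] at e3 e4 e5
    linarith
  have all : ∀ D : Plk C F →₀ ℤ, ∃ u : F, u ≠ 0 ∧ ∀ Q, cl r ch.x Q ∈ Finset.insertNone S →
      D Q + ord Q u = 0 := by
    intro D
    induction D using Finsupp.induction_linear with
    | zero => exact ⟨1, one_ne_zero, fun Q _ => by simp [ord_one]⟩
    | add f g hf hg =>
      obtain ⟨u, u0, hu⟩ := hf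
      obtain ⟨v, v0, hv⟩ := hg
      refine ⟨u * v, mul_ne_zero u0 v0, fun Q hQ => ?_⟩
      have := hu Q hQ
      have := hv Q hQ
      rw [ord_mul Q u0 v0, Finsupp.add_apply]
      omega
    | single P n =>
      obtain ⟨u, u0, hu⟩ := one P
      refine ⟨u ^ n, zpow_ne_zero _ u0, fun Q hQ => ?_⟩
      rw [ord_zpow, eq_neg_of_add_eq_zero_right (hu Q hQ), Finsupp.single_apply,
        Finsupp.single_apply]
      split_ifs <;> simp
  intro D hD
  obtain ⟨u, u0, hu⟩ := all D
  refine ⟨u, fun _ => D + dv C u, u0, by simp, fun j => ⟨by rw [map_add, hD, dg_dv, add_zero],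
    fun P hP => ⟨?_, fun i hi => absurd (Subsingleton.elim i j) hi⟩⟩⟩
  have h : cl r ch.x P ∉ Finset.insertNone S := fun c => Finsupp.mem_support_iff.1 hP
    (by rw [Finsupp.add_apply, dv_apply, hu P c])
  rcases e : cl r ch.x P with _ | s
  · exact absurd (e ▸ Finset.none_mem_insertNone) h
  · exact ⟨s, fun c => h (e ▸ Finset.some_mem_insertNone.2 c), cl_eq_some.1 e⟩

end Vale.Agent.P027M.D
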