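import Vale.Agent.P027M.D.Geo

/-!
# P027, route M, block D: the roots of an integral polynomial in a residue class
-/

set_option linter.all false

noncomputable section

namespace Vale.Agent.P027M.D

open Polynomial

namespace Np

variable {C : Type} [Field C] {O : ValuationSubring C}

theorem prod_eq (a : O) (s : Multiset C) (h : ∀ z ∈ s, z ∉ O) : ∃ Q : O[X],
    (s.map fun z => X - Polynomial.C z).prod =
      Polynomial.C (((s.map fun z => X - Polynomial.C z).prod).eval (a : C)) * Q.map O.subtype := by
  induction s using Multiset.induction_on with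
  | empty => exact ⟨1, by simp⟩
  | cons z s ih =>
    obtain ⟨Q, hQ⟩ := ih fun w hw => h w (Multiset.mem_cons_of_mem hw)
    have h1 : (a : C) - z ∉ O := fun c => h z (Multiset.mem_cons_self _ _) (by
      have := O.toSubring.sub_mem a.2 c
      simpa using this)
    have h2 : ((a : C) - z)⁻¹ ∈ O := (O.mem_or_inv_mem _).resolve_left h1
    have h3 : (a : C) - z ≠ 0 := fun c => h1 (c ▸ O.zero_mem)
    refine ⟨(Polynomial.C ⟨_, h2⟩ * (X - Polynomial.C a) + 1) * Q, ?_⟩
    have e : (X - Polynomial.C z : C[X]) = Polynomial.C ((a : C) - z) *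
        (Polynomial.C ((a : C) - z)⁻¹ * (X - Polynomial.C (a : C)) + 1) := by
      rw [mul_add, ← mul_assoc, ← map_mul, mul_inv_cancel₀ h3, map_one, map_sub]
      ring
    rw [Multiset.map_cons, Multiset.prod_cons, eval_mul, eval_sub, eval_X, eval_C, map_mul,
      Polynomial.map_mul]
    simp only [Polynomial.map_add, Polynomial.map_mul, Polynomial.map_sub, map_C, map_X,
      Polynomial.map_one]
    conv_lhs => rw [hQ, e]
    simp only [ValuationSubring.subtype_apply]
    ring

theorem no_root [IsAlgClosed C] (p : O[X]) (h : ∀ a : O, p.eval a ≠ 0) (a : O) :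
    ∃ Q : O[X], p = Polynomial.C (p.eval a) * Q := by
  have inj : Function.Injective O.subtype := Subtype.val_injective
  have ev : ∀ b : O, (p.map O.subtype).eval (b : C) = ((p.eval b : O) : C) := fun b =>
    eval_map_apply O.subtype b
  obtain ⟨Q, hQ⟩ := prod_eq a (p.map O.subtype).roots fun z hz c =>
    h ⟨z, c⟩ (inj ((ev ⟨z, c⟩).symm.trans (isRoot_of_mem_roots hz)))
  refine ⟨Q, map_injective O.subtype inj ?_⟩
  have e := (IsAlgClosed.splits (p.map O.subtype)).eq_prod_roots
  rw [Polynomial.map_mul, map_C]
  have e2 : O.subtype (p.eval a) = (p.map O.subtype).leadingCoeff *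
      (((p.map O.subtype).roots.map fun z => X - Polynomial.C z).prod).eval (a : C) := by
    refine (ev a).symm.trans ?_
    conv_lhs => rw [e]
    rw [eval_mul, eval_C]
  rw [e2, map_mul, mul_assoc, ← hQ]
  exact e

end Np

theorem np : NP := by
  intro C κ _ _ _ _ O r hr p
  induction hn : p.natDegree using Nat.strong_induction_on generalizing p with
  | _ n ih =>
    intro hp
    by_cases c : ∃ a : O, p.eval a = 0
    · obtain ⟨a, ha⟩ := c
      obtain ⟨p₁, e⟩ := dvd_iff_isRoot.2 ha
      have e1 : p.map r = (X - Polynomial.C (r a)) * p₁.map r := by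
        rw [e, Polynomial.map_mul, Polynomial.map_sub, map_X, map_C]
      have h1 : p₁.map r ≠ 0 := fun d => hp (by rw [e1, d, mul_zero])
      have h2 : p₁ ≠ 0 := fun d => h1 (by rw [d, Polynomial.map_zero])
      obtain ⟨R, q, a1, a2, a3⟩ := ih p₁.natDegree (by
        rw [← hn, e, natDegree_mul (X_sub_C_ne_zero a) h2, natDegree_X_sub_C]
        omega) p₁ rfl h1
      refine ⟨a ::ₘ R, q, ?_, a2, fun s => ?_⟩
      · rw [Multiset.map_cons, Multiset.prod_cons, mul_assoc, ← a1, e]
      · rw [e1, rootMultiplicity_mul (e1 ▸ hp), Multiset.map_cons, Multiset.count_cons, a3,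
          rootMultiplicity_X_sub_C, add_comm]
    · have k : ∀ a : O, r (p.eval a) ≠ 0 := fun a d => by
        obtain ⟨Q, e⟩ := Np.no_root p (fun b hb => c ⟨b, hb⟩) a
        exact hp (by rw [e, Polynomial.map_mul, map_C, d, map_zero, zero_mul])
      refine ⟨0, p, by simp, k, fun s => ?_⟩
      obtain ⟨a, rfl⟩ := hr s
      rw [Multiset.map_zero, Multiset.count_zero, rootMultiplicity_eq_zero]
      exact fun d => k a ((eval_map_apply r a).symm.trans d)

end Vale.Agent.P027M.D
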