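import Vale.Agent.P027M.D.Geo

/-!
# P027, route M, block D: the norm of `A(θ)` is a resultant
-/

set_option linter.all false

noncomputable section

namespace Vale.Agent.P027M.D

open Polynomial IntermediateField

namespace NrmAux

/-- the formal degree on the right does not matter if the left polynomial is monic -/
lemma res_deg {R : Type*} [CommRing R] {f : R[X]} {d : ℕ} (hf : f.coeff d = 1) (g : R[X]) {n : ℕ}
    (hn : g.natDegree ≤ n) : resultant f g d n = resultant f g d g.natDegree := by
  obtain ⟨c, rfl⟩ := le_iff_exists_add.mp hn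
  rw [resultant_add_right_deg _ _ _ _ _ le_rfl, hf, one_pow, one_mul]

lemma det_split {E : Type*} [Field E] {d : ℕ} (M : Matrix (Fin d) (Fin d) E) {A : E[X]}
    (hA : A.Splits) : (aeval M A).det = resultant M.charpoly A d A.natDegree := by
  have hd : M.charpoly.natDegree = d := by simp
  have h1 : M.charpoly.coeff d = 1 := by
    have := M.charpoly_monic.coeff_natDegree
    rwa [hd] at this
  have hC : ∀ a : E, (aeval M (C a)).det = resultant M.charpoly (C a) d (C a).natDegree := by
    intro a
    rw [aeval_C, natDegree_C, resultant_C_right, Algebra.algebraMap_eq_smul_one, Matrix.det_smul]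
    simp
  unfold Splits at hA
  induction hA using Submonoid.closure_induction with
  | mem x hx =>
    rcases hx with ⟨a, rfl⟩ | ⟨a, rfl⟩
    · exact hC a
    · rw [natDegree_X_add_C, resultant_X_add_C_right _ _ _ hd.le, Matrix.eval_charpoly, map_add,
        aeval_X, aeval_C]
      have e : Matrix.scalar (Fin d) (-a) - M = -(M + algebraMap E _ a) := by
        rw [map_neg]
        show -(algebraMap E (Matrix (Fin d) (Fin d) E) a) - M = _
        abel
      rw [e, Matrix.det_neg, Fintype.card_fin, ← mul_assoc, ← mul_pow]
      simp
  | one => simpa using hC 1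
  | mul x y _ _ hx hy =>
    rw [map_mul, Matrix.det_mul, hx, hy, ← resultant_mul_right _ _ _ _ hd.le,
      res_deg h1 _ natDegree_mul_le]

lemma det_aeval {K : Type*} [Field K] {d : ℕ} (M : Matrix (Fin d) (Fin d) K) (A : K[X]) :
    (aeval M A).det = resultant M.charpoly A d A.natDegree := by
  let E := AlgebraicClosure K
  let φ : K →+* E := algebraMap K E
  apply φ.injective
  have h := det_split (M.map φ) (IsAlgClosed.splits (A.map φ))
  rw [Matrix.charpoly_map, resultant_map_map, natDegree_map] at h
  rw [← h, RingHom.map_det]
  congr 1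
  refine map_aeval_eq_aeval_map (φ := φ) (ψ := φ.mapMatrix) ?_ A M
  ext a i j
  simp [Matrix.algebraMap_matrix_apply]
  split_ifs <;> simp

end NrmAux

open NrmAux in
theorem nrm : NRM := by
  intro K L _ _ _ _ A θ n hθ hn
  have hint : IsIntegral K θ := IsIntegral.of_finite K θ
  have htop : Algebra.adjoin K {θ} = ⊤ :=
    IntermediateField.adjoin_eq_top_iff.mp
      ((Field.primitive_element_iff_minpoly_natDegree_eq K θ).mpr hθ)
  let pb : PowerBasis K L := PowerBasis.ofAdjoinEqTop hint htop
  have hg : pb.gen = θ := rfl
  have h := det_aeval (Algebra.leftMulMatrix pb.basis pb.gen) A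
  rw [charpoly_leftMulMatrix, aeval_algHom_apply, ← Algebra.norm_eq_matrix_det, hg] at h
  rw [h, res_deg (minpoly.monic hint).coeff_natDegree A hn]
  rfl

end Vale.Agent.P027M.D
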