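import Vale.Agent.P027M.D.Bas0

/-!
# P027, route M, block D: the reduction of the spaces of functions with poles at infinity
-/

set_option linter.all false

noncomputable section

namespace Vale.Agent.P027M.D

open Polynomial IntermediateField Vale.Agent.P019P P025H492 P025H816
open _root_.P027M.K (Val)

theorem red_neg {α β : Type*} (f : α → β) (D : α →₀ ℤ) {s : β} {a : α}
    (h : ∀ P, f P = s → D P ≤ 0) (ha : f a = s) (ha' : D a < 0) :
    Finsupp.mapDomain f D s < 0 := by
  classical
  rw [Finsupp.mapDomain, Finsupp.sum, Finsupp.finset_sum_apply]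
  refine Finset.sum_neg' (fun P _ => ?_) ⟨a, Finsupp.mem_support_iff.2 ha'.ne, ?_⟩
  · rw [Finsupp.single_apply]
    split_ifs with h1
    · exact h P h1
    · exact le_rfl
  · rwa [Finsupp.single_apply, if_pos ha]

theorem red_const {α β : Type*} (f : α → β) (D : α →₀ ℤ) {s : β}
    (h : ∀ P ∈ D.support, f P = s) : Finsupp.mapDomain f D = Finsupp.single s (dg D) := by
  rw [Finsupp.mapDomain_congr (g := fun _ => s) h]
  clear h
  induction D using Finsupp.induction_linear with
  | zero => simp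
  | add D E hD hE => rw [Finsupp.mapDomain_add, map_add, Finsupp.single_add, hD, hE]
  | single a n => rw [Finsupp.mapDomain_single, dg_sgl]

section

variable {k L : Type} [Field k] [Field L] [Algebra k L] [CFF k L]

theorem red_supp {x : L} {P : Plk k L} (h : P ∈ (pol k x).support) : ord P x < 0 := by
  rw [Finsupp.mem_support_iff, pol_apply] at h
  omega

theorem red_fib {x : L} (hx : ∀ a : k, x ≠ algebraMap k L a) (s : Option k) :
    {P : Plk k L | clb x P = s}.Finite := by
  rcases s with _ | a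
  · refine (pol k x).support.finite_toSet.subset fun P hP => ?_
    have := clb_eq_none.1 hP
    rw [Finset.mem_coe, Finsupp.mem_support_iff, pol_apply]
    omega
  · refine (fib_finite hx a).subset fun P hP => ?_
    rcases mem_Mge.1 (clb_eq_some.1 hP) with h | h
    · exact absurd (sub_eq_zero.1 h) (hx a)
    · show 0 < ord P (x - algebraMap k L a)
      omega

theorem red_pow (x : L) (N n : ℕ) (h : n = 0 ∨ n = N) : x ^ n ∈ LL k (N • pol k x) := by
  refine Or.inr fun P => ?_
  rw [Finsupp.smul_apply, pol_apply, ord_pow, nsmul_eq_mul]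
  have h1 := mul_le_mul_of_nonneg_left (le_max_left 0 (-ord P x)) (Int.natCast_nonneg N)
  have h2 := mul_le_mul_of_nonneg_left (le_max_right 0 (-ord P x)) (Int.natCast_nonneg N)
  rcases h with rfl | rfl
  · simp only [Nat.cast_zero, zero_mul]
    linarith
  · linarith

/-- a constant can be subtracted so that no zero is left in a finite set of places -/
theorem red_gam {S : Set (Plk k L)} (hS : S.Finite) (v : L) : ∃ γ : k, ∀ P ∈ S,
    v - algebraMap k L γ ≠ 0 ∧ ord P (v - algebraMap k L γ) = min (ord P v) 0 := by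
  have : IsAlgClosed k := CFF.ac (k := k) (F := L)
  obtain ⟨γ, -, hγ⟩ := Set.infinite_univ.exists_notMem_finite (hS.image fun P => vl P v)
  refine ⟨γ, fun P hP => ?_⟩
  by_cases h : 0 ≤ ord P v
  · rw [min_eq_right h]
    exact ((P027M.K.val_vl h).sub (P027M.K.Val.const P γ)).unit
      (sub_ne_zero.2 fun e => hγ ⟨P, hP, e⟩)
  · have h0 : v ≠ 0 := fun e => h (by rw [e, ord_zero])
    rw [min_eq_left (by omega), sub_eq_add_neg]
    exact ord_add_of_lt h0 (neg_mem (Mge_mono P (by omega) (P027M.K.const_mem P γ)))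

end

theorem red : CNT → RED := by
  intro cnt C κ F G _ _ _ _ _ _ _ _ O r hr ch b z w N h hz
  by_contra hw
  rw [mem_LL] at hw
  push Not at hw
  obtain ⟨hw0, Q, hQ⟩ := hw
  have x0 : b.x ≠ 0 := fun e => b.nc 0 (by rw [e, map_zero])
  obtain ⟨n, hn, hn'⟩ : ∃ n : ℕ, (n = 0 ∨ n = N) ∧ ∀ P, clb b.x P = clb b.x Q →
      (N • pol κ b.x) P = -ord P (b.x ^ n) := by
    rcases e : clb b.x Q with _ | a
    · refine ⟨N, Or.inr rfl, fun P hP => ?_⟩
      have := clb_eq_none.1 hP
      rw [Finsupp.smul_apply, pol_apply, ord_pow, nsmul_eq_mul, max_eq_right (by omega)]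
      ring
    · refine ⟨0, Or.inl rfl, fun P hP => ?_⟩
      have := ord_nonneg_of_sub (clb_eq_some.1 hP)
      rw [Finsupp.smul_apply, pol_apply, pow_zero, ord_one, max_eq_left (by omega)]
      simp
  have t0 : b.x ^ n ≠ 0 := pow_ne_zero n x0
  obtain ⟨γ, hγ⟩ := red_gam (red_fib b.nc (clb b.x Q)) (w * (b.x ^ n)⁻¹)
  obtain ⟨c, rfl⟩ := hr γ
  have e : w - r c • b.x ^ n = (w * (b.x ^ n)⁻¹ - algebraMap κ G (r c)) * b.x ^ n := by
    rw [Algebra.smul_def, sub_mul, inv_mul_cancel_right₀ t0]
  have key : ∀ P, clb b.x P = clb b.x Q → (N • pol κ b.x + dv κ (w - r c • b.x ^ n)) P =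
      min (ord P w + (N • pol κ b.x) P) 0 := by
    intro P hP
    obtain ⟨h1, h2⟩ := hγ P hP
    rw [Finsupp.add_apply, dv_apply, e, ord_mul P h1 t0, h2, ord_mul P hw0 (inv_ne_zero t0),
      ord_inv, hn' P hP]
    ring_nf
  obtain ⟨h1, h2⟩ := cnt C κ F G O r hr ch b _ _ (h.sub (((Rd.x b).pow n).smul c))
    (by rw [e]; exact mul_ne_zero (hγ Q rfl).1 t0)
  have h3 : z - (c : C) • ch.x ^ n ∈ LL C (N • pol C ch.x) :=
    sub_mem hz (Submodule.smul_mem _ _ (red_pow ch.x N n hn))
  have h4 : 0 ≤ N • pol C ch.x + dv C (z - (c : C) • ch.x ^ n) := fun P => by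
    have := h3.resolve_left h1 P
    rw [Finsupp.add_apply, dv_apply]
    show 0 ≤ _
    linarith
  have h5 := Finsupp.mapDomain_nonneg (f := cl r ch.x) h4 (clb b.x Q)
  have h6 := red_neg (clb b.x) _ (fun P hP => by rw [key P hP]; exact min_le_right _ _) rfl
    (by rw [key Q rfl]; exact lt_of_le_of_lt (min_le_left _ _) (by linarith))
  rw [Finsupp.mapDomain_add, Finsupp.mapDomain_smul, h2,
    red_const _ _ (fun P hP => cl_of_pole (red_supp hP)), dg_pol ch.nc, ← ch.deg] at h5
  rw [Finsupp.mapDomain_add, Finsupp.mapDomain_smul,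
    red_const _ _ (fun P hP => clb_eq_none.2 (red_supp hP)), dg_pol b.nc, ← b.deg] at h6
  exact absurd h5 (not_le.2 h6)

end Vale.Agent.P027M.D
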