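import Vale.Agent.P027M.D.Geo

/-!
# P027, route M, block D (geometry): row SEPB
-/

set_option linter.all false

noncomputable section

namespace Vale.Agent.P027M.D

open Polynomial

theorem sepb : SEPB := by
  classical
  intro κ _ Ψ _ hsep
  obtain ⟨a, b, hab⟩ := hsep
  obtain ⟨α, hα, ha⟩ := IsLocalization.integerNormalization_spec (nonZeroDivisors κ[X]) a
  obtain ⟨β, hβ, hb⟩ := IsLocalization.integerNormalization_spec (nonZeroDivisors κ[X]) b
  set A := IsLocalization.integerNormalization (nonZeroDivisors κ[X]) a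
  set B := IsLocalization.integerNormalization (nonZeroDivisors κ[X]) b
  have h0 : α * β ≠ 0 := mul_ne_zero (nonZeroDivisors.ne_zero hα) (nonZeroDivisors.ne_zero hβ)
  have key : C β * A * Ψ + C α * B * derivative Ψ = C (α * β) := by
    apply Polynomial.map_injective (algebraMap κ[X] (RatFunc κ)) (IsFractionRing.injective _ _)
    rw [derivative_map] at hab
    simp only [Polynomial.map_add, Polynomial.map_mul, map_C, ha, hb, map_mul,
      ← algebraMap_smul (RatFunc κ) α, ← algebraMap_smul (RatFunc κ) β, smul_eq_C_mul]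
    linear_combination (C (algebraMap κ[X] (RatFunc κ) α) * C (algebraMap κ[X] (RatFunc κ) β)) * hab
  refine ⟨(α * β).roots.toFinset, fun s hs => ?_⟩
  have h1 : (α * β).eval s ≠ 0 := fun h => hs (Multiset.mem_toFinset.2 ((mem_roots h0).2 h))
  have h2 := congrArg (Polynomial.map (evalRingHom s)) key
  rw [Polynomial.map_add, Polynomial.map_mul, Polynomial.map_mul (q := derivative Ψ), map_C,
    ← derivative_map, coe_evalRingHom] at h2
  refine ⟨C ((α * β).eval s)⁻¹ * (C β * A).map (evalRingHom s),
    C ((α * β).eval s)⁻¹ * (C α * B).map (evalRingHom s), ?_⟩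
  rw [mul_assoc, mul_assoc, ← mul_add, h2, ← C_mul, inv_mul_cancel₀ h1, C_1]

end Vale.Agent.P027M.D
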