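import Vale.Agent.P027M.D.Own
import Vale.Agent.P027M.D.Bas
import Vale.Agent.P027M.D.Minp
import Vale.Agent.P027M.D.Den
import Vale.Agent.P027M.D.Np
import Vale.Agent.P027M.D.Nrm
import Vale.Agent.P027M.D.Cnt
import Vale.Agent.P027M.D.Ech
import Vale.Agent.P027M.D.Lat
import Vale.Agent.P027M.D.Red
import Vale.Agent.P027M.D.Gen
import Vale.Agent.P027M.D.Movg
import Vale.Agent.P027M.D.Sepb
import Vale.Agent.P027M.D.Iot
import Vale.Agent.P027M.D.Chc
import Vale.Agent.P027M.D.Movc
import Vale.Agent.P027M.D.Lam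

/-!
# P027, route M, block D (geometry): the closed statements
-/

namespace Vale.Agent.P027M.D

theorem minp0 : MINP := minp bas

theorem pt0 : PT := Own.pt minp0 nrm Own.nrp

theorem rep0 : REP := Own.rep bas pt0 (den np pt0)

theorem cnt0 : CNT := cnt minp0 np nrm Own.nrp

theorem movg0 : MOVG := movg cnt0 (lat bas minp0 ech) (red cnt0) gen'

theorem chc0 : CHC := chc fj

theorem movc0 : MOVC := movc lam iot

end Vale.Agent.P027M.D
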