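import Vale.Agent.P027M.D.Out

/-!
# P027, route M, block D: the degree of a hyperelliptic field, its automorphisms
-/

set_option linter.all false

noncomputable section

namespace Vale.Agent.P027M.D

open Polynomial IntermediateField
open Vale.Agent.P027M.B (Hyp)

namespace HypP

variable {k L : Type} [Field k] [Field L] [Algebra k L] {f : k[X]} {m w : L}

theorem ev0 (h : Transcendental k m) {p : k[X]} (hp : aeval m p = 0) : p = 0 := by
  by_contra h0
  exact h ⟨p, h0, hp⟩

theorem lin (h : Transcendental k m) {s t : k}
    (e : algebraMap k L s * m + algebraMap k L t = 0) : s = 0 ∧ t = 0 := by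
  have h1 : (C s * X + C t : k[X]) = 0 := ev0 h (by simpa using e)
  have h2 := congrArg (fun p : k[X] => p.coeff 1) h1
  have h3 := congrArg (fun p : k[X] => p.coeff 0) h1
  simp at h2 h3
  exact ⟨h2, h3⟩

theorem ev_mem (p : k[X]) : aeval m p ∈ k⟮m⟯ :=
  IntermediateField.algebra_adjoin_le_adjoin k {m} (Polynomial.aeval_mem_adjoin_singleton k m)

theorem w_not (H : Hyp f m w) : w ∉ k⟮m⟯ := by
  intro hw
  obtain ⟨p, q, e⟩ := (IntermediateField.mem_adjoin_simple_iff k w).1 hw
  have hf : f ≠ 0 := by
    intro h0
    have := H.deg
    rw [h0] at this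
    simp at this
  have hq : aeval m q ≠ 0 := by
    intro h0
    have h1 : aeval m f = 0 := by rw [← H.sq, e, h0]; simp
    exact hf (ev0 H.tr h1)
  have hq0 : q ≠ 0 := by rintro rfl; simp at hq
  have h1 : p ^ 2 - f * q ^ 2 = 0 := by
    apply ev0 H.tr
    rw [map_sub, map_mul, map_pow, map_pow, ← H.sq, e]
    field_simp
    ring
  have h2 : p ^ 2 = f * q ^ 2 := sub_eq_zero.1 h1
  have h3 := congrArg natDegree h2
  rw [natDegree_mul hf (pow_ne_zero 2 hq0), natDegree_pow, natDegree_pow, H.deg] at h3
  omega

theorem rank (H : Hyp f m w) : Module.finrank k⟮m⟯ L = 2 := by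
  have li : LinearIndependent k⟮m⟯ ![(1 : L), w] := by
    rw [LinearIndependent.pair_iff]
    intro s t e
    have e' : (s : L) + (t : L) * w = 0 := by
      simpa [IntermediateField.smul_def] using e
    by_cases ht : (t : L) = 0
    · rw [ht] at e'
      refine ⟨Subtype.ext (by simpa using e'), Subtype.ext ht⟩
    · exfalso
      apply w_not H
      have : w = -(s : L) / (t : L) := by
        field_simp
        linear_combination e'
      rw [this]
      exact div_mem (neg_mem s.2) t.2
  have sp : ⊤ ≤ Submodule.span k⟮m⟯ (Set.range ![(1 : L), w]) := by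
    intro z _
    obtain ⟨a, b, c, hc, e⟩ := H.top z
    have hc' : aeval m c ≠ 0 := fun h0 => hc (ev0 H.tr h0)
    rw [Submodule.mem_span_range_iff_exists_fun]
    refine ⟨![⟨aeval m a / aeval m c, div_mem (ev_mem a) (ev_mem c)⟩,
      ⟨aeval m b / aeval m c, div_mem (ev_mem b) (ev_mem c)⟩], ?_⟩
    simp only [Fin.sum_univ_two, Matrix.cons_val_zero, Matrix.cons_val_one,
      IntermediateField.smul_def, smul_eq_mul]
    field_simp
    linear_combination -e
  simpa using Module.finrank_eq_card_basis (Module.Basis.mk li sp)

end HypP

open HypP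

theorem hypd : HYPD := by
  intro k L _ _ _ f m w H a b c d x hdet e
  have inj := (algebraMap k L).injective
  refine ⟨?_, ?_⟩
  · rintro t rfl
    obtain ⟨h1, h2⟩ := lin H.tr (s := t * c - a) (t := t * d - b) (by
      simp only [map_sub, map_mul]
      linear_combination e)
    apply hdet
    linear_combination (-d) * h1 + c * h2
  · have h1 : algebraMap k L c * m + algebraMap k L d ≠ 0 := by
      intro h0
      obtain ⟨h1, h2⟩ := lin H.tr h0
      apply hdet
      rw [h1, h2]
      ring
    have h2 : algebraMap k L a - algebraMap k L c * x ≠ 0 := by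
      intro h0
      apply hdet
      apply inj
      simp only [map_sub, map_mul, map_zero]
      linear_combination (algebraMap k L c * m + algebraMap k L d) * h0 + algebraMap k L c * e
    have hx : x = (algebraMap k L a * m + algebraMap k L b) /
        (algebraMap k L c * m + algebraMap k L d) := by
      rw [eq_div_iff h1]; exact e
    have hm : m = (algebraMap k L d * x - algebraMap k L b) /
        (algebraMap k L a - algebraMap k L c * x) := by
      rw [eq_div_iff h2]; linear_combination -e
    have hE : k⟮x⟯ = k⟮m⟯ := by
      apply le_antisymm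
      · rw [IntermediateField.adjoin_simple_le_iff, hx]
        have := IntermediateField.mem_adjoin_simple_self k m
        have am := IntermediateField.algebraMap_mem k⟮m⟯
        exact div_mem (add_mem (mul_mem (am _) this) (am _)) (add_mem (mul_mem (am _) this) (am _))
      · rw [IntermediateField.adjoin_simple_le_iff, hm]
        have := IntermediateField.mem_adjoin_simple_self k x
        have am := IntermediateField.algebraMap_mem k⟮x⟯
        exact div_mem (sub_mem (mul_mem (am _) this) (am _)) (sub_mem (am _) (mul_mem (am _) this))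
    rw [hE]
    exact rank H

theorem hype : HYPE := by
  intro k L _ _ _ f m w H a b hc hm hw
  have hp : ∀ p : k[X], a (aeval m p) = b (aeval m p) := by
    intro p
    induction p using Polynomial.induction_on' with
    | add p q hp hq => simp only [map_add, hp, hq]
    | monomial n t => simp only [aeval_monomial, map_mul, map_pow, hc, hm]
  ext z
  obtain ⟨p, q, c, h0, e⟩ := H.top z
  have hc' : aeval m c ≠ 0 := fun h1 => h0 (ev0 H.tr h1)
  have h1 := congrArg a e
  have h2 := congrArg b e
  simp only [map_add, map_mul] at h1 h2
  rw [hp, hp, hp, hw] at h1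
  have h3 : b (aeval m c) ≠ 0 := by simpa using hc'
  exact mul_left_cancel₀ h3 (h1.trans h2.symm)

end Vale.Agent.P027M.D
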