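import Vale.Agent.P027M.D.Lam1

/-!
# P027, route M, block D: the interpolating function of a chain
-/

set_option linter.all false

noncomputable section

namespace Vale.Agent.P027M.D

open Polynomial

variable {C κ J : Type} [Field C] [Field κ] [Fintype J] {O : ValuationSubring C} {r : O →+* κ}
  {c : C} {Z : Multiset C} {ρ η : J → C} {g : J → κ[X]} {k : J → ℕ}

/-- the point lies on a circle -/
theorem Pre.coreB [Infinite κ] (h : Pre r c Z ρ η g k) (h2 : (2 : κ) ≠ 0) (S : Finset κ) (q : J)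
    {a0 : O} {b : C} (ha : r a0 ≠ 0) (hZ : ∀ w ∈ Z, ∃ j, O.valuation w = O.valuation (ρ j))
    (hb : b ^ 2 = (fm c Z).eval (ρ q * a0)) {k0 : ℕ} (hk : k q = k0 + 1)
    (hlo : (Z.map O.valuation).countP (· < O.valuation (ρ q)) + 2 ≤ 2 * k0)
    (hsim : (g q).eval (r a0) = 0 → (derivative (g q)).eval (r a0) ≠ 0) :
    ∃ α : C[X], α.eval (ρ q * a0) = b ∧ rootMultiplicity (ρ q * a0) (fm c Z - α ^ 2) = 1 ∧
      ∀ z : C, (fm c Z - α ^ 2).eval z = 0 → z = ρ q * a0 ∨ z = 0 ∨ GdPt r ρ S z := by
  classical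
  have hr := h.sur
  have hη := h.η0 q
  obtain ⟨e1, he1, he1'⟩ := (h.red q).eval a0
  obtain ⟨w, hw⟩ := exists_quot hη (x := b) (le_of_sq (by
    rw [← map_pow, hb, ← he1, map_mul, map_pow]
    exact mul_le_of_le_one_left' (O.valuation_le_one _)))
  have hw2 : r w ^ 2 = (g q).eval (r a0) := by
    rw [← he1', ← map_pow]
    congr 1
    apply Subtype.ext
    apply mul_right_cancel₀ (pow_ne_zero 2 hη)
    rw [he1, ← hb, ← hw]
    push_cast
    ring
  obtain ⟨u, hu⟩ := ((unit_iff hr a0).2 ha).exists_left_inv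
  have hu' : (u : C) * a0 = 1 := by exact_mod_cast congrArg (fun t : O => (t : C)) hu
  have hur : r u * r a0 = 1 := by rw [← map_mul, hu, map_one]
  have ha0 : (a0 : C) ≠ 0 := right_ne_zero_of_mul_eq_one hu'
  have hak : (ρ q * a0) ^ k0 ≠ 0 := pow_ne_zero _ (mul_ne_zero (h.ρ0 q) ha0)
  set s0 := r a0 with hs0
  set D0 := (derivative (g q)).eval s0 - 2 * r w * (r w * r u ^ k0 * (derivative (X ^ k0)).eval s0)
    with hD0
  have hch : ∀ j, ∃ γ : κ, (j = q → γ ≠ D0 / (2 * r w * s0 ^ k0) ∧ ∀ s ∈ (S.erase 0).erase s0,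
      (g q).eval s ≠ (r w * r u ^ k0 * s ^ k0 + γ * (s ^ k0 * (s - s0))) ^ 2) ∧
      (j ≠ q → ∀ s ∈ S.erase 0, (g j).eval s ≠ (0 + γ * s ^ k j) ^ 2) := fun j => by
    by_cases hj : j = q
    · obtain ⟨γ, h3, h4⟩ := exists_gam ((S.erase 0).erase s0) {D0 / (2 * r w * s0 ^ k0)}
        (fun s => r w * r u ^ k0 * s ^ k0) (fun s => s ^ k0 * (s - s0)) (fun s => (g q).eval s)
        fun s hs => mul_ne_zero (pow_ne_zero _ (Finset.ne_of_mem_erase (Finset.mem_of_mem_erase hs)))
          (sub_ne_zero.2 (Finset.ne_of_mem_erase hs))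
      exact ⟨γ, fun _ => ⟨by simpa using h3, h4⟩, fun h5 => (h5 hj).elim⟩
    · obtain ⟨γ, -, h4⟩ := exists_gam (S.erase 0) ∅ (fun _ => 0) (fun s => s ^ k j)
        (fun s => (g j).eval s) fun s hs => pow_ne_zero _ (Finset.ne_of_mem_erase hs)
      exact ⟨γ, fun h5 => (hj h5).elim, fun _ => h4⟩
  choose γb hγq hγ using hch
  obtain ⟨hq1, hq2⟩ := hγq q rfl
  choose γ hγr using fun j => hr (γb j)
  obtain ⟨e2, he2, he2'⟩ := (h.fr_red γ q).eval a0
  set ε := (fr ρ η k γ).eval (ρ q * a0) with hε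
  set x := (b - ε) / (ρ q * a0) ^ k0 with hx
  have he : (((w - e2) * u ^ k0 : O) : C) * η q = x * ρ q ^ k0 := by
    have h3 := h.ρ0 q
    have h4 : (u : C) ^ k0 * (a0 : C) ^ k0 = 1 := by rw [← mul_pow, hu', one_pow]
    rw [hx, ← hw, ← he2, div_mul_eq_mul_div, eq_div_iff hak, mul_pow]
    push_cast
    linear_combination (((w : C) - e2) * η q * ρ q ^ k0) * h4
  have hxv : (O.valuation x * O.valuation (ρ q) ^ k0) ^ 2 ≤ GZ O c Z (O.valuation (ρ q)) := by
    rw [← map_pow, ← map_mul, ← he, map_mul, mul_pow, h.nrm q]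
    exact mul_le_of_le_one_left' (pow_le_one' (O.valuation_le_one _) 2)
  have hxs : ∀ z, z ≠ 0 → O.valuation z ≠ O.valuation (ρ q) →
      O.valuation (x * z ^ k0) ^ 2 < GZ O c Z (O.valuation z) := fun z hz hzq => by
    rw [map_mul, map_pow]
    exact mon_ne (vne h.c0) _ hzq (vne hz) (vne (h.ρ0 q)) hxv hlo (by have := h.hi q; omega)
  set α : C[X] := Polynomial.C x * X ^ k0 + fr ρ η k γ with hα
  have hαe : ∀ z, α.eval z = x * z ^ k0 + (fr ρ η k γ).eval z := fun z => by
    simp only [hα, eval_add, eval_mul, eval_C, eval_pow, eval_X]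
  have hαa : α.eval (ρ q * a0) = b := by
    rw [hαe, ← hε, hx, div_mul_cancel₀ _ hak, sub_add_cancel]
  have hNa : (fm c Z - α ^ 2).eval (ρ q * a0) = 0 := by
    rw [eval_sub, eval_pow, hαa, hb, sub_self]
  have hRq : RedAt r (ρ q) (η q ^ 2) (fm c Z - α ^ 2) (g q -
      (Polynomial.C (r w * r u ^ k0) * X ^ k0 +
        Polynomial.C (γb q) * (X ^ k0 * (X - Polynomial.C s0))) ^ 2) := by
    have h3 := (h.red q).sub ((RedAt.mono (r := r) _ he).add (h.fr_red γ q)).sq
    have h4 : r ((w - e2) * u ^ k0) = r w * r u ^ k0 - γb q * s0 := by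
      rw [map_mul, map_sub, map_pow, he2', hγr, hk]
      simp only [eval_mul, eval_C, eval_pow, eval_X]
      have h5 : r u ^ k0 * s0 ^ k0 = 1 := by rw [← mul_pow, hur, one_pow]
      linear_combination (-γb q * s0) * h5
    rw [h4, hγr, hk] at h3
    convert h3 using 3
    simp only [C_sub, C_mul]
    ring
  have hus : r u ^ k0 * s0 ^ k0 = 1 := by rw [← mul_pow, hur, one_pow]
  obtain ⟨hs1, hs2⟩ := hRq.simple (pow_ne_zero 2 hη) hNa (by
    have h3 : (derivative (g q - (Polynomial.C (r w * r u ^ k0) * X ^ k0 +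
        Polynomial.C (γb q) * (X ^ k0 * (X - Polynomial.C s0))) ^ 2)).eval s0 =
        D0 - 2 * r w * s0 ^ k0 * γb q := by
      simp only [derivative_sub, derivative_sq, derivative_add, derivative_mul, derivative_C,
        derivative_X, eval_sub, eval_mul, eval_add, eval_C, eval_pow, eval_X, zero_mul, zero_add,
        sub_self, mul_zero, add_zero, sub_zero, eval_one, mul_one, hD0, eval_zero]
      linear_combination (-2 * r w * (r w * r u ^ k0 * (derivative (X ^ k0)).eval s0 +
        γb q * s0 ^ k0)) * hus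
    rw [← hs0, h3]
    by_cases hw0 : r w = 0
    · rw [hD0, hw0]
      simpa using hsim (by rw [← hw2, hw0, zero_pow two_ne_zero])
    · have h4 : 2 * r w * s0 ^ k0 ≠ 0 := mul_ne_zero (mul_ne_zero h2 hw0) (pow_ne_zero _ ha)
      intro h5
      exact hq1 (by rw [eq_div_iff h4, sub_eq_zero.1 h5, mul_comm]))
  refine ⟨α, hαa, hs1, fin_roots hr h.ρ0 (fun z hz hzj hN => ?_) fun j t ht hS hN => ?_⟩
  · refine (ne_of_val (O := O) ?_ hN).elim
    rw [val_fm_eq c Z z fun w hw h0 => by
      obtain ⟨j, hj⟩ := hZ w hw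
      exact hzj j (h0.symm.trans hj), hαe]
    exact (sq_add_lt (hxs z hz (hzj q)) (h.off γ hz hzj)).ne'
  · by_cases hj : j = q
    · subst hj
      by_cases h3 : r t = s0
      · rw [hs2 t h3 hN]
      · refine (hRq.ne (pow_ne_zero 2 hη) ?_ hN).elim
        have h5 := hq2 (r t) (Finset.mem_erase.2 ⟨h3, Finset.mem_erase.2 ⟨ht, hS⟩⟩)
        simpa [sub_eq_zero] using h5
    · have h3 := RedAt.small (η := η j) (ρ := ρ j) (x := x) (k := k0) hr (lt_of_sq (by
        rw [h.nrm j]
        exact hxs _ (h.ρ0 j) fun h0 => hj (h.inj _ _ h0)))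
      have h4 := (h.red j).sub (h3.add (h.fr_red γ j)).sq
      refine (h4.ne (pow_ne_zero 2 (h.η0 j)) ?_ hN).elim
      have h5 := hγ j hj (r t) (Finset.mem_erase.2 ⟨ht, hS⟩)
      simpa [sub_eq_zero, hγr] using h5

theorem redAt_fm [IsAlgClosed C] (hr : Function.Surjective r) {t : C} (ht : t ≠ 0) (c : C)
    (Z : Multiset C) : ∃ (s : C) (Q : κ[X]), O.valuation s ^ 2 = GZ O c Z (O.valuation t) ∧
      RedAt r t (s ^ 2) (fm c Z) Q := by
  have h1 : ∃ (σ : C) (Q : κ[X]), O.valuation σ = GZ O c Z (O.valuation t) ∧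
      RedAt r t σ (fm c Z) Q := by
    induction Z using Multiset.induction_on with
    | empty =>
      have := RedAt.mono (r := r) (η := c * t) (ρ := t) (x := c) (k := 1) 1 (by simp)
      exact ⟨c * t, _, by simp [GZ, GF], by simpa [fm] using this⟩
    | cons w Z ih =>
      obtain ⟨σ, Q, h1, h2⟩ := ih
      obtain ⟨σ', h3, h4⟩ := redAt_fac hr ht w
      exact ⟨σ * σ', _, by rw [GZ, Multiset.map_cons, GF_cons, map_mul, h1, h3],
        by rw [fm_cons]; exact h2.mul h4⟩
  obtain ⟨σ, Q, h2, h3⟩ := h1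
  obtain ⟨s, hs⟩ := IsAlgClosed.exists_pow_nat_eq σ two_pos
  exact ⟨s, Q, by rw [← map_pow, hs, h2], by rwa [hs]⟩

variable {T : Finset C}

theorem cnt_eq (T : Finset C) (p : O.ValueGroup → Prop) [DecidablePred p] :
    (T.val.map O.valuation).countP p = (T.filter fun z => p (O.valuation z)).card := by
  rw [Multiset.countP_map]
  rfl

theorem Circ.cnt_even (h : Circ O J c T ρ η) (p : O.ValueGroup → Prop) [DecidablePred p] :
    Even ((T.val.map O.valuation).countP p) := by
  rw [cnt_eq]
  exact h.even_filter p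

theorem Circ.cnt_lt (h : Circ O J c T ρ η) (j : J) :
    (T.val.map O.valuation).countP (· < O.valuation (ρ j)) + 2 ≤
      (T.val.map O.valuation).countP (· ≤ O.valuation (ρ j)) := by
  have h1 := h.cnt_even (· < O.valuation (ρ j))
  have h2 := h.cnt_even (· ≤ O.valuation (ρ j))
  have h3 : (T.val.map O.valuation).countP (· < O.valuation (ρ j)) <
      (T.val.map O.valuation).countP (· ≤ O.valuation (ρ j)) := by
    rw [cnt_eq, cnt_eq]
    obtain ⟨z, hz, hz'⟩ := h.ne j
    refine Finset.card_lt_card ⟨fun w hw => ?_, fun h0 => ?_⟩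
    · exact Finset.mem_filter.2 ⟨(Finset.mem_filter.1 hw).1, (Finset.mem_filter.1 hw).2.le⟩
    · exact (Finset.mem_filter.1 (h0 (Finset.mem_filter.2 ⟨hz, hz'.le⟩))).2.ne hz'
  obtain ⟨a, ha⟩ := h1
  obtain ⟨b, hb⟩ := h2
  omega

theorem cnt_two (M : Multiset O.ValueGroup) (x : O.ValueGroup) (p : O.ValueGroup → Prop)
    [DecidablePred p] : (x ::ₘ x ::ₘ M).countP p = M.countP p + if p x then 2 else 0 := by
  rw [Multiset.countP_cons, Multiset.countP_cons]
  split_ifs <;> rfl

theorem fm_two (c p : C) (T : Finset C) :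
    fm c (p ::ₘ p ::ₘ T.val) = fch c T * (X - Polynomial.C p) ^ 2 := by
  rw [fm_cons, fm_cons, fch_eq_fm]
  ring

theorem lam : LAM := by
  intro C κ J _ _ _ _ O r hr c T ρ η h S a b hb0 hb _
  classical
  have : Infinite κ := res_infinite hr
  have ha : a ≠ 0 := by
    rintro rfl
    exact hb0 (pow_eq_zero_iff two_ne_zero |>.1 (by simpa [fch] using hb))
  have hva := vne (O := O) ha
  have hvc := vne (O := O) h.c0
  have hev := fun j => h.cnt_even (· < O.valuation (ρ j))
  have hlt := h.cnt_lt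
  set M := T.val.map O.valuation with hM
  -- the data for `f (X - p) ^ 2`
  have hpre : ∀ (p : C) (k : J → ℕ) (H : J → C) (g : J → κ[X]),
      (∀ j, O.valuation (H j) ^ 2 = GZ O c (p ::ₘ p ::ₘ T.val) (O.valuation (ρ j)) ∧
        RedAt r (ρ j) (H j ^ 2) (fm c (p ::ₘ p ::ₘ T.val)) (g j)) →
      (∀ j, M.countP (· < O.valuation (ρ j)) + (if O.valuation p < O.valuation (ρ j) then 2 else 0)
        + 2 ≤ 2 * k j) → (∀ j, 2 * k j ≤ M.countP (· ≤ O.valuation (ρ j)) +
        (if O.valuation p ≤ O.valuation (ρ j) then 2 else 0)) →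
      Pre r c (p ::ₘ p ::ₘ T.val) ρ H g k := fun p k H g h1 h2 h3 =>
    ⟨hr, h.c0, h.ρ0, h.inj, fun j => (h1 j).1, fun j => (h1 j).2,
      fun j => by rw [Multiset.map_cons, Multiset.map_cons, cnt_two]; exact h2 j,
      fun j => by rw [Multiset.map_cons, Multiset.map_cons, cnt_two]; exact h3 j⟩
  by_cases hB : ∃ q, O.valuation a = O.valuation (ρ q)
  · obtain ⟨q, hq⟩ := hB
    obtain ⟨a0, ha0⟩ := exists_quot (h.ρ0 q) hq.le
    have hs0 := quot_unit hr ha0 (h.ρ0 q) hq
    rw [mul_comm] at ha0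
    obtain ⟨t, ht⟩ := Infinite.exists_notMem_finset ({0, r a0} : Finset κ)
    obtain ⟨t, rfl⟩ := hr t
    simp only [Finset.mem_insert, Finset.mem_singleton, not_or] at ht
    have hp : O.valuation ((t : C) * ρ q) = O.valuation (ρ q) := by
      rw [map_mul, (val_eq_one_iff hr t).2 ht.1, one_mul]
    obtain ⟨g0, hg1, -, hg2⟩ := h.red hr q
    have hch : ∀ j, ∃ (s : C) (Q : κ[X]), (O.valuation s ^ 2 =
        GZ O c ((t : C) * ρ q ::ₘ (t : C) * ρ q ::ₘ T.val) (O.valuation (ρ j)) ∧
        RedAt r (ρ j) (s ^ 2) (fm c ((t : C) * ρ q ::ₘ (t : C) * ρ q ::ₘ T.val)) Q) ∧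
        (j = q → Q = g0 * (X - Polynomial.C (r t)) ^ 2) := fun j => by
      by_cases hj : j = q
      · subst hj
        refine ⟨η j * ρ j, _, ⟨?_, ?_⟩, fun _ => rfl⟩
        · rw [GZ, Multiset.map_cons, Multiset.map_cons, GF_cons, GF_cons, hp, max_self, map_mul,
            mul_pow, h.nrm j, pow_two, GF, Multiset.map_map, ← mul_assoc]
          rfl
        · rw [fm_two, mul_pow]
          exact hg1.mul (redAt_le t rfl).sq
      · obtain ⟨s, Q, h1, h2⟩ := redAt_fm hr (h.ρ0 j) c ((t : C) * ρ q ::ₘ (t : C) * ρ q ::ₘ T.val)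
        exact ⟨s, Q, ⟨h1, h2⟩, fun h3 => (hj h3).elim⟩
    choose H g hg hgq using hch
    have hP := hpre _ (fun j => M.countP (· < O.valuation (ρ j)) / 2 + 1 +
      if O.valuation (ρ q) ≤ O.valuation (ρ j) then 1 else 0) H g hg (fun j => by
        obtain ⟨n, hn⟩ := hev j
        rw [hp]
        by_cases h1 : O.valuation (ρ q) < O.valuation (ρ j)
        · rw [if_pos h1, if_pos h1.le]; omega
        · rw [if_neg h1]; omega) (fun j => by
        obtain ⟨n, hn⟩ := hev j
        have := hlt j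
        rw [hp]
        split_ifs <;> omega)
    obtain ⟨α, h1, h2, h3⟩ := hP.coreB (by
        have := (val_eq_one_iff hr 2).1 h.two
        rwa [map_ofNat] at this) S q (b := b * (a - t * ρ q)) hs0 (fun w hw => by
        rcases Multiset.mem_cons.1 hw with rfl | hw
        · exact ⟨q, hp⟩
        rcases Multiset.mem_cons.1 hw with rfl | hw
        · exact ⟨q, hp⟩
        exact h.on w hw) (by rw [ha0, fm_two, mul_pow, hb]; simp)
      (k0 := M.countP (· < O.valuation (ρ q)) / 2 + 1) (by simp) (by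
        obtain ⟨n, hn⟩ := hev q
        rw [Multiset.map_cons, Multiset.map_cons, cnt_two, hp, if_neg (lt_irrefl _), ← hM]
        omega) (by
        rw [hgq q rfl]
        have h4 : r a0 - r t ≠ 0 := sub_ne_zero.2 (Ne.symm ht.2)
        intro h5
        have h6 : g0.eval (r a0) = 0 := by simpa [h4] using h5
        simpa [derivative_mul, h6, h4] using hg2 _ hs0 h6)
    rw [ha0, fm_two] at h2
    rw [ha0] at h1
    rw [ha0, fm_two] at h3
    exact ⟨α, X - Polynomial.C ((t : C) * ρ q), by simpa using h1, h2, h3⟩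
  push Not at hB
  have hTa : ∀ w ∈ T.val, O.valuation w ≠ O.valuation a := fun w hw h0 => by
    obtain ⟨j, hj⟩ := h.on w hw
    exact hB j (h0.symm.trans hj)
  have hoff : ∀ δ : O.ValueGroup, (∀ j, δ ≠ O.valuation (ρ j)) → ∀ w ∈ T.val, O.valuation w ≠ δ :=
    fun δ hδ w hw h0 => by
      obtain ⟨j, hj⟩ := h.on w hw
      exact hδ j (h0.symm.trans hj)
  obtain ⟨n, hn⟩ := h.cnt_even (· < O.valuation a)
  rw [← hM] at hn
  -- no root between `|a|` and `δ`
  have hcnt : ∀ δ : O.ValueGroup, O.valuation a < δ →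
      (∀ j, O.valuation a < O.valuation (ρ j) → δ ≤ O.valuation (ρ j)) →
      GF (O.valuation c) M δ * O.valuation a ^ (n + n + 1) ≤
        GF (O.valuation c) M (O.valuation a) * δ ^ (n + n + 1) := fun δ h1 h2 => by
    have h3 := GF_down (O.valuation c) M h1.le
    rwa [show M.countP (· < δ) = n + n from hn ▸ Multiset.countP_congr rfl fun x hx => by
      obtain ⟨w, hw, rfl⟩ := Multiset.mem_map.1 hx
      obtain ⟨j, hj⟩ := h.on w hw
      rw [hj]
      exact propext ⟨fun h4 => lt_of_le_of_ne (not_lt.1 fun h5 => absurd h4 (not_lt.2 (h2 j h5)))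
        (hB j).symm, fun h4 => h4.trans h1⟩] at h3
  by_cases hA : ∃ j, O.valuation a < O.valuation (ρ j)
  · obtain ⟨q, hq, hmin⟩ := Finset.exists_min_image
      (Finset.univ.filter fun j => O.valuation a < O.valuation (ρ j)) (fun j => O.valuation (ρ j))
      (hA.imp fun j hj => by simpa using hj)
    replace hq : O.valuation a < O.valuation (ρ q) := by simpa using hq
    replace hmin : ∀ j, O.valuation a < O.valuation (ρ j) → O.valuation (ρ q) ≤ O.valuation (ρ j) :=
      fun j hj => hmin j (by simpa using hj)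
    obtain ⟨p, hp⟩ := IsAlgClosed.exists_pow_nat_eq (a * ρ q) two_pos
    have hp2 : O.valuation p ^ 2 = O.valuation a * O.valuation (ρ q) := by
      rw [← map_pow, hp, map_mul]
    have hvq := vne (O := O) (h.ρ0 q)
    have hap : O.valuation a < O.valuation p := lt_of_sq (by
      rw [hp2, pow_two]; exact mul_lt_mul_of_pos_left hq (zero_lt_iff.2 hva))
    have hpq : O.valuation p < O.valuation (ρ q) := lt_of_sq (by
      rw [hp2, pow_two]; exact mul_lt_mul_of_pos_right hq (zero_lt_iff.2 hvq))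
    choose H g hg1 hg2 using fun j => redAt_fm hr (h.ρ0 j) c (p ::ₘ p ::ₘ T.val)
    have hP := hpre p (fun j => M.countP (· < O.valuation (ρ j)) / 2 + 1 +
      if O.valuation p < O.valuation (ρ j) then 1 else 0) H g (fun j => ⟨hg1 j, hg2 j⟩) (fun j => by
        obtain ⟨n, hn⟩ := hev j
        split_ifs <;> omega) (fun j => by
        obtain ⟨n, hn⟩ := hev j
        have := hlt j
        by_cases h1 : O.valuation p < O.valuation (ρ j)
        · rw [if_pos h1, if_pos h1.le]; omega
        · rw [if_neg h1]; omega)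
    have hm : ((p ::ₘ p ::ₘ T.val).map O.valuation).countP (· < O.valuation a) = n + n := by
      rw [Multiset.map_cons, Multiset.map_cons, cnt_two, if_neg (not_lt.2 hap.le), ← hM, hn, add_zero]
    have hG : ∀ δ, GZ O c (p ::ₘ p ::ₘ T.val) δ =
        GF (O.valuation c) M δ * max δ (O.valuation p) ^ 2 := fun δ => by
      rw [GZ, Multiset.map_cons, Multiset.map_cons, GF_cons, GF_cons, pow_two, mul_assoc]
    obtain ⟨α, h1, h2, h3⟩ := hP.coreA S (b := b * (a - p)) ha hB (fun w hw => by
        rcases Multiset.mem_cons.1 hw with rfl | hw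
        · exact hap.ne'
        rcases Multiset.mem_cons.1 hw with rfl | hw
        · exact hap.ne'
        exact hTa w hw) (by rw [fm_two, mul_pow, hb]; simp) (k0 := n + 1) (by omega) fun x hx => by
      have hdn : ∀ δ, δ ≠ 0 → δ < O.valuation a →
          (x * δ ^ (n + 1)) ^ 2 < GZ O c (p ::ₘ p ::ₘ T.val) δ := fun δ h0 h1 =>
        mon_down hvc _ h1 h0 hx.le (by omega)
      rw [hG, max_eq_right hap.le] at hx
      have hle : M.countP (· ≤ O.valuation a) = n + n := hn ▸ Multiset.countP_congr rfl fun y hy => by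
        obtain ⟨w, hw, rfl⟩ := Multiset.mem_map.1 hy
        exact propext ⟨fun h4 => lt_of_le_of_ne h4 (hTa w hw), le_of_lt⟩
      have hxq : (x * O.valuation (ρ q) ^ (n + 1)) ^ 2 ≤
          GZ O c (p ::ₘ p ::ₘ T.val) (O.valuation (ρ q)) := by
        have h4 := GF_up (O.valuation c) M hq.le
        rw [hle] at h4
        rw [hG, max_eq_left hpq.le]
        refine le_of_mul_le_mul_right (a := O.valuation a ^ (n + n + 2)) ?_
          (zero_lt_iff.2 (pow_ne_zero _ hva))
        calc _ = (x * O.valuation a ^ (n + 1)) ^ 2 * O.valuation (ρ q) ^ (n + n + 2) := by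
              simp only [pow_two, pow_add, pow_one]; ac_rfl
          _ = GF (O.valuation c) M (O.valuation a) * O.valuation (ρ q) ^ (n + n + 1) *
              (O.valuation a * O.valuation (ρ q) ^ 2) := by
              rw [hx, hp2]; simp only [pow_two, pow_add, pow_one]; ac_rfl
          _ ≤ GF (O.valuation c) M (O.valuation (ρ q)) * O.valuation a ^ (n + n + 1) *
              (O.valuation a * O.valuation (ρ q) ^ 2) := mul_le_mul_left h4 _
          _ = _ := by simp only [pow_two, pow_add, pow_one]; ac_rfl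
      have hup : ∀ δ, O.valuation (ρ q) < δ →
          (x * δ ^ (n + 1)) ^ 2 < GZ O c (p ::ₘ p ::ₘ T.val) δ := fun δ h1 =>
        mon_up hvc _ h1 hvq hxq (by
          have h4 : M.countP (· < O.valuation a) ≤ M.countP (· ≤ O.valuation (ρ q)) := by
            rw [hM, cnt_eq, cnt_eq]
            exact Finset.card_le_card (Finset.monotone_filter_right _ fun y _ hy => (hy.trans hq).le)
          rw [Multiset.map_cons, Multiset.map_cons, cnt_two, if_pos hpq.le, ← hM]
          omega)
      refine ⟨fun j => ?_, fun δ h0 h1 h2 => ?_⟩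
      · rcases lt_or_gt_of_ne (hB j) with h4 | h4
        · rcases (hmin j h4).eq_or_lt with h5 | h5
          · rw [← h5]; exact hxq
          · exact (hup _ h5).le
        · exact (hdn _ (vne (h.ρ0 j)) h4).le
      · have hne : δ ≠ O.valuation p → ∀ w ∈ p ::ₘ p ::ₘ T.val, O.valuation w ≠ δ := fun h4 w hw => by
          rcases Multiset.mem_cons.1 hw with rfl | hw
          · exact h4.symm
          rcases Multiset.mem_cons.1 hw with rfl | hw
          · exact h4.symm
          exact hoff δ h2 w hw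
        rcases lt_or_gt_of_ne h1 with h4 | h4
        · exact Or.inr ⟨hdn δ h0 h4, hne (h4.trans hap).ne⟩
        rcases lt_or_gt_of_ne (h2 q) with h5 | h5
        · left
          have h6 := hcnt δ h4 fun j hj => h5.le.trans (hmin j hj)
          have h7 : O.valuation a * max δ (O.valuation p) ^ 2 < δ * O.valuation p ^ 2 := by
            rcases le_total δ (O.valuation p) with h8 | h8
            · rw [max_eq_right h8]
              exact mul_lt_mul_of_pos_right h4 (zero_lt_iff.2 (pow_ne_zero _ (zero_le.trans_lt hap).ne'))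
            · rw [max_eq_left h8, hp2, pow_two, mul_left_comm δ]
              exact mul_lt_mul_of_pos_left (mul_lt_mul_of_pos_left h5 (zero_lt_iff.2 h0))
                (zero_lt_iff.2 hva)
          rw [hG]
          refine lt_of_mul_lt_mul_right' (a := O.valuation a ^ (n + n + 2)) ?_
          calc _ = GF (O.valuation c) M δ * O.valuation a ^ (n + n + 1) *
                (O.valuation a * max δ (O.valuation p) ^ 2) := by
                simp only [pow_two, pow_add, pow_one]; ac_rfl
            _ ≤ GF (O.valuation c) M (O.valuation a) * δ ^ (n + n + 1) *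
                (O.valuation a * max δ (O.valuation p) ^ 2) := mul_le_mul_left h6 _
            _ < GF (O.valuation c) M (O.valuation a) * δ ^ (n + n + 1) *
                (δ * O.valuation p ^ 2) := mul_lt_mul_of_pos_left h7
                  (zero_lt_iff.2 (mul_ne_zero (GF_ne hvc _ hva) (pow_ne_zero _ h0)))
            _ = GF (O.valuation c) M (O.valuation a) * O.valuation p ^ 2 * δ ^ (n + n + 2) := by
                simp only [pow_two, pow_add, pow_one]; ac_rfl
            _ = _ := by rw [← hx]; simp only [pow_two, pow_add, pow_one]; ac_rfl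
        · exact Or.inr ⟨hup δ h5, hne (hpq.trans h5).ne'⟩
    rw [fm_two] at h2 h3
    exact ⟨α, X - Polynomial.C p, by simpa using h1, h2, h3⟩
  · push Not at hA
    choose H g hg1 hg2 using fun j => redAt_fm hr (h.ρ0 j) c T.val
    have hP : Pre r c T.val ρ H g fun j => M.countP (· < O.valuation (ρ j)) / 2 + 1 :=
      ⟨hr, h.c0, h.ρ0, h.inj, hg1, hg2, fun j => by
        obtain ⟨n, hn⟩ := hev j
        rw [← hM]; omega, fun j => by
        obtain ⟨n, hn⟩ := hev j
        have := hlt j
        rw [← hM]; omega⟩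
    obtain ⟨α, h1, h2, h3⟩ := hP.coreA S (b := b) ha hB hTa hb (k0 := n + 1) (by rw [← hM]; omega)
      fun x hx => by
      have hdn : ∀ δ, δ ≠ 0 → δ < O.valuation a → (x * δ ^ (n + 1)) ^ 2 < GZ O c T.val δ :=
        fun δ h0 h1 => mon_down hvc _ h1 h0 hx.le (by rw [← hM]; omega)
      refine ⟨fun j => (hdn _ (vne (h.ρ0 j)) (lt_of_le_of_ne (hA j) (hB j).symm)).le,
        fun δ h0 h1 h2 => ?_⟩
      rcases lt_or_gt_of_ne h1 with h4 | h4
      · exact Or.inr ⟨hdn δ h0 h4, hoff δ h2⟩
      left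
      have h6 := hcnt δ h4 fun j hj => absurd hj (not_lt.2 (hA j))
      refine lt_of_mul_lt_mul_right' (a := O.valuation a ^ (n + n + 2)) ?_
      change GF (O.valuation c) M δ * _ < _
      change _ = GF (O.valuation c) M (O.valuation a) at hx
      calc _ = GF (O.valuation c) M δ * O.valuation a ^ (n + n + 1) * O.valuation a := by
            simp only [pow_two, pow_add, pow_one]; ac_rfl
        _ ≤ GF (O.valuation c) M (O.valuation a) * δ ^ (n + n + 1) * O.valuation a :=
            mul_le_mul_left h6 _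
        _ < GF (O.valuation c) M (O.valuation a) * δ ^ (n + n + 1) * δ := mul_lt_mul_of_pos_left h4
              (zero_lt_iff.2 (mul_ne_zero (GF_ne hvc _ hva) (pow_ne_zero _ h0)))
        _ = GF (O.valuation c) M (O.valuation a) * δ ^ (n + n + 2) := by
            simp only [pow_two, pow_add, pow_one]; ac_rfl
        _ = _ := by rw [← hx]; simp only [pow_two, pow_add, pow_one]; ac_rfl
    exact ⟨α, 1, by simpa using h1, by simpa [fch_eq_fm] using h2, by simpa [fch_eq_fm] using h3⟩

end Vale.Agent.P027M.D
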