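import Vale.Agent.P027M.D.Fj

/-!
# P027, route M, block D: the Gauss norm of a split polynomial as a function of the radius
-/

set_option linter.all false

noncomputable section

namespace Vale.Agent.P027M.D

open Polynomial

section gauss

variable {Γ : Type} [LinearOrderedCommGroupWithZero Γ]

/-- the Gauss norm of `c X ∏ (X - z)` at the radius `γ`, `M` being the values of the roots -/
def GF (c : Γ) (M : Multiset Γ) (γ : Γ) : Γ := c * γ * (M.map (max γ)).prod

theorem GF_cons (c x : Γ) (M : Multiset Γ) (γ : Γ) : GF c (x ::ₘ M) γ = GF c M γ * max γ x := by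
  simp only [GF, Multiset.map_cons, Multiset.prod_cons]
  ac_rfl

theorem GF_ne {c γ : Γ} (hc : c ≠ 0) (M : Multiset Γ) (hγ : γ ≠ 0) : GF c M γ ≠ 0 := by
  induction M using Multiset.induction_on with
  | empty => simpa [GF] using ⟨hc, hγ⟩
  | cons x M ih =>
    rw [GF_cons]
    exact mul_ne_zero ih (lt_of_lt_of_le (zero_lt_iff.2 hγ) (le_max_left _ _)).ne'

theorem GF_up (c : Γ) (M : Multiset Γ) {γ δ : Γ} (h : γ ≤ δ) :
    GF c M γ * δ ^ (M.countP (· ≤ γ) + 1) ≤ GF c M δ * γ ^ (M.countP (· ≤ γ) + 1) := by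
  induction M using Multiset.induction_on with
  | empty =>
    simp only [GF, Multiset.map_zero, Multiset.prod_zero, Multiset.countP_zero, zero_add, pow_one,
      mul_one]
    exact le_of_eq (mul_right_comm _ _ _)
  | cons x M ih =>
    rw [GF_cons, GF_cons]
    by_cases hx : x ≤ γ
    · rw [Multiset.countP_cons_of_pos (p := (· ≤ γ)) M hx, max_eq_left hx, max_eq_left (hx.trans h),
        pow_succ δ (_ + 1), pow_succ γ (_ + 1)]
      calc _ = GF c M γ * δ ^ (M.countP (· ≤ γ) + 1) * (γ * δ) := by ac_rfl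
        _ ≤ GF c M δ * γ ^ (M.countP (· ≤ γ) + 1) * (γ * δ) := mul_le_mul_left ih _
        _ = _ := by ac_rfl
    · rw [Multiset.countP_cons_of_neg (p := (· ≤ γ)) M hx, mul_right_comm,
        mul_right_comm (GF c M δ)]
      exact mul_le_mul' ih (max_le_max_right x h)

theorem GF_down (c : Γ) (M : Multiset Γ) {γ δ : Γ} (h : γ ≤ δ) :
    GF c M δ * γ ^ (M.countP (· < δ) + 1) ≤ GF c M γ * δ ^ (M.countP (· < δ) + 1) := by
  induction M using Multiset.induction_on with
  | empty =>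
    simp only [GF, Multiset.map_zero, Multiset.prod_zero, Multiset.countP_zero, zero_add, pow_one,
      mul_one]
    exact le_of_eq (mul_right_comm _ _ _)
  | cons x M ih =>
    rw [GF_cons, GF_cons]
    by_cases hx : x < δ
    · rw [Multiset.countP_cons_of_pos (p := (· < δ)) M hx, max_eq_left hx.le,
        pow_succ δ (_ + 1), pow_succ γ (_ + 1)]
      calc _ = GF c M δ * γ ^ (M.countP (· < δ) + 1) * (γ * δ) := by ac_rfl
        _ ≤ GF c M γ * δ ^ (M.countP (· < δ) + 1) * (max γ x * δ) :=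
          mul_le_mul' ih (mul_le_mul_left (le_max_left _ _) _)
        _ = _ := by ac_rfl
    · rw [Multiset.countP_cons_of_neg (p := (· < δ)) M hx, mul_right_comm,
        mul_right_comm (GF c M γ), max_eq_right (not_lt.1 hx), max_eq_right (h.trans (not_lt.1 hx))]
      exact mul_le_mul_left ih _

theorem mon_up {c : Γ} (hc : c ≠ 0) (M : Multiset Γ) {γ δ x : Γ} {k : ℕ} (h : γ < δ) (hγ : γ ≠ 0)
    (hx : (x * γ ^ k) ^ 2 ≤ GF c M γ) (hk : 2 * k ≤ M.countP (· ≤ γ)) :
    (x * δ ^ k) ^ 2 < GF c M δ := by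
  have hδ : δ ≠ 0 := (lt_of_le_of_lt zero_le h).ne'
  obtain ⟨e, he⟩ := Nat.exists_eq_add_of_le hk
  have h1 := GF_up c M h.le
  rw [he] at h1
  have h2 : γ ^ (e + 1) < δ ^ (e + 1) := pow_lt_pow_left₀ h zero_le (Nat.succ_ne_zero e)
  have h3 : 0 < GF c M δ * γ ^ (2 * k) :=
    zero_lt_iff.2 (mul_ne_zero (GF_ne hc M hδ) (pow_ne_zero _ hγ))
  refine lt_of_mul_lt_mul_right' (a := γ ^ (2 * k) * δ ^ (e + 1)) ?_
  calc (x * δ ^ k) ^ 2 * (γ ^ (2 * k) * δ ^ (e + 1))
      = (x * γ ^ k) ^ 2 * δ ^ (2 * k + e + 1) := by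
        simp only [mul_pow, ← pow_mul, pow_add, mul_comm k 2]; ac_rfl
    _ ≤ GF c M γ * δ ^ (2 * k + e + 1) := mul_le_mul_left hx _
    _ ≤ GF c M δ * γ ^ (2 * k + e + 1) := h1
    _ = GF c M δ * γ ^ (2 * k) * γ ^ (e + 1) := by simp only [pow_add]; ac_rfl
    _ < GF c M δ * γ ^ (2 * k) * δ ^ (e + 1) := mul_lt_mul_of_pos_left h2 h3
    _ = _ := mul_assoc _ _ _

theorem mon_down {c : Γ} (hc : c ≠ 0) (M : Multiset Γ) {γ δ x : Γ} {k : ℕ} (h : γ < δ) (hγ : γ ≠ 0)
    (hx : (x * δ ^ k) ^ 2 ≤ GF c M δ) (hk : M.countP (· < δ) + 2 ≤ 2 * k) :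
    (x * γ ^ k) ^ 2 < GF c M γ := by
  have hδ : δ ≠ 0 := (lt_of_le_of_lt zero_le h).ne'
  obtain ⟨e, he⟩ := Nat.exists_eq_add_of_le hk
  have h1 := GF_down c M h.le
  set m := M.countP (· < δ)
  have h2 : γ ^ (e + 1) < δ ^ (e + 1) := pow_lt_pow_left₀ h zero_le (Nat.succ_ne_zero e)
  have h3 : 0 < GF c M γ * δ ^ (m + 1) :=
    zero_lt_iff.2 (mul_ne_zero (GF_ne hc M hγ) (pow_ne_zero _ hδ))
  have h4 : 2 * k = m + 1 + (e + 1) := by omega
  refine lt_of_mul_lt_mul_right' (a := δ ^ (2 * k)) ?_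
  calc (x * γ ^ k) ^ 2 * δ ^ (2 * k) = (x * δ ^ k) ^ 2 * γ ^ (2 * k) := by
        simp only [mul_pow, ← pow_mul, mul_comm k 2]; ac_rfl
    _ ≤ GF c M δ * γ ^ (2 * k) := mul_le_mul_left hx _
    _ = GF c M δ * γ ^ (m + 1) * γ ^ (e + 1) := by rw [h4, pow_add γ (m + 1), mul_assoc]
    _ ≤ GF c M γ * δ ^ (m + 1) * γ ^ (e + 1) := mul_le_mul_left h1 _
    _ < GF c M γ * δ ^ (m + 1) * δ ^ (e + 1) := mul_lt_mul_of_pos_left h2 h3
    _ = _ := by rw [h4, pow_add δ (m + 1), mul_assoc]

theorem mon_ne {c : Γ} (hc : c ≠ 0) (M : Multiset Γ) {γ δ x : Γ} {k : ℕ} (h : γ ≠ δ) (hγ : γ ≠ 0)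
    (hδ : δ ≠ 0) (hx : (x * δ ^ k) ^ 2 ≤ GF c M δ) (hk : M.countP (· < δ) + 2 ≤ 2 * k)
    (hk' : 2 * k ≤ M.countP (· ≤ δ)) : (x * γ ^ k) ^ 2 < GF c M γ := by
  rcases lt_or_gt_of_ne h with h | h
  · exact mon_down hc M h hγ hx hk
  · exact mon_up hc M h hδ hx hk'

theorem lt_of_sq {x y : Γ} (h : x ^ 2 < y ^ 2) : x < y := lt_of_pow_lt_pow_left' 2 h

theorem le_of_sq {x y : Γ} (h : x ^ 2 ≤ y ^ 2) : x ≤ y :=
  le_of_not_gt fun h' => absurd h (not_le.2 (pow_lt_pow_left₀ h' zero_le two_ne_zero))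

end gauss

variable {C κ : Type} [Field C] [Field κ] {O : ValuationSubring C} {r : O →+* κ}

/-- `c X ∏ (X - z)` -/
def fm (c : C) (Z : Multiset C) : C[X] :=
  Polynomial.C c * X * (Z.map fun z => X - Polynomial.C z).prod

theorem fm_cons (c z : C) (Z : Multiset C) : fm c (z ::ₘ Z) = fm c Z * (X - Polynomial.C z) := by
  simp only [fm, Multiset.map_cons, Multiset.prod_cons]
  ring

theorem fch_eq_fm (c : C) (T : Finset C) : fch c T = fm c T.val := rfl

theorem val_fm_le (c : C) (Z : Multiset C) (z : C) : O.valuation ((fm c Z).eval z) ≤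
    GF (O.valuation c) (Z.map O.valuation) (O.valuation z) := by
  induction Z using Multiset.induction_on with
  | empty => simp [fm, GF]
  | cons w Z ih =>
    rw [fm_cons, Multiset.map_cons, GF_cons, eval_mul, map_mul, eval_sub, eval_X, eval_C]
    exact mul_le_mul' ih (Valuation.map_sub _ _ _)

theorem val_fm_eq (c : C) (Z : Multiset C) (z : C) (h : ∀ w ∈ Z, O.valuation w ≠ O.valuation z) :
    O.valuation ((fm c Z).eval z) = GF (O.valuation c) (Z.map O.valuation) (O.valuation z) := by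
  induction Z using Multiset.induction_on with
  | empty => simp [fm, GF]
  | cons w Z ih =>
    rw [fm_cons, Multiset.map_cons, GF_cons, eval_mul, map_mul, eval_sub, eval_X, eval_C,
      ih fun u hu => h u (Multiset.mem_cons_of_mem hu), sub_eq_add_neg,
      Valuation.map_add_of_distinct_val _ (by
        rw [Valuation.map_neg]; exact (h w (Multiset.mem_cons_self _ _)).symm), Valuation.map_neg]

/-- on a circle without roots the reduction is a monomial -/
theorem redAt_off (hr : Function.Surjective r) {a : C} (ha : a ≠ 0) (c : C) (Z : Multiset C)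
    (h : ∀ w ∈ Z, O.valuation w ≠ O.valuation a) :
    RedAt r a ((fm c Z).eval a) (fm c Z) (X ^ ((Z.map O.valuation).countP (· < O.valuation a) + 1)) := by
  induction Z using Multiset.induction_on with
  | empty =>
    have := RedAt.mono (r := r) (η := c * a) (ρ := a) (x := c) (k := 1) 1 (by simp)
    simpa [fm] using this
  | cons w Z ih =>
    have h1 := ih fun u hu => h u (Multiset.mem_cons_of_mem hu)
    have hw := h w (Multiset.mem_cons_self _ _)
    have h0 : a - w ≠ 0 := fun h0 => hw (by rw [sub_eq_zero.1 h0])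
    rw [fm_cons, Multiset.map_cons, eval_mul, eval_sub, eval_X, eval_C]
    rcases lt_or_gt_of_ne hw with hw | hw
    · have h2 : O.valuation (a - w) = O.valuation a := Valuation.map_sub_eq_of_lt_left _ hw
      obtain ⟨e, he⟩ := exists_quot h0 (x := w) (by rw [h2]; exact hw.le)
      have he0 := quot_small hr he (by rw [h2]; exact hw)
      have h3 := RedAt.mono (r := r) (η := a - w) (ρ := a) (x := 1) (k := 1) (1 + e) (by
        push_cast; rw [add_mul, he]; ring)
      have h4 := RedAt.small (η := a - w) (ρ := a) (x := w) (k := 0) hr (by simpa [h2] using hw)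
      have h5 := h1.mul (h3.sub h4)
      rw [Multiset.countP_cons_of_pos (p := (· < O.valuation a)) _ hw, pow_succ X (_ + 1)]
      simpa [he0] using h5
    · have h2 : O.valuation (a - w) = O.valuation w := Valuation.map_sub_eq_of_lt_right _ hw
      obtain ⟨e, he⟩ := exists_quot h0 (x := a) (by rw [h2]; exact hw.le)
      have he0 := quot_small hr he (by rw [h2]; exact hw)
      have h3 := RedAt.small (η := a - w) (ρ := a) (x := 1) (k := 1) hr (by simpa [h2] using hw)
      have h4 := RedAt.mono (r := r) (η := a - w) (ρ := a) (x := w) (k := 0) (e - 1) (by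
        push_cast; rw [sub_mul, he]; ring)
      have h5 := h1.mul (h3.sub h4)
      rw [Multiset.countP_cons_of_neg (p := (· < O.valuation a)) _ (not_lt.2 hw.le)]
      simpa [he0] using h5

theorem sq_add_lt {x y : C} {G : O.ValueGroup} (hx : O.valuation x ^ 2 < G)
    (hy : O.valuation y ^ 2 < G) : O.valuation (x + y) ^ 2 < G := by
  refine lt_of_le_of_lt (pow_le_pow_left' (O.valuation.map_add x y) 2) ?_
  rcases max_choice (O.valuation x) (O.valuation y) with h | h <;> rwa [h]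

theorem sq_sub_le {x y : C} {G : O.ValueGroup} (hx : O.valuation x ^ 2 ≤ G)
    (hy : O.valuation y ^ 2 ≤ G) : O.valuation (x - y) ^ 2 ≤ G := by
  refine le_trans (pow_le_pow_left' (O.valuation.map_sub x y) 2) ?_
  rcases max_choice (O.valuation x) (O.valuation y) with h | h <;> rwa [h]

theorem sq_sum_lt {ι : Type*} (s : Finset ι) {x : ι → C} {G : O.ValueGroup} (hG : G ≠ 0)
    (hx : ∀ i ∈ s, O.valuation (x i) ^ 2 < G) : O.valuation (∑ i ∈ s, x i) ^ 2 < G := by
  refine Finset.sum_induction x (fun t => O.valuation t ^ 2 < G) (fun _ _ => sq_add_lt) ?_ hx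
  simpa using zero_lt_iff.2 hG

theorem exists_gam [Infinite κ] (S E : Finset κ) (A B D : κ → κ) (hB : ∀ s ∈ S, B s ≠ 0) :
    ∃ γ : κ, γ ∉ E ∧ ∀ s ∈ S, D s ≠ (A s + γ * B s) ^ 2 := by
  have h1 : ∀ s ∈ S, {γ : κ | D s = (A s + γ * B s) ^ 2}.Finite := fun s hs => by
    have h2 : {y : κ | IsRoot (X ^ 2 - Polynomial.C (D s)) y}.Finite :=
      finite_setOf_isRoot (X_pow_sub_C_ne_zero two_pos _)
    refine Set.Finite.subset (Set.Finite.preimage (f := fun γ => A s + γ * B s) ?_ h2) ?_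
    · exact fun x _ y _ h => mul_right_cancel₀ (hB s hs) (add_left_cancel h)
    · intro γ hγ
      simp only [Set.mem_preimage, Set.mem_setOf_eq, IsRoot.def, eval_sub, eval_pow, eval_X, eval_C]
      exact sub_eq_zero.2 (Eq.symm hγ)
  obtain ⟨γ, hγ⟩ := ((S.finite_toSet.biUnion h1).union E.finite_toSet).exists_notMem
  refine ⟨γ, fun h => hγ (Or.inr h), fun s hs h => hγ (Or.inl ?_)⟩
  exact Set.mem_biUnion (t := fun s => {γ : κ | D s = (A s + γ * B s) ^ 2}) hs h

end Vale.Agent.P027M.D
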