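import Vale.Agent.P027M.D.Lam0

/-!
# P027, route M, block D: the free part of the interpolating function, points off the circles
-/

set_option linter.all false

noncomputable section

namespace Vale.Agent.P027M.D

open Polynomial

variable {C κ J : Type} [Field C] [Field κ] [Fintype J] {O : ValuationSubring C} {r : O →+* κ}

variable (O) in
/-- the Gauss norm of `fm c Z` -/
abbrev GZ (c : C) (Z : Multiset C) (γ : O.ValueGroup) : O.ValueGroup :=
  GF (O.valuation c) (Z.map O.valuation) γ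

/-- circles, normalisations, reductions and the exponents of the free monomials -/
structure Pre (r : O →+* κ) (c : C) (Z : Multiset C) (ρ η : J → C) (g : J → κ[X]) (k : J → ℕ) :
    Prop where
  sur : Function.Surjective r
  c0 : c ≠ 0
  ρ0 : ∀ j, ρ j ≠ 0
  inj : ∀ i j, O.valuation (ρ i) = O.valuation (ρ j) → i = j
  nrm : ∀ j, O.valuation (η j) ^ 2 = GZ O c Z (O.valuation (ρ j))
  red : ∀ j, RedAt r (ρ j) (η j ^ 2) (fm c Z) (g j)
  lo : ∀ j, (Z.map O.valuation).countP (· < O.valuation (ρ j)) + 2 ≤ 2 * k j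
  hi : ∀ j, 2 * k j ≤ (Z.map O.valuation).countP (· ≤ O.valuation (ρ j))

/-- the free part -/
def fr (ρ η : J → C) (k : J → ℕ) (γ : J → O) : C[X] :=
  ∑ j, Polynomial.C ((γ j : C) * η j / ρ j ^ k j) * X ^ k j

theorem vne {x : C} (h : x ≠ 0) : O.valuation x ≠ 0 := by simpa using h

variable {c : C} {Z : Multiset C} {ρ η : J → C} {g : J → κ[X]} {k : J → ℕ}

theorem Pre.G0 (h : Pre r c Z ρ η g k) {z : C} (hz : z ≠ 0) : GZ O c Z (O.valuation z) ≠ 0 :=
  GF_ne (vne h.c0) _ (vne hz)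

theorem Pre.η0 (h : Pre r c Z ρ η g k) (j : J) : η j ≠ 0 := by
  intro h0
  have h1 := h.nrm j
  rw [h0, map_zero, zero_pow two_ne_zero] at h1
  exact h.G0 (h.ρ0 j) h1.symm

theorem Pre.term (h : Pre r c Z ρ η g k) (γ : J → O) (j : J) {z : C} (hz : z ≠ 0)
    (hj : O.valuation z ≠ O.valuation (ρ j)) :
    O.valuation ((γ j : C) * η j / ρ j ^ k j * z ^ k j) ^ 2 < GZ O c Z (O.valuation z) := by
  rw [map_mul, map_pow]
  refine mon_ne (vne h.c0) _ hj (vne hz) (vne (h.ρ0 j)) ?_ (h.lo j) (h.hi j)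
  rw [← map_pow, ← map_mul, div_mul_cancel₀ _ (pow_ne_zero _ (h.ρ0 j)), map_mul, mul_pow, h.nrm j]
  exact mul_le_of_le_one_left' (pow_le_one' (O.valuation_le_one _) 2)

theorem fr_eval (γ : J → O) (z : C) :
    (fr ρ η k γ).eval z = ∑ j, (γ j : C) * η j / ρ j ^ k j * z ^ k j := by
  simp [fr, eval_finset_sum]

theorem Pre.off (h : Pre r c Z ρ η g k) (γ : J → O) {z : C} (hz : z ≠ 0)
    (hj : ∀ j, O.valuation z ≠ O.valuation (ρ j)) :
    O.valuation ((fr ρ η k γ).eval z) ^ 2 < GZ O c Z (O.valuation z) := by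
  rw [fr_eval]
  exact sq_sum_lt _ (h.G0 hz) fun j _ => h.term γ j hz (hj j)

theorem Pre.fr_red (h : Pre r c Z ρ η g k) (γ : J → O) (j : J) :
    RedAt r (ρ j) (η j) (fr ρ η k γ) (Polynomial.C (r (γ j)) * X ^ k j) := by
  classical
  have h1 := RedAt.sum (r := r) (ρ := ρ j) (η := η j) Finset.univ
    (P := fun i => Polynomial.C ((γ i : C) * η i / ρ i ^ k i) * X ^ k i)
    (Q := fun i => if i = j then Polynomial.C (r (γ j)) * X ^ k j else 0) fun i _ => by
      by_cases hi : i = j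
      · subst hi
        rw [if_pos rfl]
        exact RedAt.mono _ (div_mul_cancel₀ _ (pow_ne_zero _ (h.ρ0 i))).symm
      · rw [if_neg hi]
        refine RedAt.small h.sur (lt_of_sq ?_)
        rw [h.nrm j]
        exact h.term γ i (h.ρ0 j) fun h0 => hi (h.inj _ _ h0).symm
  simpa [fr] using h1

theorem Pre.fr_red_off (h : Pre r c Z ρ η g k) (γ : J → O) {a b : C} (ha : a ≠ 0)
    (hj : ∀ j, O.valuation a ≠ O.valuation (ρ j))
    (hb : O.valuation b ^ 2 = GZ O c Z (O.valuation a)) : RedAt r a b (fr ρ η k γ) 0 := by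
  have h1 := RedAt.sum (r := r) (ρ := a) (η := b) Finset.univ
    (P := fun i => Polynomial.C ((γ i : C) * η i / ρ i ^ k i) * X ^ k i)
    (Q := fun _ => 0) fun i _ => by
      refine RedAt.small h.sur (lt_of_sq ?_)
      rw [hb]
      exact h.term γ i ha (hj i)
  simpa [fr] using h1

theorem fin_roots (hr : Function.Surjective r) (hρ : ∀ j, ρ j ≠ 0) {S : Finset κ} {a : C} {N : C[X]}
    (h1 : ∀ z, z ≠ 0 → (∀ j, O.valuation z ≠ O.valuation (ρ j)) → N.eval z = 0 → z = a)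
    (h2 : ∀ (j : J) (e : O), r e ≠ 0 → r e ∈ S → N.eval (ρ j * e) = 0 → ρ j * e = a)
    (z : C) (hz : N.eval z = 0) : z = a ∨ z = 0 ∨ GdPt r ρ S z := by
  by_cases h0 : z = 0
  · exact Or.inr (Or.inl h0)
  by_cases h3 : ∀ j, O.valuation z ≠ O.valuation (ρ j)
  · exact Or.inl (h1 z h0 h3 hz)
  push Not at h3
  obtain ⟨j, hj⟩ := h3
  obtain ⟨e, he⟩ := exists_quot (hρ j) hj.le
  have he0 := quot_unit hr he (hρ j) hj
  rw [mul_comm] at he
  by_cases h4 : r e ∈ S
  · exact Or.inl (he ▸ h2 j e he0 h4 (he ▸ hz))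
  · exact Or.inr (Or.inr ⟨j, e, he.symm, he0, h4⟩)

theorem ne_of_val {f α : C[X]} {z : C}
    (h : O.valuation (f.eval z) ≠ O.valuation (α.eval z) ^ 2) : (f - α ^ 2).eval z ≠ 0 := by
  intro h0
  rw [eval_sub, eval_pow, sub_eq_zero] at h0
  exact h (by rw [h0, map_pow])

/-- the point lies off the circles -/
theorem Pre.coreA [Infinite κ] (h : Pre r c Z ρ η g k) (S : Finset κ) {a b : C} (ha : a ≠ 0)
    (hj : ∀ j, O.valuation a ≠ O.valuation (ρ j)) (hZ : ∀ w ∈ Z, O.valuation w ≠ O.valuation a)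
    (hb : b ^ 2 = (fm c Z).eval a) {k0 : ℕ}
    (hk : 2 * k0 = (Z.map O.valuation).countP (· < O.valuation a) + 2)
    (hc : ∀ x : O.ValueGroup, (x * O.valuation a ^ k0) ^ 2 = GZ O c Z (O.valuation a) →
      (∀ j, (x * O.valuation (ρ j) ^ k0) ^ 2 ≤ GZ O c Z (O.valuation (ρ j))) ∧
      ∀ δ : O.ValueGroup, δ ≠ 0 → δ ≠ O.valuation a → (∀ j, δ ≠ O.valuation (ρ j)) →
        GZ O c Z δ < (x * δ ^ k0) ^ 2 ∨
          ((x * δ ^ k0) ^ 2 < GZ O c Z δ ∧ ∀ w ∈ Z, O.valuation w ≠ δ)) :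
    ∃ α : C[X], α.eval a = b ∧ rootMultiplicity a (fm c Z - α ^ 2) = 1 ∧
      ∀ z : C, (fm c Z - α ^ 2).eval z = 0 → z = a ∨ z = 0 ∨ GdPt r ρ S z := by
  classical
  have hr := h.sur
  have hak : a ^ k0 ≠ 0 := pow_ne_zero _ ha
  have hvb : O.valuation b ^ 2 = GZ O c Z (O.valuation a) := by
    rw [← map_pow, hb, val_fm_eq c Z a hZ]
  have hb0 : b ≠ 0 := by
    rintro rfl
    rw [map_zero, zero_pow two_ne_zero] at hvb
    exact h.G0 ha hvb.symm
  obtain ⟨hc1, hc2⟩ := hc (O.valuation (b / a ^ k0)) (by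
    rw [← map_pow, ← map_mul, div_mul_cancel₀ _ hak, hvb])
  have hle : ∀ j, O.valuation (b / a ^ k0 * ρ j ^ k0) ≤ O.valuation (η j) := fun j =>
    le_of_sq (by rw [h.nrm j, map_mul, map_pow]; exact hc1 j)
  choose e he using fun j => exists_quot (h.η0 j) (hle j)
  choose γb _ hγ using fun j => exists_gam (S.erase 0) ∅ (fun s => r (e j) * s ^ k0)
    (fun s => s ^ k j) (fun s => (g j).eval s) fun s hs => pow_ne_zero _ (Finset.ne_of_mem_erase hs)
  choose γ hγr using fun j => hr (γb j)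
  set ε := (fr ρ η k γ).eval a with hε
  have hεb : O.valuation ε < O.valuation b := lt_of_sq (by rw [hvb]; exact h.off γ ha hj)
  have hεb' : O.valuation (ε / a ^ k0) < O.valuation (b / a ^ k0) := by
    rw [map_div₀, map_div₀]
    exact div_lt_div_of_pos_right hεb (zero_lt_iff.2 (vne hak))
  set α : C[X] := Polynomial.C (b / a ^ k0) * X ^ k0 - Polynomial.C (ε / a ^ k0) * X ^ k0 +
    fr ρ η k γ with hα
  have hαe : ∀ z, α.eval z = (b / a ^ k0 - ε / a ^ k0) * z ^ k0 + (fr ρ η k γ).eval z := fun z => by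
    simp only [hα, eval_add, eval_sub, eval_mul, eval_C, eval_pow, eval_X]
    ring
  have hαa : α.eval a = b := by
    rw [hαe, ← hε]
    field_simp
    ring
  have hNa : (fm c Z - α ^ 2).eval (a * ((1 : O) : C)) = 0 := by
    rw [OneMemClass.coe_one, mul_one, eval_sub, eval_pow, hαa, hb, sub_self]
  have hRa : RedAt r a (b ^ 2) (fm c Z - α ^ 2)
      (X ^ ((Z.map O.valuation).countP (· < O.valuation a) + 1) - (X ^ k0) ^ 2) := by
    have h1 := redAt_off hr ha c Z hZ
    rw [← hb] at h1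
    have h2 := RedAt.mono (r := r) (η := b) (ρ := a) (x := b / a ^ k0) (k := k0) 1 (by
      rw [div_mul_cancel₀ _ hak]; simp)
    have h3 := RedAt.small (η := b) (ρ := a) (x := ε / a ^ k0) (k := k0) hr (by
      rwa [div_mul_cancel₀ _ hak])
    have h4 := ((h2.sub h3).add (h.fr_red_off γ ha hj hvb)).sq
    simpa using h1.sub h4
  rw [← pow_mul, mul_comm k0, hk] at hRa
  obtain ⟨hs1, hs2⟩ := hRa.simple (pow_ne_zero 2 hb0) hNa (by
    simp [derivative_X_pow])
  refine ⟨α, hαa, by simpa using hs1, fin_roots hr h.ρ0 (fun z hz hzj hN => ?_) fun j u hu hS hN => ?_⟩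
  · by_cases hza : O.valuation z = O.valuation a
    · obtain ⟨u, hu⟩ := exists_quot ha hza.le
      have hu0 := quot_unit hr hu ha hza
      rw [mul_comm] at hu
      rw [← hu] at hN
      by_cases h1 : r u = r 1
      · rw [← hu, hs2 u h1 hN, OneMemClass.coe_one, mul_one]
      · refine (hRa.ne (pow_ne_zero 2 hb0) ?_ hN).elim
        rw [eval_sub, eval_pow, eval_pow, eval_X, pow_succ _ (_ + 1), ← mul_one_sub]
        exact mul_ne_zero (pow_ne_zero _ hu0) (sub_ne_zero.2 fun h2 => h1 (by rw [← h2, map_one]))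
    · refine (ne_of_val (O := O) ?_ hN).elim
      have h1 : O.valuation ((b / a ^ k0 - ε / a ^ k0) * z ^ k0) =
          O.valuation (b / a ^ k0) * O.valuation z ^ k0 := by
        rw [map_mul, map_pow, Valuation.map_sub_eq_of_lt_left _ hεb']
      have h2 := h.off γ hz hzj
      rcases hc2 _ (vne hz) hza hzj with h3 | ⟨h3, h4⟩
      · rw [hαe, Valuation.map_add_eq_of_lt_left _ (lt_of_sq (by rw [h1]; exact h2.trans h3)), h1]
        exact ((val_fm_le c Z z).trans_lt h3).ne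
      · rw [val_fm_eq c Z z h4, hαe]
        exact (sq_add_lt (by rw [h1]; exact h3) h2).ne'
  · have h2 := RedAt.mono (r := r) (e j) (he j)
    have h3 := RedAt.small (η := η j) (ρ := ρ j) (x := ε / a ^ k0) (k := k0) hr (by
      refine lt_of_lt_of_le ?_ (hle j)
      rw [map_mul, map_mul]
      exact mul_lt_mul_of_pos_right hεb' (zero_lt_iff.2 (vne (pow_ne_zero _ (h.ρ0 j)))))
    have h4 := (h.red j).sub ((h2.sub h3).add (h.fr_red γ j)).sq
    refine (h4.ne (pow_ne_zero 2 (h.η0 j)) ?_ hN).elim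
    have h5 := hγ j (r u) (Finset.mem_erase.2 ⟨hu, hS⟩)
    simpa [sub_eq_zero, hγr] using h5

end Vale.Agent.P027M.D
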