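import Vale.Agent.P027M.D.Atlas
import Vale.Agent.P027M.B.AJ
import Vale.Agent.P027M.F.Fld

/-!
# P027, route M, block D: the curve `W ^ 2 = fP M` at the odd primes (statements)
-/

set_option linter.all false

noncomputable section

namespace Vale.Agent.P027M.D

open Polynomial IntermediateField Vale.Agent.P022 Vale.Agent.P019P P025H816
open Vale.Agent.P027M.F (Par)
open Vale.Agent.P027M.B (Hyp)

/-- `|a|` is the fourth power of the absolute value of an element fixed by `J` -/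
def Q4 (O : ValuationSubring Qb) (J : Subgroup GQ) (a : Qb) : Prop :=
  ∃ t : Qb, (∀ σ ∈ J, σ t = t) ∧ O.valuation t ^ 4 = O.valuation a

section

variable {F : Type} [Field F] [Algebra Qb F] [CFF Qb F]

/-- `J` acts by semilinear maps which fix `M` and `W` -/
structure Pl (J : Subgroup GQ) (r : GQ → F ≃+* F) (M W : F) : Prop where
  semi : Semi J r
  fM : ∀ σ ∈ J, r σ M = M
  fW : ∀ σ ∈ J, r σ W = W

/-- an invariant chain model -/
structure ChM (O : ValuationSubring Qb) (J : Subgroup GQ) (r : GQ → F ≃+* F) where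
  ι : Type
  [fι : Fintype ι]
  c : Qb
  T : Finset Qb
  ρ : ι → Qb
  η : ι → Qb
  x : F
  y : F
  circ : Circ O ι c T ρ η
  nc : ∀ a : Qb, x ≠ algebraMap Qb F a
  deg : Module.finrank Qb⟮x⟯ F = 2
  sq : y ^ 2 = aeval x (fch c T)
  fρ : ∀ σ ∈ J, ∀ j, σ (ρ j) = ρ j
  fη : ∀ σ ∈ J, ∀ j, σ (η j) = η j
  fx : ∀ σ ∈ J, r σ x = x
  fy : ∀ σ ∈ J, r σ y = y

/-- `a` and `b` induce the same map on the Kummer classes of level `m` -/
def Same (m : ℕ) (a b : F ≃+* F) : Prop :=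
  ∀ f ∈ divU Qb F m, Units.map (a : F →* F) f / Units.map (b : F →* F) f ∈ powU F m

end

/-! ### rows -/

/-- circles from a set of roots -/
def CIRC0 : Prop := ∀ (C : Type) [Field C] (O : ValuationSubring C) (S : Set C) (c : C)
  (T : Finset C), O.valuation 2 = 1 → c ≠ 0 → (∀ z ∈ T, z ≠ 0) →
  (∀ z ∈ T, Even (T.filter fun z' => O.valuation z' = O.valuation z).card) →
  (∀ z ∈ T, ∀ z' ∈ T, z ≠ z' → O.valuation (z - z') = max (O.valuation z) (O.valuation z')) →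
  (∀ z ∈ T, (∃ ρ ∈ S, O.valuation ρ = O.valuation z) ∧ ∃ η ∈ S, O.valuation η ^ 2 =
    O.valuation c * O.valuation z * ∏ z' ∈ T, max (O.valuation z) (O.valuation z')) →
  ∃ (ι : Type) (_ : Fintype ι) (ρ η : ι → C), Circ O ι c T ρ η ∧ ∀ j, ρ j ∈ S ∧ η j ∈ S

/-- the polynomial `X ∏ (X ^ 2 - a)` -/
def CIRCA : Prop := ∀ (C : Type) [Field C] [IsAlgClosed C] (O : ValuationSubring C)
  (S : Submonoid C) (A : Finset C), O.valuation 2 = 1 →
  (∀ a ∈ A, a ≠ 0 ∧ ∃ u ∈ S, O.valuation u ^ 4 = O.valuation a) →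
  (∀ a ∈ A, ∀ b ∈ A, a ≠ b → O.valuation (a - b) = max (O.valuation a) (O.valuation b)) →
  ∃ (ι : Type) (_ : Fintype ι) (T : Finset C) (ρ η : ι → C), Circ O ι 1 T ρ η ∧
    (∀ j, ρ j ∈ S ∧ η j ∈ S) ∧ fch 1 T = X * ∏ a ∈ A, (X ^ 2 - Polynomial.C a)

/-- three circles of radii `|e|`, `1`, `|e|⁻¹` -/
def CIRCB : Prop := ∀ (C : Type) [Field C] [DecidableEq C] (O : ValuationSubring C)
  (S : Subfield C) (c u h x₁ x₂ : C), O.valuation 2 = 1 → u ∈ S → h ∈ S → u ≠ 0 → h ≠ 0 →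
  O.valuation h < 1 → O.valuation x₁ = O.valuation h ^ 2 → O.valuation x₂ = O.valuation h ^ 2 →
  O.valuation (x₁ - x₂) = O.valuation h ^ 2 →
  O.valuation c = O.valuation u ^ 2 * O.valuation h ^ 4 →
  ∃ (ι : Type) (_ : Fintype ι) (ρ η : ι → C),
    Circ O ι c {1, -1, x₁, x₂, x₁⁻¹, x₂⁻¹} ρ η ∧ (∀ j, ρ j ∈ S ∧ η j ∈ S) ∧
    fch c {1, -1, x₁, x₂, x₁⁻¹, x₂⁻¹} = Polynomial.C c * X * (X - 1) * (X + 1) *
      (X - Polynomial.C x₁) * (X - Polynomial.C x₂) * (X - Polynomial.C x₁⁻¹) *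
      (X - Polynomial.C x₂⁻¹)

/-- the degree of a hyperelliptic field over the line, in any Moebius coordinate -/
def HYPD : Prop := ∀ (k L : Type) [Field k] [Field L] [Algebra k L] (f : k[X]) (m w : L),
  Hyp f m w → ∀ (a b c d : k) (x : L), a * d - b * c ≠ 0 →
  x * (algebraMap k L c * m + algebraMap k L d) = algebraMap k L a * m + algebraMap k L b →
  (∀ e : k, x ≠ algebraMap k L e) ∧ Module.finrank k⟮x⟯ L = 2

/-- an automorphism is determined by the constants, `m` and `w` -/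
def HYPE : Prop := ∀ (k L : Type) [Field k] [Field L] [Algebra k L] (f : k[X]) (m w : L),
  Hyp f m w → ∀ a b : L ≃+* L, (∀ c : k, a (algebraMap k L c) = b (algebraMap k L c)) →
  a m = b m → a w = b w → a = b

/-- roots of units are fixed by inertia -/
def FIXU : Prop := ∀ (O : ValuationSubring Qb) (J : Subgroup GQ) (a : Qb), Ine O J →
  O.valuation 2 = 1 → (∀ σ ∈ J, σ (a ^ 4) = a ^ 4) → Q4 O J (a ^ 4) → ∀ σ ∈ J, σ a = a

/-- the absolute value of a rational number -/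
def RATV : Prop := ∀ (O : ValuationSubring Qb) (p : ℕ) (q : ℚ), p.Prime →
  O.valuation (p : Qb) < 1 → q ≠ 0 →
  O.valuation (q : Qb) = O.valuation (p : Qb) ^ padicValRat p q ∧
    (p ≠ 2 → O.valuation 2 = 1)

/-- `g` is not close to `1` -/
def CASEA : Prop := ∀ (P : Par Qb) (F : Type) [Field F] [Algebra Qb F] [CFF Qb F] (M W : F)
  (O : ValuationSubring Qb) (J : Subgroup GQ) (r : GQ → F ≃+* F), Hyp P.fP M W →
  O.valuation 2 = 1 → Pl J r M W → Q4 O J P.g0 → Q4 O J P.c → Q4 O J P.d2 →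
  1 ≤ O.valuation (P.g - 1) → Nonempty (ChM O J r)

/-- `g` is close to `1` -/
def CASEB : Prop := ∀ (P : Par Qb) (F : Type) [Field F] [Algebra Qb F] [CFF Qb F] (M W : F)
  (O : ValuationSubring Qb) (J : Subgroup GQ) (r : GQ → F ≃+* F), Hyp P.fP M W → Ine O J →
  O.valuation 2 = 1 → Pl J r M W → (∀ σ ∈ J, σ P.g = P.g ∧ σ P.g0 = P.g0) → Q4 O J P.g0 →
  O.valuation (P.g - 1) < 1 → Nonempty (ChM O J r)

/-- a chain model gives an atlas -/
def ATL : Prop := ∀ (F : Type) [Field F] [Algebra Qb F] [CFF Qb F] (O : ValuationSubring Qb)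
  (J : Subgroup GQ) (r : GQ → F ≃+* F), Semi J r → Nonempty (ChM O J r) →
  Nonempty (Atlas O J r)

/-! ### outputs -/

/-- **the general output** -/
def OUT0 : Prop := ∀ (P : Par Qb) (F : Type) [Field F] [Algebra Qb F] [CFF Qb F] (M W : F)
  (O : ValuationSubring Qb) (J : Subgroup GQ) (r : GQ → F ≃+* F), Hyp P.fP M W → Ine O J →
  O.valuation 2 = 1 → Pl J r M W → (∀ σ ∈ J, σ P.g = P.g ∧ σ P.g0 = P.g0) →
  Q4 O J P.g0 → Q4 O J P.c → Q4 O J P.d2 → ∀ m : ℕ, m ≠ 0 →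
  FlK O J r m ∧ (O.valuation (m : Qb) = 1 → Triv J r m)

/-- **invisible primes and the prime `3`** -/
def OUTI : Prop := ∀ (P : Par Qb) (F : Type) [Field F] [Algebra Qb F] [CFF Qb F] (M W : F)
  (O : ValuationSubring Qb) (I : Subgroup GQ) (r : GQ → F ≃+* F) (g : ℚ) (p : ℕ),
  Hyp P.fP M W → Ine O I → Pl I r M W → P.g = (g : Qb) → (∀ σ ∈ I, σ P.g0 = P.g0) →
  p.Prime → p ≠ 2 → O.valuation (p : Qb) < 1 → (4 : ℤ) ∣ padicValRat p g →
  (4 : ℤ) ∣ padicValRat p (g + 1) → (4 : ℤ) ∣ padicValRat p (g - 3) → O.valuation P.D = 1 →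
  ∀ m : ℕ, m ≠ 0 → FlK O I r m ∧ (¬ p ∣ m → Triv I r m)

/-- **all odd primes**: an element of inertia which fixes `p ^ (1 / 4)` and `g0 ^ (1 / 4)` acts
trivially; so does every fourth power -/
def OUTV : Prop := ∀ (P : Par Qb) (F : Type) [Field F] [Algebra Qb F] [CFF Qb F] (M W : F)
  (O : ValuationSubring Qb) (I : Subgroup GQ) (r : GQ → F ≃+* F) (g : ℚ) (p : ℕ),
  Hyp P.fP M W → Ine O I → Pl I r M W → P.g = (g : Qb) → (∀ σ ∈ I, σ P.g0 = P.g0) →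
  p.Prime → p ≠ 2 → O.valuation (p : Qb) < 1 → ∀ m : ℕ, ¬ p ∣ m →
  (∀ t δ : Qb, t ^ 4 = p → δ ^ 4 = P.g0 → ∀ σ ∈ I, σ t = t → σ δ = δ →
    Same m (r σ) (RingEquiv.refl F)) ∧
  ∀ σ ∈ I, Same m (r (σ ^ 4)) (RingEquiv.refl F)

/-- **twists**: if the untwisted curve has an invariant model, `σ` acts as a power of `io` -/
def OUTW : Prop := ∀ (P : Par Qb) (F : Type) [Field F] [Algebra Qb F] [CFF Qb F] (M W : F)
  (O : ValuationSubring Qb) (J : Subgroup GQ) (r : GQ → F ≃+* F) (io : RingAut F) (δ : Qb),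
  Hyp P.fP M W → Ine O J → O.valuation 2 = 1 → Pl J r M W →
  (∀ σ ∈ J, σ P.g = P.g ∧ σ P.g0 = P.g0) → Q4 O J P.c → Q4 O J P.d2 →
  (∀ a : Qb, io (algebraMap Qb F a) = algebraMap Qb F a) → io M = -M →
  io W = algebraMap Qb F P.i * W → δ ^ 4 = P.g0 → ∀ m : ℕ, O.valuation (m : Qb) = 1 →
  ∀ σ ∈ J, ∀ k : ℕ, σ δ = P.i ^ k * δ → Same m (r σ) (io ^ k : RingAut F)

/-- **the auxiliary primes** `7`, `19`: `v(g) = 2`; the elements of inertia which fix `√p` -/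
def OUTA : Prop := ∀ (P : Par Qb) (F : Type) [Field F] [Algebra Qb F] [CFF Qb F] (M W : F)
  (O : ValuationSubring Qb) (I : Subgroup GQ) (r : GQ → F ≃+* F) (io : RingAut F) (g : ℚ)
  (p : ℕ) (s δ : Qb), Hyp P.fP M W → Ine O I → Pl I r M W → P.g = (g : Qb) →
  (∀ σ ∈ I, σ P.g0 = P.g0) → p.Prime → p ≠ 2 → O.valuation (p : Qb) < 1 →
  Even (padicValRat p g) → Even (padicValRat p (g + 1)) → Even (padicValRat p (g - 3)) →
  (∀ a : Qb, io (algebraMap Qb F a) = algebraMap Qb F a) → io M = -M →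
  io W = algebraMap Qb F P.i * W → s ^ 2 = p → δ ^ 4 = P.g0 → ∀ m : ℕ, ¬ p ∣ m →
  ∀ σ ∈ I, σ s = s → ∀ k : ℕ, σ δ = P.i ^ k * δ → Same m (r σ) (io ^ k : RingAut F)

end Vale.Agent.P027M.D
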