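import Vale.Agent.P027M.D.Out

/-!
# P027, route M, block D: assembly of the outputs for the curve `W ^ 2 = fP M`
-/

set_option linter.all false

noncomputable section

namespace Vale.Agent.P027M.D

open Polynomial IntermediateField Vale.Agent.P022 Vale.Agent.P019P P025H816
open Vale.Agent.P027M.F (Par)
open Vale.Agent.P027M.B (Hyp)

namespace Out1

variable {O : ValuationSubring Qb} {J : Subgroup GQ}

/-- the elements fixed by `J` -/
def fixS (J : Subgroup GQ) : Submonoid Qb where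
  carrier := {t | ∀ σ ∈ J, σ t = t}
  one_mem' := fun σ _ => map_one σ
  mul_mem' := fun ha hb σ hσ => by rw [map_mul, ha σ hσ, hb σ hσ]

theorem q4_mul {a b : Qb} (ha : Q4 O J a) (hb : Q4 O J b) : Q4 O J (a * b) := by
  obtain ⟨s, s1, s2⟩ := ha
  obtain ⟨t, t1, t2⟩ := hb
  exact ⟨s * t, fun σ hσ => by rw [map_mul, s1 σ hσ, t1 σ hσ], by
    rw [map_mul, mul_pow, s2, t2, map_mul]⟩

theorem q4_inv {a : Qb} (ha : Q4 O J a) : Q4 O J a⁻¹ := by
  obtain ⟨s, s1, s2⟩ := ha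
  exact ⟨s⁻¹, fun σ hσ => by rw [map_inv₀, s1 σ hσ], by rw [map_inv₀, inv_pow, s2, map_inv₀]⟩

theorem q4_of_val {a b : Qb} (ha : Q4 O J a) (h : O.valuation b = O.valuation a) : Q4 O J b := by
  obtain ⟨s, s1, s2⟩ := ha
  exact ⟨s, s1, s2.trans h.symm⟩

theorem q4_one : Q4 O J 1 := ⟨1, fun σ _ => map_one σ, by simp⟩

theorem q4_neg {a : Qb} (ha : Q4 O J a) : Q4 O J (-a) := q4_of_val ha (Valuation.map_neg _ _)

theorem q4_four (h2 : O.valuation 2 = 1) : Q4 O J 4 :=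
  q4_of_val q4_one (by rw [show (4 : Qb) = 2 * 2 by norm_num, map_mul, h2, map_one, one_mul])

theorem q4_c {P : Par Qb} (h0 : Q4 O J P.g) (h1 : Q4 O J (P.g + 1)) (h3 : Q4 O J (P.g - 3)) :
    Q4 O J P.c := by
  rw [Par.c, div_eq_mul_inv, ← neg_sub P.g 3]
  exact q4_mul (q4_mul h0 (q4_neg h3)) (q4_inv h1)

theorem q4_d2 {P : Par Qb} (h2 : O.valuation 2 = 1) (h0 : Q4 O J P.g)
    (h1 : Q4 O J (P.g + 1)) : Q4 O J P.d2 := by
  rw [Par.d2, div_eq_mul_inv, pow_two]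
  exact q4_mul (q4_mul (q4_four h2) h0) (q4_inv (q4_mul h1 h1))

/-- a rational number whose valuation is divisible by `n`, `s ^ (4 / n)` being `p` -/
theorem q4_rat (hR : RATV) {p : ℕ} (hp : p.Prime) (hv : O.valuation (p : Qb) < 1) {s : Qb}
    {n : ℕ} (hs : s ^ 4 = (p : Qb) ^ n) (hf : ∀ σ ∈ J, σ s = s) {q : ℚ} (hq : q ≠ 0)
    (hd : (n : ℤ) ∣ padicValRat p q) : Q4 O J (q : Qb) := by
  obtain ⟨k, hk⟩ := hd
  refine ⟨s ^ k, fun σ hσ => by rw [map_zpow₀, hf σ hσ], ?_⟩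
  rw [(hR O p q hp hv hq).1, hk, zpow_mul, zpow_natCast, ← map_pow O.valuation (p : Qb), ← hs,
    map_zpow₀, map_pow, ← zpow_natCast, ← zpow_natCast, ← zpow_mul, ← zpow_mul, mul_comm]

theorem val_nat (hR : RATV) {p m : ℕ} (hp : p.Prime) (hv : O.valuation (p : Qb) < 1)
    (hm : ¬ p ∣ m) : O.valuation (m : Qb) = 1 := by
  have h0 : m ≠ 0 := by rintro rfl; exact hm (dvd_zero p)
  have := (hR O p (m : ℚ) hp hv (by exact_mod_cast h0)).1
  rwa [padicValRat.of_nat, padicValNat.eq_zero_of_not_dvd hm, Nat.cast_zero, zpow_zero,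
    Rat.cast_natCast] at this

theorem rat_ne {P : Par Qb} {g : ℚ} (hg : P.g = (g : Qb)) : g ≠ 0 ∧ g + 1 ≠ 0 ∧ g - 3 ≠ 0 := by
  refine ⟨fun h => P.hg (by rw [hg, h, Rat.cast_zero]), fun h => P.hp1 ?_, fun h => P.hm3 ?_⟩
  · rw [hg]; exact_mod_cast h
  · rw [hg, ← neg_sub]; exact neg_eq_zero.2 (by exact_mod_cast h)

theorem q4_three (hR : RATV) {P : Par Qb} {g : ℚ} (hg : P.g = (g : Qb)) {p : ℕ} (hp : p.Prime)
    (hv : O.valuation (p : Qb) < 1) {s : Qb} {n : ℕ} (hs : s ^ 4 = (p : Qb) ^ n)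
    (hf : ∀ σ ∈ J, σ s = s) (h0 : (n : ℤ) ∣ padicValRat p g)
    (h1 : (n : ℤ) ∣ padicValRat p (g + 1)) (h3 : (n : ℤ) ∣ padicValRat p (g - 3)) :
    Q4 O J P.g ∧ Q4 O J (P.g + 1) ∧ Q4 O J (P.g - 3) := by
  obtain ⟨n0, n1, n3⟩ := rat_ne hg
  rw [hg]
  refine ⟨q4_rat hR hp hv hs hf n0 h0, ?_, ?_⟩
  · have := q4_rat hR hp hv hs hf n1 h1
    push_cast at this; exact this
  · have := q4_rat hR hp hv hs hf n3 h3
    push_cast at this; exact this

theorem val_eq_max {a b : Qb} (h1 : O.valuation a ≤ O.valuation (a - b))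
    (h2 : O.valuation b ≤ O.valuation (a - b)) :
    O.valuation (a - b) = max (O.valuation a) (O.valuation b) :=
  le_antisymm (Valuation.map_sub _ _ _) (max_le h1 h2)

theorem nat_le (n : ℕ) : O.valuation (n : Qb) ≤ 1 :=
  (O.valuation_le_one_iff _).2 (natCast_mem O n)

/-- the three estimates when `g` is not close to `1` -/
theorem far (P : Par Qb) (h : 1 ≤ O.valuation (P.g - 1)) :
    O.valuation (P.c - 1) = max (O.valuation P.c) (O.valuation 1) ∧
    O.valuation (P.d2 - 1) = max (O.valuation P.d2) (O.valuation 1) ∧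
    O.valuation (P.c - P.d2) = max (O.valuation P.c) (O.valuation P.d2) := by
  set v := O.valuation
  set μ := v (P.g - 1)
  have hn : ∀ n : ℕ, v (n : Qb) ≤ μ := fun n => (nat_le n).trans h
  have ha : ∀ n : ℕ, v (P.g - 1 + n) ≤ μ := fun n => Valuation.map_add_le _ le_rfl (hn n)
  have hs : ∀ n : ℕ, v (n - (P.g - 1)) ≤ μ := fun n => Valuation.map_sub_le _ (hn n) le_rfl
  have g0 : v P.g ≤ μ := by simpa using ha 1
  have g1 : v (P.g + 1) ≤ μ := by
    have := ha 2; rwa [show P.g - 1 + (2 : ℕ) = P.g + 1 by push_cast; ring] at this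
  have g3 : v (3 - P.g) ≤ μ := by
    have := hs 2; rwa [show ((2 : ℕ) : Qb) - (P.g - 1) = 3 - P.g by push_cast; ring] at this
  have g4 : v 4 ≤ μ := by simpa using hn 4
  have hμ : μ ≤ μ * μ := le_mul_of_one_le_right zero_le' h
  have p1 : 0 < v (P.g + 1) := (Valuation.pos_iff _).2 P.hp1
  refine ⟨val_eq_max ?_ ?_, val_eq_max ?_ ?_, val_eq_max ?_ ?_⟩
  · rw [P.c_sub_one, Par.c, map_div₀, map_div₀, Valuation.map_neg, map_mul, map_pow, pow_two]
    exact div_le_div_of_nonneg_right (mul_le_mul' g0 g3) p1.le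
  · rw [P.c_sub_one, map_div₀, Valuation.map_neg, map_pow, pow_two, map_one, le_div_iff₀ p1,
      one_mul]
    exact g1.trans hμ
  · rw [P.d2_sub_one, Par.d2, map_div₀, map_div₀, Valuation.map_neg, map_mul, map_pow, map_pow,
      pow_two μ]
    exact div_le_div_of_nonneg_right (mul_le_mul' g4 g0) (pow_pos p1 2).le
  · rw [P.d2_sub_one, map_div₀, Valuation.map_neg, map_pow, map_pow, map_one,
      le_div_iff₀ (pow_pos p1 2), one_mul, pow_two, pow_two]
    exact mul_le_mul' g1 g1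
  · have : P.c = P.g * ((3 - P.g) * (P.g + 1)) / (P.g + 1) ^ 2 := by
      have := P.hp1
      rw [Par.c]; field_simp
    rw [P.c_sub_d2, this, map_div₀, map_div₀, Valuation.map_neg, map_mul, map_mul, map_mul,
      map_pow, map_pow, pow_two μ]
    exact div_le_div_of_nonneg_right (mul_le_mul_right (mul_le_mul' g3 g1) _) (pow_pos p1 2).le
  · rw [P.c_sub_d2, Par.d2, map_div₀, map_div₀, Valuation.map_neg, map_mul, map_mul, map_pow,
      map_pow, pow_two μ, mul_comm (v 4)]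
    exact div_le_div_of_nonneg_right (mul_le_mul_right (g4.trans hμ) _) (pow_pos p1 2).le

end Out1

open Out1

theorem casea (hA : CIRCA) (hD : HYPD) : CASEA := by
  classical
  intro P F _ _ _ M W O J r H h2 hr q0 qc qd h
  obtain ⟨f1, f2, f3⟩ := far P h
  have sc : ∀ a b : Qb, O.valuation (a - b) = max (O.valuation a) (O.valuation b) →
      O.valuation (a * P.g0 - b * P.g0) = max (O.valuation (a * P.g0)) (O.valuation (b * P.g0)) ∧
      O.valuation (b * P.g0 - a * P.g0) = max (O.valuation (b * P.g0)) (O.valuation (a * P.g0)) := by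
    intro a b hab
    have : O.valuation (a * P.g0 - b * P.g0) =
        max (O.valuation (a * P.g0)) (O.valuation (b * P.g0)) := by
      rw [← sub_mul, map_mul, map_mul, map_mul, hab, max_mul_mul_right]
    exact ⟨this, by rw [Valuation.map_sub_swap, this, max_comm]⟩
  have n1 : P.g0 ≠ P.c * P.g0 := fun e =>
    mul_ne_zero P.c_ne_one P.hg0 (by linear_combination -e)
  have n2 : P.g0 ≠ P.d2 * P.g0 := fun e =>
    mul_ne_zero P.d2_ne_one P.hg0 (by linear_combination -e)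
  have n3 : P.c * P.g0 ≠ P.d2 * P.g0 := fun e =>
    mul_ne_zero P.c_ne_d2 P.hg0 (by linear_combination e)
  obtain ⟨ι, _, T, ρ, η, hc, hS, hf⟩ := hA Qb O (fixS J) {P.g0, P.c * P.g0, P.d2 * P.g0} h2 (by
    intro a ha
    simp only [Finset.mem_insert, Finset.mem_singleton] at ha
    rcases ha with rfl | rfl | rfl
    · exact ⟨P.hg0, q0⟩
    · exact ⟨mul_ne_zero P.c_ne P.hg0, q4_mul qc q0⟩
    · exact ⟨mul_ne_zero P.d2_ne P.hg0, q4_mul qd q0⟩) (by
    have s1 := sc _ _ f1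
    have s2 := sc _ _ f2
    have s3 := sc _ _ f3
    rw [one_mul] at s1 s2
    intro a ha b hb hab
    simp only [Finset.mem_insert, Finset.mem_singleton] at ha hb
    rcases ha with rfl | rfl | rfl <;> rcases hb with rfl | rfl | rfl
    exacts [absurd rfl hab, s1.2, s2.2, s1.1, absurd rfl hab, s3.1, s2.1, s3.2, absurd rfl hab])
  obtain ⟨d1, d2⟩ := hD Qb F P.fP M W H 1 0 0 1 M (by simp) (by simp)
  refine ⟨⟨ι, 1, T, ρ, η, M, W, hc, d1, d2, ?_, fun σ hσ j => (hS j).1 σ hσ,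
    fun σ hσ j => (hS j).2 σ hσ, hr.fM, hr.fW⟩⟩
  rw [hf, H.sq, Finset.prod_insert (by simp [n1, n2]), Finset.prod_insert (by simp [n3]),
    Finset.prod_singleton, Par.fP]
  congr 1
  ring

theorem atl (hC : CHC) (hM : MOVC) : ATL := by
  rintro F _ _ _ O J r hs ⟨m⟩
  letI := m.fι
  have hsurj : Function.Surjective (IsLocalRing.residue O) := IsLocalRing.residue_surjective
  choose ch c1 c2 using hC Qb (IsLocalRing.ResidueField O) F m.ι O _ hsurj m.c m.T m.ρ m.η m.circ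
    m.x m.y m.nc m.deg m.sq
  refine ⟨⟨IsLocalRing.ResidueField O, IsLocalRing.residue O, hsurj, m.ι, ch, ?_, ?_, ?_⟩⟩
  · intro σ hσ j
    rw [c1, map_mul, hs σ hσ, map_inv₀, m.fρ σ hσ, m.fx σ hσ]
  · intro σ hσ j
    rw [c2, map_mul, hs σ hσ, map_inv₀, m.fη σ hσ, m.fy σ hσ]
  · simp only [c1]
    exact hM Qb _ F m.ι O _ hsurj m.c m.T m.ρ m.η m.circ m.x m.y m.nc m.deg m.sq

theorem out0 (hA : CASEA) (hB : CASEB) (hT : ATL) (hE : HYPE) (hR : REP) (hF : Spec_FLA)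
    (hU : Spec_UNR) : OUT0 := by
  intro P F _ _ _ M W O J r H hI h2 hr hg q0 qc qd m hm
  have hc : Nonempty (ChM O J r) := by
    rcases le_or_gt 1 (O.valuation (P.g - 1)) with h | h
    · exact hA P F M W O J r H h2 hr q0 qc qd h
    · exact hB P F M W O J r H hI h2 hr hg q0 h
  have h := hF hR F O J r hI hr.semi (hT F O J r hr.semi hc) m hm
  refine ⟨h, fun hv => hU F O J r m hI hr.semi ?_ hv h⟩
  exact hE Qb F P.fP M W H _ _ (fun c => hr.semi 1 J.one_mem c) (hr.fM 1 J.one_mem)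
    (hr.fW 1 J.one_mem)

theorem Pl.mono {F : Type} [Field F] [Algebra Qb F] [CFF Qb F] {I J : Subgroup GQ}
    {r : GQ → F ≃+* F} {M W : F} (h : Pl I r M W) (hJ : J ≤ I) : Pl J r M W :=
  ⟨fun σ hσ => h.semi σ (hJ hσ), fun σ hσ => h.fM σ (hJ hσ), fun σ hσ => h.fW σ (hJ hσ)⟩

theorem outi (h0 : OUT0) (hR : RATV) : OUTI := by
  intro P F _ _ _ M W O I r g p H hI hr hg hg0 hp hp2 hv v0 v1 v3 hD m hm
  have h2 := (hR O p 1 hp hv one_ne_zero).2 hp2
  obtain ⟨a0, a1, a3⟩ := q4_three (J := I) hR hg hp hv (s := p) (n := 4) rfl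
    (fun σ _ => map_natCast σ p) v0 v1 v3
  have qd := q4_d2 h2 a0 a1
  have q0 : Q4 O I P.g0 := by
    have hb : Q4 O I P.b2 := by
      rw [P.b2_eq, pow_two]; exact q4_mul (q4_mul a0 a0) qd
    refine q4_of_val (q4_inv hb) ?_
    rw [Par.D, map_mul] at hD
    rw [map_inv₀]
    exact eq_inv_of_mul_eq_one_right hD
  obtain ⟨o1, o2⟩ := h0 P F M W O I r H hI h2 hr
    (fun σ hσ => ⟨by rw [hg, map_ratCast], hg0 σ hσ⟩) q0 (q4_c a0 a1 a3) qd m hm
  exact ⟨o1, fun h => o2 (val_nat hR hp hv h)⟩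

theorem pow4_fix (hX : FIXU) {O : ValuationSubring Qb} {I : Subgroup GQ} (hI : Ine O I)
    (h2 : O.valuation 2 = 1) {t : Qb} (ht : ∀ σ ∈ I, σ (t ^ 4) = t ^ 4) {σ : GQ} (hσ : σ ∈ I) :
    (σ ^ 4) t = t := by
  rcases eq_or_ne t 0 with rfl | h0
  · exact map_zero _
  have hz : (σ t / t) ^ 4 = 1 := by
    rw [div_pow, ← map_pow, ht σ hσ, div_self (pow_ne_zero 4 h0)]
  have hf := hX O I (σ t / t) hI h2 (fun τ _ => by rw [hz, map_one]) (by rw [hz]; exact q4_one) σ hσ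
  set z := σ t / t
  have h1 : σ t = z * t := (div_mul_cancel₀ _ h0).symm
  have : ∀ n : ℕ, (σ ^ n) t = z ^ n * t := by
    intro n
    induction n with
    | zero => simp
    | succ n ih =>
      rw [pow_succ', AlgEquiv.mul_apply, ih, map_mul, map_pow, hf, h1]; ring
  rw [this, hz, one_mul]

theorem outv (h0 : OUT0) (hR : RATV) (hX : FIXU) : OUTV := by
  intro P F _ _ _ M W O I r g p H hI hr hg hg0 hp hp2 hv m hm
  have h2 := (hR O p 1 hp hv one_ne_zero).2 hp2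
  have key : ∀ t δ : Qb, t ^ 4 = p → δ ^ 4 = P.g0 → ∀ σ ∈ I, σ t = t → σ δ = δ →
      Same m (r σ) (RingEquiv.refl F) := by
    intro t δ ht hδ σ hσ s1 s2
    let J : Subgroup GQ := I ⊓ (MulAction.stabilizer GQ t ⊓ MulAction.stabilizer GQ δ)
    have hJ : J ≤ I := inf_le_left
    obtain ⟨a0, a1, a3⟩ := q4_three (J := J) hR hg hp hv (s := t) (n := 1) (by rw [ht, pow_one])
      (fun τ hτ => hτ.2.1) (one_dvd _) (one_dvd _) (one_dvd _)
    have o := (h0 P F M W O J r H (hI.mono hJ) h2 (hr.mono hJ)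
      (fun τ hτ => ⟨by rw [hg, map_ratCast], hg0 τ (hJ hτ)⟩)
      ⟨δ, fun τ hτ => hτ.2.2, by rw [← map_pow, hδ]⟩ (q4_c a0 a1 a3) (q4_d2 h2 a0 a1) m
      (by rintro rfl; exact hm (dvd_zero p))).2 (val_nat hR hp hv hm)
    exact fun f hf => o σ ⟨hσ, s1, s2⟩ f hf
  refine ⟨key, fun σ hσ => ?_⟩
  obtain ⟨t, ht⟩ := IsAlgClosed.exists_pow_nat_eq (p : Qb) (n := 4) (by norm_num)
  obtain ⟨δ, hδ⟩ := IsAlgClosed.exists_pow_nat_eq P.g0 (n := 4) (by norm_num)
  exact key t δ ht hδ _ (I.pow_mem hσ 4)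
    (pow4_fix hX hI h2 (fun τ _ => by rw [ht, map_natCast]) hσ)
    (pow4_fix hX hI h2 (fun τ hτ => by rw [hδ, hg0 τ hτ]) hσ)

theorem outa (hW : OUTW) (hR : RATV) : OUTA := by
  intro P F _ _ _ M W O I r io g p s δ H hI hr hg hg0 hp hp2 hv v0 v1 v3 i1 i2 i3 hs hδ m hm σ hσ
    s1 k hk
  have h2 := (hR O p 1 hp hv one_ne_zero).2 hp2
  let J : Subgroup GQ := I ⊓ MulAction.stabilizer GQ s
  have hJ : J ≤ I := inf_le_left
  obtain ⟨a0, a1, a3⟩ := q4_three (J := J) hR hg hp hv (s := s) (n := 2) (by rw [← hs]; ring)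
    (fun τ hτ => hτ.2) v0.two_dvd v1.two_dvd v3.two_dvd
  exact hW P F M W O J r io δ H (hI.mono hJ) h2 (hr.mono hJ)
    (fun τ hτ => ⟨by rw [hg, map_ratCast], hg0 τ (hJ hτ)⟩) (q4_c a0 a1 a3) (q4_d2 h2 a0 a1)
    i1 i2 i3 hδ m (val_nat hR hp hv hm) σ ⟨hσ, s1⟩ k hk

end Vale.Agent.P027M.D
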