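import Vale.Agent.P027M.D.Out

/-!
# P027, route M, block D: twists (row OUTW)
-/

set_option linter.all false

noncomputable section

namespace Vale.Agent.P027M.D

open Polynomial IntermediateField Vale.Agent.P022 Vale.Agent.P019P P025H816
open Vale.Agent.P027M.F (Par)
open Vale.Agent.P027M.B (Hyp)

namespace Outw

theorem aeval_scale {k L : Type*} [Field k] [Field L] [Algebra k L] (a : k) (m : L) (p : k[X]) :
    aeval m (p.comp (C a * X)) = aeval (algebraMap k L a * m) p := by
  rw [aeval_comp, map_mul, aeval_C, aeval_X]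

theorem comp_ne {k : Type*} [Field k] {a : k} (ha : a ≠ 0) {p : k[X]} (hp : p ≠ 0) :
    p.comp (C a * X) ≠ 0 := by
  intro h
  rw [comp_eq_zero_iff] at h
  rcases h with h | ⟨-, h⟩
  · exact hp h
  · have := congrArg natDegree h
    rw [natDegree_C_mul_X a ha, natDegree_C] at this
    exact one_ne_zero this

/-- scaling of a hyperelliptic model -/
theorem scale {k L : Type*} [Field k] [Field L] [Algebra k L] {f f1 : k[X]} {m w : L} {a b : k}
    (ha : a ≠ 0) (hb : b ≠ 0) (h : Hyp f (algebraMap k L a * m) (algebraMap k L b * w))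
    (e : f.comp (C a * X) = C (b ^ 2) * f1) : Hyp f1 m w := by
  have hb2 : b ^ 2 ≠ 0 := pow_ne_zero 2 hb
  have hbL : algebraMap k L b ≠ 0 := (_root_.map_ne_zero _).2 hb
  refine ⟨h.two, ?_, ?_, ?_, ?_, ?_⟩
  · have h1 := congrArg natDegree e
    rw [natDegree_comp, natDegree_C_mul_X a ha, mul_one, h.deg, natDegree_C_mul hb2] at h1
    exact h1.symm
  · have h1 : IsCoprime (f.comp (C a * X)) ((derivative f).comp (C a * X)) :=
      IsCoprime.map h.sep (compRingHom (C a * X))
    have h2 : (f.comp (C a * X)).Separable := by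
      rw [Separable, derivative_comp, derivative_C_mul_X]
      exact (isCoprime_mul_unit_left_right (isUnit_C.2 (Ne.isUnit ha)) _ _).2 h1
    rw [e] at h2
    exact h2.of_mul_right
  · intro hm
    exact h.tr ((isAlgebraic_algebraMap a).mul hm)
  · have h1 := h.sq
    rw [← aeval_scale, e, map_mul, aeval_C, map_pow, mul_pow] at h1
    exact mul_left_cancel₀ (pow_ne_zero 2 hbL) h1
  · intro z
    obtain ⟨p, q, s, hs, h1⟩ := h.top z
    refine ⟨p.comp (C a * X), q.comp (C a * X) * C b, s.comp (C a * X), comp_ne ha hs, ?_⟩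
    rw [map_mul, aeval_C, aeval_scale, aeval_scale, aeval_scale, h1, mul_assoc]

/-- the untwisted parameters -/
def one (P : Par Qb) : Par Qb := { P with g0 := 1, hg0 := one_ne_zero }

theorem fP_scale (P : Par Qb) (δ : Qb) (h : δ ^ 4 = P.g0) :
    P.fP.comp (C (δ ^ 2) * X) = C ((δ ^ 7) ^ 2) * (one P).fP := by
  have e1 : (one P).g0 = 1 := rfl
  have e2 : (one P).c = P.c := rfl
  have e3 : (one P).d2 = P.d2 := rfl
  unfold Par.fP
  rw [e1, e2, e3, ← h]
  simp only [mul_comp, sub_comp, pow_comp, X_comp, C_comp, map_mul, map_pow, map_one]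
  ring

theorem root (P : Par Qb) {x δ : Qb} (h : x ^ 4 = δ ^ 4) : ∃ k : ℕ, x = P.i ^ k * δ := by
  have hi := P.hi
  have e : (x - δ) * (x - P.i * δ) * (x + δ) * (x + P.i * δ) = 0 := by
    linear_combination h - (x ^ 2 - δ ^ 2) * δ ^ 2 * hi
  rcases mul_eq_zero.1 e with e | e
  · rcases mul_eq_zero.1 e with e | e
    · rcases mul_eq_zero.1 e with e | e
      · exact ⟨0, by linear_combination e⟩
      · exact ⟨1, by linear_combination e⟩
    · exact ⟨2, by linear_combination e - δ * hi⟩
  · exact ⟨3, by linear_combination e - P.i * δ * hi⟩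

section

variable {F : Type} [Field F] [Algebra Qb F]

theorem pow_const {io : RingAut F} (h : ∀ a : Qb, io (algebraMap Qb F a) = algebraMap Qb F a)
    (k : ℕ) (a : Qb) : (io ^ k : RingAut F) (algebraMap Qb F a) = algebraMap Qb F a := by
  induction k with
  | zero => rfl
  | succ k ih =>
    rw [pow_succ]
    show (io ^ k : RingAut F) (io _) = _
    rw [h, ih]

theorem pow_eig {io : RingAut F} (h : ∀ a : Qb, io (algebraMap Qb F a) = algebraMap Qb F a)
    {x : F} {u : Qb} (hx : io x = algebraMap Qb F u * x) (k : ℕ) :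
    (io ^ k : RingAut F) x = algebraMap Qb F (u ^ k) * x := by
  induction k with
  | zero =>
    rw [pow_zero, pow_zero, map_one, one_mul]
    rfl
  | succ k ih =>
    rw [pow_succ]
    show (io ^ k : RingAut F) (io _) = _
    rw [hx, map_mul, pow_const h, ih, pow_succ, map_mul]
    ring

end

end Outw

theorem outw0 (H : OUT0) : OUTW := by
  intro P F _ _ _ M W O J r io δ hyp ine two pl fix qc qd hio hM hW hδ m hm σ hσ k hk
  have δ0 : δ ≠ 0 := by
    rintro rfl
    exact P.hg0 (by rw [← hδ]; ring)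
  have hd : algebraMap Qb F δ ≠ 0 := (_root_.map_ne_zero _).2 δ0
  have hK : ∀ t : GQ, ∃ j : ℕ, (t ∈ J → t δ = P.i ^ j * δ) ∧ (t = σ → j = k) := by
    intro t
    by_cases h : t = σ
    · exact ⟨k, fun _ => by rw [h, hk], fun _ => rfl⟩
    · by_cases ht : t ∈ J
      · obtain ⟨j, hj⟩ := Outw.root P (x := t δ) (δ := δ) (by rw [← map_pow, hδ, (fix t ht).2])
        exact ⟨j, fun _ => hj, fun h' => absurd h' h⟩
      · exact ⟨0, fun h' => absurd h' ht, fun h' => absurd h' h⟩
  choose K hK1 hK2 using hK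
  set x : F := M / algebraMap Qb F (δ ^ 2) with hx
  set y : F := W / algebraMap Qb F (δ ^ 7) with hy
  have hd2 : algebraMap Qb F (δ ^ 2) ≠ 0 := (_root_.map_ne_zero _).2 (pow_ne_zero _ δ0)
  have hd7 : algebraMap Qb F (δ ^ 7) ≠ 0 := (_root_.map_ne_zero _).2 (pow_ne_zero _ δ0)
  have hyp1 : Hyp (Outw.one P).fP x y := by
    refine Outw.scale (pow_ne_zero 2 δ0) (pow_ne_zero 7 δ0) ?_ (Outw.fP_scale P δ hδ)
    rw [hx, hy, mul_div_cancel₀ _ hd2, mul_div_cancel₀ _ hd7]
    exact hyp
  let r1 : GQ → F ≃+* F := fun t => (r t).trans (io ^ K t : RingAut F).symm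
  have hr1 : ∀ t z, (io ^ K t : RingAut F) (r1 t z) = r t z := fun t z =>
    (io ^ K t : RingAut F).apply_symm_apply _
  have hM' : io M = algebraMap Qb F (-1) * M := by rw [hM, map_neg, map_one, neg_one_mul]
  have hi := P.hi
  have pl1 : Pl J r1 x y := by
    refine ⟨fun t ht c => ?_, fun t ht => ?_, fun t ht => ?_⟩
    · apply (io ^ K t : RingAut F).injective
      rw [hr1, pl.semi t ht, Outw.pow_const hio]
    · apply (io ^ K t : RingAut F).injective
      have e : (-1 : Qb) ^ K t * t (δ ^ 2) = δ ^ 2 := by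
        rw [map_pow, hK1 t ht, mul_pow, ← pow_mul, mul_comm (K t) 2, pow_mul, hi, ← mul_assoc,
          ← mul_pow]
        norm_num
      have n : algebraMap Qb F (t (δ ^ 2)) ≠ 0 :=
        (_root_.map_ne_zero _).2 ((_root_.map_ne_zero t).2 (pow_ne_zero _ δ0))
      rw [hr1, hx, map_div₀, map_div₀, pl.fM t ht, pl.semi t ht, Outw.pow_const hio,
        Outw.pow_eig hio hM', div_eq_div_iff n hd2, mul_right_comm, ← map_mul, e, mul_comm]
    · apply (io ^ K t : RingAut F).injective
      have e : P.i ^ K t * t (δ ^ 7) = δ ^ 7 := by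
        have h8 : P.i * P.i ^ 7 = 1 := by
          have : P.i * P.i ^ 7 = (P.i ^ 2) ^ 4 := by ring
          rw [this, hi]; norm_num
        rw [map_pow, hK1 t ht, mul_pow, ← pow_mul, mul_comm (K t) 7, pow_mul, ← mul_assoc,
          ← mul_pow, h8, one_pow, one_mul]
      have n : algebraMap Qb F (t (δ ^ 7)) ≠ 0 :=
        (_root_.map_ne_zero _).2 ((_root_.map_ne_zero t).2 (pow_ne_zero _ δ0))
      rw [hr1, hy, map_div₀, map_div₀, pl.fW t ht, pl.semi t ht, Outw.pow_const hio,
        Outw.pow_eig hio hW, div_eq_div_iff n hd7, mul_right_comm, ← map_mul, e, mul_comm]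
  have m0 : m ≠ 0 := by
    rintro rfl
    simp at hm
  have q1 : Q4 O J (Outw.one P).g0 := ⟨1, fun t _ => map_one t, by
    show O.valuation 1 ^ 4 = O.valuation 1
    rw [map_one, one_pow]⟩
  have T := (H (Outw.one P) F x y O J r1 hyp1 ine two pl1
    (fun t ht => ⟨(fix t ht).1, map_one t⟩) q1 qc qd m m0).2 hm
  intro f hf
  obtain ⟨u, hu⟩ := mem_powU.1 (T σ hσ f hf)
  refine mem_powU.2 ⟨Units.map ((io ^ k : RingAut F) : F →* F) u, ?_⟩
  rw [← map_pow, hu, _root_.map_div]
  congr 1
  apply Units.ext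
  have := hr1 σ f
  rw [hK2 σ rfl] at this
  exact this

theorem outw (H : OUT0) (_ : HYPE) : OUTW := outw0 H

end Vale.Agent.P027M.D
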