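import Vale.Agent.P027M.D.Fc
import Vale.Agent.P027M.D.GeoAll
import Vale.Agent.P027M.D.Fla
import Vale.Agent.P027M.D.Over
import Vale.Agent.P027M.D.Circ
import Vale.Agent.P027M.D.Circb
import Vale.Agent.P027M.D.Hyp
import Vale.Agent.P027M.D.Vals
import Vale.Agent.P027M.D.Caseb
import Vale.Agent.P027M.D.Outw

/-!
# P027, route M, block D: the outputs for the curve `C`, closed terms
-/

set_option linter.all false

noncomputable section

namespace Vale.Agent.P027M.D

open Polynomial Vale.Agent.P022 Vale.Agent.P019P P025H816 _root_.P027M.K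

namespace OutAll

theorem root_eq {O : ValuationSubring Qb} {m : ℕ} (hm : O.valuation (m : Qb) = 1) {a b : Qb}
    (ha : a ^ m = 1) (hb : b ^ m = 1) (h : O.valuation (a - b) < 1) : a = b := by
  have m0 : m ≠ 0 := by rintro rfl; simp at hm
  have va : O.valuation a = 1 :=
    (pow_eq_one_iff_of_nonneg zero_le' m0).1 (by rw [← map_pow, ha, map_one])
  have vb : O.valuation b = 1 :=
    (pow_eq_one_iff_of_nonneg zero_le' m0).1 (by rw [← map_pow, hb, map_one])
  by_contra hne
  have h0 : ∑ i ∈ Finset.range m, a ^ i * b ^ (m - 1 - i) = 0 :=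
    (mul_eq_zero.1 ((Commute.all a b).geom_sum₂_mul m |>.trans (by rw [ha, hb, sub_self]))).resolve_right
      (sub_ne_zero.2 hne)
  have hp : ∀ i : ℕ, O.valuation (a ^ i - b ^ i) < 1 := fun i => by
    rw [← (Commute.all a b).geom_sum₂_mul i, map_mul, mul_comm]
    refine mul_lt_one_of_lt_of_le h (Valuation.map_sum_le _ fun j _ => ?_)
    rw [map_mul, map_pow, map_pow, va, vb, one_pow, one_pow, one_mul]
  have h1 : O.valuation (∑ i ∈ Finset.range m, (a ^ i - b ^ i) * b ^ (m - 1 - i)) < 1 :=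
    Valuation.map_sum_lt _ one_ne_zero fun i _ => by
      rw [map_mul, map_pow, vb, one_pow, mul_one]; exact hp i
  have h2 : ∑ i ∈ Finset.range m, (a ^ i - b ^ i) * b ^ (m - 1 - i) = -(m * b ^ (m - 1)) := by
    simp only [sub_mul, Finset.sum_sub_distrib, h0, zero_sub]
    rw [Finset.sum_congr rfl (g := fun _ => b ^ (m - 1)) fun i hi => by
      rw [← pow_add, show i + (m - 1 - i) = m - 1 by have := Finset.mem_range.1 hi; omega]]
    simp
  rw [h2, Valuation.map_neg, map_mul, hm, map_pow, vb, one_pow, one_mul] at h1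
  exact lt_irrefl _ h1

theorem unr0 : Spec_UNR := by
  intro F _ _ _ O I r m hI hs h1 hm h σ hσ f hf
  have mq : (m : Qb) ≠ 0 := fun e => by simp [e] at hm
  have m0 : m ≠ 0 := by exact_mod_cast mq
  have hf' : Units.map (r σ : F →* F) f ∈ divU Qb F m :=
    mU_mem (s := r σ) (s₀ := σ.toRingEquiv) (hs σ hσ) hf
  refine nondeg mq (div_mem hf' hf) fun g hg => ?_
  have hz := (Bs_val hI (h (fun u => ((e Qb m u g).toMul : Qbˣ))
    (fun u hu w hw => by rw [e_mul_left m0 g hu hw, toMul_add, Units.val_mul])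
    (fun u hu => by rw [e_powU_left m0 hu hg]; rfl) f hf) ⟨σ, hσ⟩).2
  have hr : ∀ u ∈ divU Qb F m, (((e Qb m u g).toMul : Qbˣ) : Qb) ^ m = 1 := fun u hu => by
    rw [← Units.val_pow_eq_pow_val, ← toMul_nsmul, nsmul_e m0 hu hg]; rfl
  have e1 : Units.map (r ((1 : I) : GQ) : F →* F) f = f := by
    rw [OneMemClass.coe_one, h1]; rfl
  simp only [e1] at hz
  have e2 : e Qb m (Units.map (r σ : F →* F) f) g = e Qb m f g :=
    Additive.toMul.injective (Units.ext (root_eq hm (hr _ hf') (hr _ hf) hz))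
  have := e_mul_left m0 g (div_mem hf' hf) hf
  rwa [div_mul_cancel, e2, right_eq_add] at this

end OutAll

theorem atl0 : ATL := atl chc0 movc0

theorem out00 : OUT0 :=
  out0 (casea circa hypd) (caseb (circb circ0) hypd fixu) atl0 hype rep0 fla OutAll.unr0

theorem outi0 : OUTI := outi out00 ratv

theorem outv0 : OUTV := outv out00 ratv fixu

theorem outw00 : OUTW := outw0 out00

theorem outa0 : OUTA := outa outw00 ratv

theorem hyp0 : F.HYP := hyp hypd

theorem dout0 : F.DOUT := dout out00 over_ok ratv fixu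

end Vale.Agent.P027M.D
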