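import Vale.Agent.P027M.D.Bas0

/-!
# P027, route M, block D: norms and places, values, representation of functions
-/

set_option linter.all false

noncomputable section

namespace Vale.Agent.P027M.D.Own

open Polynomial IntermediateField Vale.Agent.P019P P025H492 P025H816
open _root_.P027M.K (Val)

theorem ord_aeval {k K : Type} [Field k] [Field K] [Algebra k K] [CFF k K] {Q : Plk k K} {t : K}
    {a : k} (h : ord Q (t - algebraMap k K a) = 1) {p : k[X]} (hp : p ≠ 0) :
    ord Q (aeval t p) = rootMultiplicity a p := by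
  obtain ⟨q, h1, h2⟩ := exists_eq_pow_rootMultiplicity_mul_and_not_dvd p hp a
  have hv : Val Q t a := mem_Mge_one_of_pos (by omega)
  have h3 := (val_aeval hv q).unit (fun h0 => h2 (dvd_iff_isRoot.2 h0))
  have h4 : t - algebraMap k K a ≠ 0 := fun h0 => by
    rw [h0, ord_zero] at h
    omega
  conv_lhs => rw [h1]
  rw [map_mul, map_pow, map_sub, aeval_X, aeval_C, ord_mul Q (pow_ne_zero _ h4) h3.1, ord_pow, h,
    h3.2]
  simp

theorem nrp : NRP := by
  intro k L _ _ _ _ x z p a hx hp hN
  classical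
  have := cff_adjoin hx
  have := (finite_of_notMem hx).2
  obtain ⟨Q, h1, h2⟩ := line_fib hx a
  have h3 : Algebra.norm k⟮x⟯ z = aeval (AdjoinSimple.gen k x) p := by
    apply (algebraMap k⟮x⟯ L).injective
    rw [hN, ← aeval_algebraMap_apply, AdjoinSimple.algebraMap_gen]
  have h4 : ∀ P : Plk k L, clb x P = some a ↔ down k⟮x⟯ P = Q := fun P => by
    have h5 : ord P (x - algebraMap k L a) = ram k⟮x⟯ P * ord (down k⟮x⟯ P)
        (AdjoinSimple.gen k x - algebraMap k k⟮x⟯ a) := by
      rw [← ord_algebraMap, map_sub, AdjoinSimple.algebraMap_gen, ← IsScalarTower.algebraMap_apply]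
    have h6 : (0 : ℤ) < ram k⟮x⟯ P := by exact_mod_cast ram_pos P
    rw [clb_eq_some]
    constructor
    · intro h7
      have h8 : 0 < ord P (x - algebraMap k L a) := by
        rcases mem_Mge.1 h7 with h8 | h8
        · exact absurd (sub_eq_zero.1 h8) (hx a)
        · omega
      rw [h5] at h8
      exact h2 _ ((mul_pos_iff_of_pos_left h6).1 h8)
    · intro h7
      refine mem_Mge_one_of_pos ?_
      rw [h5, h7, h1]
      omega
  rw [← ord_aeval h1 hp, ← h3, ← dv_apply, dv_norm]
  change _ = Finsupp.mapDomain (down k⟮x⟯) (dv k z) Q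
  simp only [Finsupp.mapDomain, Finsupp.sum_apply, Finsupp.single_apply, h4]

variable {C κ F : Type} [Field C] [Field κ] [Field F] [Algebra C F] [CFF C F]
  {O : ValuationSubring C} {r : O →+* κ}

theorem val_eval₂ {x : F} {P : Plk C F} {a : O} (h : Val P x (a : C)) (β : O[X]) :
    Val P (eval₂ (io O F) x β) (β.eval a : O) := by
  rw [eval₂_io]
  have := val_aeval h (β.map O.subtype)
  rwa [show (β.map O.subtype).eval (a : C) = ((β.eval a : O) : C) from eval_map_apply O.subtype a]
    at this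

theorem val_ev {x θ : F} {P : Plk C F} {a b : O} (h : Val P x (a : C)) (h' : Val P θ (b : C))
    (A : O[X][X]) : Val P (ev (io O F) x θ A) (A.evalEval a b : O) := by
  induction A using Polynomial.induction_on' with
  | add p q hp hq => rw [map_add, evalEval_add]; exact hp.add hq
  | monomial n c =>
    rw [← C_mul_X_pow_eq_monomial, map_mul, map_pow, ev_C, ev_X, evalEval_mul, evalEval_pow,
      evalEval_C, evalEval_X]
    exact (val_eval₂ h c).mul (h'.pow n)

theorem val_ev' {x θ : F} {P : Plk C F} {a : O} {b : C} (h : Val P x (a : C)) (h' : Val P θ b)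
    (A : O[X][X]) : Val P (ev (io O F) x θ A) (eval₂ O.subtype b (A.map (evalRingHom a))) := by
  induction A using Polynomial.induction_on' with
  | add p q hp hq => rw [map_add, Polynomial.map_add, eval₂_add]; exact hp.add hq
  | monomial n c =>
    rw [Polynomial.map_monomial, eval₂_monomial, ← C_mul_X_pow_eq_monomial, map_mul, map_pow, ev_C,
      ev_X]
    exact (val_eval₂ h c).mul (h'.pow n)

theorem pt (hM : MINP) (hN : NRM) (hR : NRP) : PT := by
  intro C κ F _ _ _ _ _ O r hr ch a
  classical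
  refine ⟨fun P hP => ?_, fun P b h h' A => val_ev h h' A, fun b hb => ?_⟩
  · have h0 : ∀ β : O[X], eval₂ (io O F) ch.x β ∈ P.1 := fun β =>
      (mem_iff_ord P _).2 (mem_Mge.1 (val_eval₂ hP β).mem)
    let φ : O[X] →+* P.1 := (eval₂RingHom (io O F) ch.x).codRestrict P.1 h0
    have h1 : IsIntegral P.1 ch.th := ⟨ch.Φ.map φ, ch.monic.map φ, by
      rw [eval₂_map]; exact ch.root⟩
    obtain ⟨t, ht⟩ := IsIntegrallyClosed.isIntegral_iff.1 h1
    obtain ⟨b0, hb0⟩ := P027M.K.exists_val (P := P) (z := ch.th)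
      (mem_Mge.2 ((mem_iff_ord P _).1 (ht ▸ t.2)))
    have h2 := val_ev' hP hb0 ch.Φ
    rw [ch.root] at h2
    have h3 := h2.unique (P027M.K.Val.zero_iff.2 (zero_mem _))
    obtain ⟨b, rfl⟩ := IsIntegrallyClosed.isIntegral_iff.1
      (show IsIntegral O b0 from ⟨_, ch.monic.map _, h3⟩)
    have h4 := val_ev (b := b) hP hb0 ch.Φ
    rw [ch.root] at h4
    exact ⟨b, hb0, Subtype.ext (h4.unique (P027M.K.Val.zero_iff.2 (zero_mem _)))⟩
  · have hfd := (finite_of_notMem ch.nc).2
    have h1 := (hM C κ F O r hr ch).1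
    have hd : (minpoly C⟮ch.x⟯ ch.th).natDegree = ch.Φ.natDegree := by
      rw [h1, ch.monic.natDegree_map]
    have h2 := hN C⟮ch.x⟯ F (X - Polynomial.C (algebraMap C C⟮ch.x⟯ b)) ch.th 1 (hd.trans ch.deg)
      (natDegree_X_sub_C _).le
    rw [resultant_X_sub_C_right _ _ _ le_rfl, map_sub, aeval_X, aeval_C,
      ← IsScalarTower.algebraMap_apply] at h2
    set p : C[X] := (-1) ^ (minpoly C⟮ch.x⟯ ch.th).natDegree *
      (ch.Φ.eval (Polynomial.C b)).map O.subtype with hp
    have h3 : algebraMap C⟮ch.x⟯ F (Algebra.norm C⟮ch.x⟯ (ch.th - algebraMap C F b)) =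
        aeval ch.x p := by
      rw [h2, hp, map_mul, map_mul, map_pow, map_pow, map_neg, map_neg, map_one, map_one,
        ← eval₂_io]
      congr 1
      have h4 : algebraMap C C⟮ch.x⟯ b =
          eval₂RingHom (io O C⟮ch.x⟯) (AdjoinSimple.gen C ch.x) (Polynomial.C b) := by
        simp [io_apply]
      rw [h1, h4, eval_map_apply, coe_eval₂RingHom, hom_eval₂, AdjoinSimple.algebraMap_gen]
      rfl
    have hval : ∀ P : Plk C F, 0 < ord P (ch.th - algebraMap C F b) → Val P ch.th (b : C) :=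
      fun P h => mem_Mge_one_of_pos h
    by_cases hp0 : p = 0
    · rw [hp0, map_zero, map_eq_zero, Algebra.norm_eq_zero_iff] at h3
      obtain ⟨P, hP⟩ := exists_zero (nc_sub ch.nc (a : C))
      exact ⟨P, mem_Mge_one_of_pos hP, by unfold Val; rw [h3]; exact zero_mem _⟩
    · have h4 := hR C F ch.x _ p a ch.nc hp0 h3
      have h5 : 0 < rootMultiplicity (a : C) p := (rootMultiplicity_pos hp0).2 (by
        have h6 : ((ch.Φ.eval (Polynomial.C b)).map O.subtype).eval (a : C) =
            (((ch.Φ.eval (Polynomial.C b)).eval a : O) : C) := eval_map_apply O.subtype a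
        rw [IsRoot.def, hp, eval_mul, h6, show (ch.Φ.eval (Polynomial.C b)).eval a = 0 from hb]
        simp)
      by_contra h6
      push Not at h6
      have h7 : Finsupp.mapDomain (clb ch.x) (dv C (ch.th - algebraMap C F b)) (some (a : C)) ≤ 0 := by
        simp only [Finsupp.mapDomain, Finsupp.sum_apply, Finsupp.single_apply]
        refine Finset.sum_nonpos fun P _ => ?_
        dsimp only
        split_ifs with h8
        · rw [dv_apply]
          exact not_lt.1 fun h9 => h6 P (clb_eq_some.1 h8) (hval P h9)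
        · exact le_rfl
      omega

theorem rep (hB : BAS) (hP : PT) (hD : DEN) : REP := by
  intro C κ F _ _ _ _ _ O r hr ch f hf
  obtain ⟨b1, -, b3⟩ := hB C κ F O r hr ch
  obtain ⟨c, A, β, hc, hA, hA0, hβ, h1⟩ := b3 f hf
  obtain ⟨B, Q, β', hβ', h2⟩ := b1 A hA hA0
  have hc' : algebraMap C F c ≠ 0 := (_root_.map_ne_zero _).2 hc
  refine ⟨c, hc, fun s hs h0 => ?_⟩
  set z := f / algebraMap C F c with hz
  have hz0 : z ≠ 0 := div_ne_zero hf hc'
  have hoz : ∀ P, InCl r ch.x s P → ord P z = 0 := fun P h => by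
    rw [hz, div_eq_mul_inv, ord_mul P hf (inv_ne_zero hc'), ord_inv, ord_const, h0 P h]
    rfl
  have h3 : z * eval₂ (io O F) ch.x β = ev (io O F) ch.x ch.th A := by
    rw [hz, div_mul_eq_mul_div, h1, mul_div_cancel_left₀ _ hc']
  have h4 : z⁻¹ * eval₂ (io O F) ch.x β' = ev (io O F) ch.x ch.th (Polynomial.C β * B) := by
    have h5 := congrArg (ev (io O F) ch.x ch.th) h2
    rw [map_mul, map_add, map_mul, ch.root, zero_mul, add_zero, ev_C, ← h3] at h5
    rw [map_mul, ev_C, ← h5]
    field_simp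
  obtain ⟨A1, β1, k1, k2⟩ := hD C κ F O r hr ch z A β s hs hβ h3 fun P h => (hoz P h).ge
  obtain ⟨A2, β2, k3, k4⟩ := hD C κ F O r hr ch z⁻¹ _ β' s hs hβ' h4 fun P h => by
    rw [ord_inv, hoz P h]; rfl
  refine ⟨A1, β1, k1, by rw [← k2, hz]; field_simp, fun P a ha hPa => ?_⟩
  obtain ⟨b, hb, -⟩ := (hP C κ F O r hr ch a).1 P hPa
  refine ⟨b, hb, ?_⟩
  have k5 : ev (io O F) ch.x ch.th (A1 * A2) = eval₂ (io O F) ch.x (β1 * β2) := by
    rw [map_mul, eval₂_mul, ← k2, ← k4]
    field_simp
  have k6 := val_ev hPa hb (A1 * A2)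
  rw [k5] at k6
  have k7 : (A1 * A2).evalEval a b = (β1 * β2).eval a :=
    Subtype.ext (k6.unique (val_eval₂ hPa _))
  have k8 : IsUnit ((β1 * β2).eval a) := (unit_iff hr _).2 (by
    rw [← eval₂_hom, ha, eval₂_mul]
    exact mul_ne_zero k1 k3)
  rw [← k7, evalEval_mul] at k8
  exact isUnit_of_mul_isUnit_left k8

end Vale.Agent.P027M.D.Own
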