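import Vale.Agent.P027M.D.Atlas

/-!
# P027, route M, block D: rows FLM and FLS
-/

set_option linter.all false

noncomputable section

namespace Vale.Agent.P027M.D

open NumberField Polynomial Vale.Agent.P022 Vale.Agent.P019P P025H816

theorem flm : Spec_FLM := by
  intro F _ _ _ O I r m M _ q a h hq hp hs ha χ y
  obtain ⟨f, hf, rfl⟩ := hs y
  have := h (fun f => χ (q f)) (fun f hf g hg => by rw [hq f hf g hg, χ.map_add_eq_mul])
    (fun f hf => by rw [hp f hf, χ.map_zero_eq_one]) f hf
  have e : (fun σ : I => χ (a σ (q f))) = fun σ : I => χ (q (Units.map (r σ : F →* F) f)) :=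
    funext fun σ => by rw [ha σ σ.2 f hf]
  rw [e]
  exact this

theorem Unr.pow_val_add {w : Qb} (h : w ^ 3 = 1) (u v : ZMod 3) :
    w ^ (u + v).val = w ^ u.val * w ^ v.val := by
  rw [← pow_add, ZMod.val_add, ← pow_eq_pow_mod _ h]

theorem fls : Spec_FLS := by
  intro O I w M _ a hw h f y
  have h3 : w ^ 3 = 1 := by
    have : w ^ 3 - 1 = (w - 1) * (w ^ 2 + w + 1) := by ring
    rw [hw, mul_zero, sub_eq_zero] at this
    exact this
  have hO : w ∈ O := by
    rw [← O.valuation_le_one_iff]
    have h1 : O.valuation w ^ 3 = 1 := by rw [← map_pow, h3, map_one]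
    by_contra hc
    exact absurd h1 (one_lt_pow₀ (not_le.1 hc) (by norm_num)).ne'
  let χ : AddChar M Qb :=
    { toFun := fun x => w ^ (f x).val
      map_zero_eq_one' := by simp
      map_add_eq_mul' := fun x z => by rw [map_add, Unr.pow_val_add h3] }
  have h1 := mul_mem (h χ y) (const_mem (I := I) (O.pow_mem hO (-f y).val))
  have e : (fun σ : I => w ^ (f (a σ y) - f y).val) =
      (fun σ : I => χ (a σ y)) * fun _ : I => w ^ (-f y).val := funext fun σ => by
    rw [sub_eq_add_neg, Unr.pow_val_add h3]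
    rfl
  unfold FlS
  rw [e]
  exact h1

end Vale.Agent.P027M.D
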